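import Crest.Agent.R197.Defs

/-!
# R197-CD: group cohomology from a free resolution of length two
-/

set_option autoImplicit false

noncomputable section

namespace Crest.Agent.R197

open Function CategoryTheory CategoryTheory.Limits

namespace CD

variable {G : Type} [Group G]

/-- Left translation as a representation. -/
def rho (G X : Type) [Group G] : Representation ℤ G (G × X →₀ ℤ) where
  toFun h := tr h
  map_one' := LinearMap.ext fun z => tr_one z
  map_mul' h h' := LinearMap.ext fun z => tr_mul h h' z

@[simp] lemma rho_apply {X : Type} (h : G) (z : G × X →₀ ℤ) : rho G X h z = tr h z := rfl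

/-- The free representation on `X`. -/
abbrev F (G X : Type) [Group G] : Rep ℤ G := Rep.of (rho G X)

section
attribute [local instance 2000] Rep.hV2

/-- Equivariant extension. -/
def liftF {X : Type} (A : Rep.{0} ℤ G) (a : X → A) : F G X ⟶ A :=
  Rep.ofHom (σ := A.ρ) ((Finsupp.linearCombination ℤ
    (fun p : G × X => A.ρ p.1 (a p.2))).intertwiningMap_of_isIntertwiningMap (rho G X) A.ρ (by
      intro g z
      induction z using Finsupp.induction_linear with
      | zero => simp
      | add a b ha hb => simp only [map_add, ha, hb]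
      | single p k => simp))

lemma liftF_single {X : Type} (A : Rep.{0} ℤ G) (a : X → A) (p : G × X) :
    (liftF A a).hom (Finsupp.single p 1) = A.ρ p.1 (a p.2) := by
  change Finsupp.linearCombination ℤ (fun p : G × X => A.ρ p.1 (a p.2)) (Finsupp.single p 1) = _
  rw [Finsupp.linearCombination_single]
  exact @one_smul ℤ _ _ A.hV2.toDistribMulAction.toMulAction _

lemma hom_ext' {X : Type} {A : Rep.{0} ℤ G} (f g : F G X ⟶ A)
    (h : ∀ z, f.hom z = g.hom z) : f = g := by
  apply Rep.hom_ext
  apply Representation.IntertwiningMap.ext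
  exact LinearMap.ext h

end

lemma hom_single {X : Type} {A : Rep.{0} ℤ G} (f : F G X ⟶ A) (p : G × X) (k : ℤ) :
    f.hom (Finsupp.single p k) = k • A.ρ p.1 (f.hom (Finsupp.single (1, p.2) 1)) := by
  rw [← Rep.hom_comm_apply, ← map_zsmul]
  congr 1
  simp

lemma F_ext {X : Type} {A : Rep.{0} ℤ G} (f g : F G X ⟶ A)
    (h : ∀ x, f.hom (Finsupp.single (1, x) 1) = g.hom (Finsupp.single (1, x) 1)) : f = g := by
  apply hom_ext'
  intro z
  induction z using Finsupp.induction_linear with
  | zero => simp
  | add a b ha hb => simp only [map_add, ha, hb]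
  | single p k => rw [hom_single f, hom_single g, h]

instance proj (X : Type) : Projective (F G X) where
  factors {E B} f e _ := by
    have hs : Surjective e.hom := (Rep.epi_iff_surjective e).1 inferInstance
    choose a ha using fun x : X => hs (f.hom (Finsupp.single (1, x) 1))
    refine ⟨liftF E a, F_ext _ _ fun x => ?_⟩
    change e.hom ((liftF E a).hom _) = _
    rw [liftF_single]
    simpa using ha x

lemma isZero_F : IsZero (F G Empty) := by
  rw [IsZero.iff_id_eq_zero]
  exact F_ext _ _ fun x => x.elim

variable {S R : Type} (φ : S → G) (w : R → FreeGroup S)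

/-- `G →₀ ℤ` as `G × Unit →₀ ℤ`. -/
def up : (G →₀ ℤ) ≃ₗ[ℤ] (G × Unit →₀ ℤ) := Finsupp.domLCongr (Equiv.prodPUnit G).symm

@[simp] lemma up_single (g : G) (k : ℤ) :
    up (Finsupp.single g k) = Finsupp.single (g, ()) k := by simp [up]

/-- Second differential. -/
def e2 : F G R ⟶ F G S :=
  Rep.ofHom ((d2 φ w).intertwiningMap_of_isIntertwiningMap _ _ fun g z => d2_tr φ w g z)

/-- First differential. -/
def e1 : F G S ⟶ F G Unit :=
  Rep.ofHom ((up.toLinearMap ∘ₗ d1 φ).intertwiningMap_of_isIntertwiningMap _ _ (by
    intro g z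
    induction z using Finsupp.induction_linear with
    | zero => simp
    | add a b ha hb => simp only [map_add, ha, hb]
    | single p k => simp [mul_assoc]))

/-- Augmentation. -/
def e0 : F G Unit ⟶ Rep.trivial ℤ G ℤ :=
  Rep.ofHom ((aug G ∘ₗ up.symm.toLinearMap).intertwiningMap_of_isIntertwiningMap _ _ (by
    intro g z
    obtain ⟨z, rfl⟩ := up.surjective z
    induction z using Finsupp.induction_linear with
    | zero => simp
    | add a b ha hb => simp only [map_add, ha, hb]
    | single p k =>
      simp only [up_single, rho_apply, tr_single]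
      rw [← up_single, ← up_single]
      simp only [LinearMap.comp_apply, LinearEquiv.coe_coe, LinearEquiv.symm_apply_apply, aug_single,
        Representation.trivial_apply]))

lemma e2_apply (z : G × R →₀ ℤ) : (e2 φ w).hom z = d2 φ w z := rfl
lemma e1_apply (z : G × S →₀ ℤ) : (e1 φ).hom z = up (d1 φ z) := rfl
lemma e0_apply (z : G × Unit →₀ ℤ) : (e0 (G := G)).hom z = aug G (up.symm z) := rfl

/-- Index types. -/
def T (S R : Type) : ℕ → Type
  | 0 => Unit
  | 1 => S
  | 2 => R
  | _ + 3 => Empty

/-- Differentials. -/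
def dd : ∀ n, F G (T S R (n + 1)) ⟶ F G (T S R n)
  | 0 => e1 φ
  | 1 => e2 φ w
  | _ + 2 => 0

variable {φ w}

lemma d1_d2 (h : Acyc φ w) (z : G × R →₀ ℤ) : d1 φ (d2 φ w z) = 0 := by
  induction z using Finsupp.induction_linear with
  | zero => simp
  | add a b ha hb => simp only [map_add, ha, hb, add_zero]
  | single p k => simp [d1_D, h.rel]

lemma aug_d1 (z : G × S →₀ ℤ) : aug G (d1 φ z) = 0 := by
  induction z using Finsupp.induction_linear with
  | zero => simp
  | add a b ha hb => simp only [map_add, ha, hb, add_zero]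
  | single p k => simp

lemma e21 (h : Acyc φ w) : e2 φ w ≫ e1 φ = 0 := by
  refine F_ext _ _ fun x => ?_
  change up (d1 φ (d2 φ w _)) = 0
  rw [d1_d2 h, map_zero]

lemma e10 : e1 φ ≫ e0 = 0 := by
  refine F_ext _ _ fun x => ?_
  change aug G (up.symm (up (d1 φ _))) = 0
  rw [LinearEquiv.symm_apply_apply, aug_d1]

/-- The complex. -/
def cx (h : Acyc φ w) : ChainComplex (Rep ℤ G) ℕ :=
  ChainComplex.of (fun n => F G (T S R n)) (dd φ w) (by
    intro n
    match n with
    | 0 => exact e21 h
    | n + 1 => exact zero_comp)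

lemma cx_d (h : Acyc φ w) (n : ℕ) : (cx h).d (n + 1) n = dd φ w n :=
  ChainComplex.of_d (fun n => F G (T S R n)) (dd φ w) n

/-- The augmentation as a chain map. -/
def pi (h : Acyc φ w) : cx h ⟶ (ChainComplex.single₀ (Rep ℤ G)).obj (Rep.trivial ℤ G ℤ) :=
  ((cx h).toSingle₀Equiv _).symm ⟨e0, by rw [cx_d h 0]; exact e10⟩

attribute [local instance 2000] Rep.hV2 in
lemma exact_of {A B C : Rep.{0} ℤ G} (f : A ⟶ B) (g : B ⟶ C) (z : f ≫ g = 0)
    (h : ∀ b, g.hom b = 0 → ∃ a, f.hom a = b) : (ShortComplex.mk f g z).Exact := by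
  apply (forget₂ _ (ModuleCat ℤ)).reflects_exact_of_faithful
  rw [ShortComplex.moduleCat_exact_iff]
  exact h

lemma quasi (h : Acyc φ w) : QuasiIso (pi h) where
  quasiIsoAt m := by
    induction m with
    | zero =>
      rw [ChainComplex.quasiIsoAt₀_iff, ShortComplex.quasiIso_iff_of_zeros' _ rfl rfl rfl]
      have h0 : (pi h).f 0 = e0 := by
        exact ChainComplex.toSingle₀Equiv_symm_apply_f_zero _ _
      constructor
      · apply exact_of
        intro b hb
        change ((pi h).f 0).hom b = 0 at hb
        rw [h0] at hb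
        obtain ⟨y, hy⟩ := h.ex0 _ hb
        refine ⟨y, ?_⟩
        change ((cx h).d (0 + 1) 0).hom y = b
        rw [cx_d]
        change up (d1 φ y) = b
        rw [hy]
        exact up.apply_symm_apply _
      · rw [Rep.epi_iff_surjective]
        intro x
        refine ⟨up (Finsupp.single 1 x), ?_⟩
        change ((pi h).f 0).hom _ = x
        rw [h0]
        change aug G (up.symm (up _)) = x
        rw [LinearEquiv.symm_apply_apply]
        exact aug_single _ _ _
    | succ m _ =>
      rw [quasiIsoAt_iff_exactAt' (hL := ChainComplex.exactAt_succ_single_obj ..),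
          HomologicalComplex.exactAt_iff' _ (m + 2) (m + 1) m (by simp) (by simp)]
      apply exact_of
      intro b hb
      change ((cx h).d (m + 1) m).hom b = 0 at hb
      change ∃ a, ((cx h).d (m + 1 + 1) (m + 1)).hom a = b
      rw [cx_d] at hb ⊢
      match m, b, hb with
      | 0, b, hb =>
        change up (d1 φ b) = 0 at hb
        exact h.ex1 b (by simpa using hb)
      | 1, b, hb =>
        change d2 φ w b = 0 at hb
        refine ⟨0, ?_⟩
        rw [map_zero]
        exact (h.inj (hb.trans (map_zero _).symm)).symm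
      | m + 2, b, hb =>
        refine ⟨0, ?_⟩
        rw [map_zero]
        change (0 : G × Empty →₀ ℤ) = b
        ext p
        exact p.2.elim

/-- The resolution. -/
def res (h : Acyc φ w) : ProjectiveResolution (Rep.trivial ℤ G ℤ) where
  complex := cx h
  projective n := proj (T S R n)
  π := pi h
  quasiIso := quasi h

end CD

open CD in
theorem cd : CdStmt := by
  intro G S R _ φ w h
  constructor
  · intro A n hn
    obtain ⟨m, rfl⟩ := Nat.exists_eq_add_of_le' hn
    refine IsZero.of_iso ?_ (groupCohomologyIso A (m + 3) (res h))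
    rw [← HomologicalComplex.exactAt_iff_isZero_homology]
    apply HomologicalComplex.ExactAt.of_isZero
    have : Subsingleton (((res h).complex.linearYonedaObj ℤ A).X (m + 3)) :=
      ⟨fun f g => isZero_F.eq_of_src f g⟩
    exact @ModuleCat.isZero_of_subsingleton _ _ _ this
  · intro c hc hz
    have hz' := IsZero.of_iso hz (groupCohomologyIso (Rep.trivial ℤ G ℤ) 2 (res h)).symm
    rw [← HomologicalComplex.exactAt_iff_isZero_homology,
      HomologicalComplex.exactAt_iff' _ 1 2 3 (by simp) (by simp),
      ShortComplex.moduleCat_exact_iff] at hz'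
    obtain ⟨y, hy⟩ : ∃ y : F G S ⟶ Rep.trivial ℤ G ℤ,
        (cx h).d (1 + 1) 1 ≫ y = liftF (Rep.trivial ℤ G ℤ) c :=
      hz' (liftF (Rep.trivial ℤ G ℤ) c) (isZero_F.eq_of_src _ _)
    rw [cx_d] at hy
    obtain ⟨r, hr⟩ := hc fun s => y.hom (Finsupp.single (1, s) 1)
    apply hr
    have h1 : y.hom (d2 φ w (Finsupp.single (1, r) 1)) =
        (liftF (Rep.trivial ℤ G ℤ) c).hom (Finsupp.single (1, r) 1) :=
      congrArg (fun f : F G R ⟶ Rep.trivial ℤ G ℤ => f.hom (Finsupp.single (1, r) 1)) hy
    rw [liftF_single, d2_single, one_smul] at h1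
    have h2 : ∀ z : G × S →₀ ℤ, Finsupp.linearCombination ℤ (fun p : G × S =>
        y.hom (Finsupp.single (1, p.2) 1)) z = y.hom z := by
      intro z
      induction z using Finsupp.induction_linear with
      | zero => simp
      | add a b ha hb => simp only [map_add, ha, hb]
      | single p k => rw [hom_single, Finsupp.linearCombination_single]; simp
    rw [h2, h1]
    simp

end Crest.Agent.R197
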