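import Crest.Agent.R197.Defs

/-! R197, sub-task COC: small flat quaternion cocycles on the Bestvina-Brady group. -/

set_option autoImplicit false

noncomputable section

namespace Crest.Agent.R197

open Function Quaternion

namespace Co

variable {V : Type} {L : SimpleGraph V}

/-- initial letters -/
def Init (L : SimpleGraph V) (g : RA L) (l : V × Bool) : Prop := Down L g⁻¹ l

/-- prefix order -/
def Pre (L : SimpleGraph V) (m g : RA L) : Prop := len L m + len L (m⁻¹ * g) ≤ len L g

lemma Init.mono {m g : RA L} {l : V × Bool} (h : Init L m l) (hp : Pre L m g) : Init L g l := by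
  unfold Init Down at *
  unfold Pre at hp
  have h1 := len_mul_le L (m⁻¹ * g)⁻¹ (m⁻¹ * lt L l)
  rw [len_inv] at h h1 ⊢
  have e : (m⁻¹ * g)⁻¹ * (m⁻¹ * lt L l) = g⁻¹ * lt L l := by group
  rw [e] at h1
  omega

lemma not_init_one (l : V × Bool) : ¬Init L 1 l := by simp [Init, Down]

lemma pre_up (h : NF L) {g : RA L} {l : V × Bool} (hl : ¬Down L g l) : Pre L g (g * lt L l) := by
  have h1 := h.step g l
  have h2 := len_lt_le L l
  unfold Down at hl
  unfold Pre
  rw [inv_mul_cancel_left]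
  omega

lemma pre_down {g : RA L} {l : V × Bool} (hl : Down L g l) : Pre L (g * lt L l) g := by
  have h2 := len_lt_le L l
  unfold Down at hl
  unfold Pre
  rw [show (g * lt L l)⁻¹ * g = (lt L l)⁻¹ by group, len_inv]
  omega

lemma pass (h : NF L) (x : V × Bool) (m : RA L) : ∀ (k : ℕ) (t : RA L), len L t = k →
    Pre L m (m * t) → Down L (m * t) x → ¬Down L t x → Commute (lt L x) t ∧ Down L m x := by
  intro k
  induction k using Nat.strong_induction_on with
  | _ k ih =>
    intro t hk hp h1 h2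
    by_cases ht : t = 1
    · subst ht
      exact ⟨Commute.one_right _, by simpa using h1⟩
    obtain ⟨y, hy⟩ := exists_down L ht
    have s1 := h.step t y
    have s2 := h.step (m * t) y
    have s3 := len_mul_le L m (t * lt L y)
    unfold Pre at hp
    rw [inv_mul_cancel_left] at hp
    have hy' : Down L (m * t) y := by
      unfold Down at *
      rw [mul_assoc]; omega
    have hadj := h.clique _ _ _ hy' h1 (by rintro rfl; exact h2 hy)
    obtain ⟨c1, c2⟩ := ih _ (hk ▸ hy) (t * lt L y) rfl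
      (by
        unfold Pre Down at *
        rw [inv_mul_cancel_left, ← mul_assoc]; omega)
      (by rw [← mul_assoc]; exact (h.comm _ _ _ hadj).2 h1)
      (fun h3 => h2 ((h.comm _ _ _ hadj).1 h3))
    refine ⟨?_, c2⟩
    have := c1.mul_right (lt_comm L hadj).symm.inv_right
    simpa using this

lemma median (h : NF L) (g : RA L) (w : List (V × Bool)) :
    ∃ m, Pre L m g ∧ Pre L m (g * (w.map (lt L)).prod) ∧
      len L (m⁻¹ * g) + len L (m⁻¹ * (g * (w.map (lt L)).prod)) ≤ w.length := by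
  induction w using List.reverseRecOn with
  | nil => exact ⟨g, by simp [Pre], by simp [Pre], by simp⟩
  | append_singleton w x ih =>
    obtain ⟨m, p1, p2, p3⟩ := ih
    simp only [List.map_append, List.prod_append, List.map_cons, List.map_nil, List.prod_cons,
      List.prod_nil, mul_one, ← mul_assoc g, List.length_append, List.length_cons, List.length_nil]
    obtain ⟨t, ht⟩ : ∃ t, g * (w.map (lt L)).prod = m * t := ⟨m⁻¹ * _, (mul_inv_cancel_left _ _).symm⟩
    rw [ht] at p2 p3 ⊢
    have s1 := h.step t x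
    have s2 := h.step (m * t) x
    have s3 := h.step m x
    have e1 : m⁻¹ * (m * t * lt L x) = t * lt L x := by group
    by_cases d1 : Down L (m * t) x
    · by_cases d2 : Down L t x
      · refine ⟨m, p1, ?_, ?_⟩ <;> unfold Pre Down at * <;>
          rw [inv_mul_cancel_left] at p2 p3 <;> rw [e1] <;> omega
      · obtain ⟨c1, c2⟩ := pass h x m _ t rfl p2 d1 d2
        have e2 : (m * lt L x)⁻¹ * (m * t * lt L x) = t := by
          rw [mul_assoc m, ← c1.eq]; group
        have e3 := len_mul_le L (lt L x)⁻¹ (m⁻¹ * g)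
        rw [len_inv, show (lt L x)⁻¹ * (m⁻¹ * g) = (m * lt L x)⁻¹ * g by group] at e3
        have e4 := len_lt_le L x
        refine ⟨m * lt L x, ?_, ?_, ?_⟩ <;> unfold Pre Down at * <;>
          rw [inv_mul_cancel_left] at p2 p3 <;> (try rw [e2]) <;> omega
    · refine ⟨m, p1, ?_, ?_⟩ <;> unfold Pre Down at * <;>
        rw [inv_mul_cancel_left] at p2 p3 <;> rw [e1] <;> omega

/-- distance to the elements that do not begin with `l` -/
def wt (L : SimpleGraph V) (g : RA L) (l : V × Bool) : ℕ :=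
  sInf {n | ∃ h, ¬Init L h l ∧ len L (g⁻¹ * h) = n}

lemma wt_le {g h : RA L} {l : V × Bool} (hh : ¬Init L h l) : wt L g l ≤ len L (g⁻¹ * h) :=
  Nat.sInf_le ⟨h, hh, rfl⟩

lemma wt_spec (g : RA L) (l : V × Bool) : ∃ h, ¬Init L h l ∧ len L (g⁻¹ * h) = wt L g l :=
  Nat.sInf_mem (s := {n | ∃ h, ¬Init L h l ∧ len L (g⁻¹ * h) = n}) ⟨_, 1, not_init_one l, rfl⟩

lemma wt_lip (g g' : RA L) (l : V × Bool) : wt L g l ≤ len L (g⁻¹ * g') + wt L g' l := by
  obtain ⟨h, h1, h2⟩ := wt_spec g' l
  have := len_mul_le L (g⁻¹ * g') (g'⁻¹ * h)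
  rw [show g⁻¹ * g' * (g'⁻¹ * h) = g⁻¹ * h by group] at this
  exact (wt_le h1).trans (h2 ▸ this)

lemma init_of_wt {g : RA L} {l : V × Bool} (h : wt L g l ≠ 0) : Init L g l := by
  by_contra h'
  have := wt_le (g := g) h'
  simp at this
  exact h this

open Classical in
lemma len_le_wt [Fintype V] (h : NF L) (k : ℕ) : ∀ (g : RA L) (M : ℕ),
    (Finset.univ.filter (Init L g)).card ≤ k → (∀ l, wt L g l ≤ M) → len L g + M ≤ 2 ^ k * M := by
  induction k with
  | zero =>
    intro g M h1 _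
    by_cases hg : g⁻¹ = 1
    · rw [inv_eq_one.1 hg]; simp
    · obtain ⟨l, hl⟩ := exists_down L hg
      have : l ∈ Finset.univ.filter (Init L g) := Finset.mem_filter.2 ⟨Finset.mem_univ _, hl⟩
      rw [Nat.le_zero, Finset.card_eq_zero] at h1
      simp [h1] at this
  | succ k ih =>
    intro g M h1 h2
    by_cases hg : g⁻¹ = 1
    · rw [inv_eq_one.1 hg, len_one, zero_add]
      exact Nat.le_mul_of_pos_left _ (by positivity)
    obtain ⟨l, hl⟩ := exists_down L hg
    obtain ⟨t, t1, t2⟩ := wt_spec g l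
    obtain ⟨w, w1, w2⟩ := exists_list L (g⁻¹ * t)
    obtain ⟨m, p1, p2, p3⟩ := median h g w
    rw [w2, mul_inv_cancel_left] at p2
    have hM := h2 l
    have hc : (Finset.univ.filter (Init L m)).card < (Finset.univ.filter (Init L g)).card := by
      refine Finset.card_lt_card ⟨fun x hx => ?_, fun hs => ?_⟩
      · simp only [Finset.mem_filter, Finset.mem_univ, true_and] at hx ⊢
        exact hx.mono p1
      · have : l ∈ Finset.univ.filter (Init L m) := hs (Finset.mem_filter.2 ⟨Finset.mem_univ _, hl⟩)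
        simp only [Finset.mem_filter, Finset.mem_univ, true_and] at this
        exact t1 (this.mono p2)
    have := ih m (2 * M) (by omega) fun x => by
      have := wt_lip m g x
      have := h2 x
      omega
    have h3 := len_mul_le L m (m⁻¹ * g)
    rw [mul_inv_cancel_left] at h3
    rw [pow_succ, mul_assoc]
    omega

lemma init_near (h : NF L) {g : RA L} {x y : V × Bool} (hx : Init L g x) (hy : Init L g y) :
    Near L x.1 y.1 := by
  by_cases e : x = y
  · exact Or.inl (by rw [e])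
  · exact Or.inr (h.clique _ _ _ hx hy e)

lemma init_near2 (h : NF L) {g : RA L} {l m x y : V × Bool} (hlm : L.Adj l.1 m.1)
    (hx : Init L g x) (hy : Init L (g * lt L l * lt L m) y) : Near L x.1 y.1 := by
  by_cases d1 : Down L g l <;> by_cases d2 : Down L g m
  · exact init_near h hx ((hy.mono (pre_down ((h.comm _ _ _ hlm).2 d2))).mono (pre_down d1))
  · rw [mul_assoc, (lt_comm L hlm).eq, ← mul_assoc] at hy
    exact init_near h (hx.mono (pre_up h d2))
      (hy.mono (pre_down ((h.comm _ _ _ hlm.symm).2 d1)))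
  · exact init_near h (hx.mono (pre_up h d1)) (hy.mono (pre_down ((h.comm _ _ _ hlm).2 d2)))
  · exact init_near h ((hx.mono (pre_up h d1)).mono
      (pre_up h fun d => d2 ((h.comm _ _ _ hlm).1 d))) hy

/-- additive characters -/
def chi (L : SimpleGraph V) (f : V → ℤ) : RA L →* Multiplicative ℤ :=
  raLift L (fun v => Multiplicative.ofAdd (f v)) fun _ _ _ => Commute.all _ _

lemma chi_le (f : V → ℤ) (hf : ∀ v, |f v| ≤ 1) (g : RA L) :
    Multiplicative.toAdd (chi L f g) ≤ len L g := by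
  obtain ⟨w, w1, w2⟩ := exists_list L g
  rw [← w1, ← w2]
  clear w1 w2
  induction w with
  | nil => simp
  | cons x w ih =>
    have : Multiplicative.toAdd (chi L f (lt L x)) ≤ 1 := by
      obtain ⟨v, _ | _⟩ := x <;> have := abs_le.1 (hf v) <;> simp [chi] <;> omega
    simp only [List.map_cons, List.prod_cons, map_mul, toAdd_mul, List.length_cons]
    push_cast
    omega

lemma ht_le (g : RA L) : ht L g ≤ len L g := chi_le (fun _ => 1) (by simp) g

lemma len_pow_le (v : V) (k : ℕ) : len L (gen L v ^ k) ≤ k := by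
  simpa using len_le L (List.replicate k (v, true))

lemma init_pow {u v : V} {k j : ℕ} {l : V × Bool} (h : Init L (gen L u ^ k * gen L v ^ j) l) :
    l.1 = u ∨ l.1 = v := by
  classical
  by_contra hc
  push Not at hc
  obtain ⟨z, b⟩ := l
  have h1 := chi_le (L := L) (fun x => if x = z then (if b then -1 else 1) else 1)
    (fun x => by split_ifs <;> simp) ((gen L u ^ k * gen L v ^ j)⁻¹ * lt L (z, b))⁻¹
  have h2 := len_mul_le L (gen L u ^ k) (gen L v ^ j)
  have h3 := len_pow_le (L := L) u k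
  have h4 := len_pow_le (L := L) v j
  unfold Init Down at h
  rw [len_inv] at h h1
  cases b <;> simp [chi, hc.1.symm, hc.2.symm] at h1 h <;> omega

lemma near_symm {u v : V} (h : Near L u v) : Near L v u := h.imp Eq.symm fun h => h.symm

lemma exists_xi [Fintype V] (hd : Dim2 L) (β : V → V → ℍ) (h1 : ∀ u v, Near L u v → ‖β u v‖ = 1)
    (h2 : ∀ u v t, Near L u v → Near L v t → Near L u t → β u v * β v t = β u t) (A : Finset V) :
    ∃ ξ : V → ℍ, ∀ σ ⊆ A, (∀ v ∈ σ, ∀ v' ∈ σ, Near L v v') → ∀ u, (∀ v ∈ σ, Near L u v) →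
      ∀ p : V → ℝ, ∑ v ∈ σ, p v • (β u v * ξ v) = 0 → ∀ v ∈ σ, p v = 0 := by
  classical
  induction A using Finset.induction_on with
  | empty => exact ⟨0, fun σ hσ _ _ _ _ _ v hv => absurd (hσ hv) (by simp)⟩
  | insert a A ha ih =>
    obtain ⟨ξ, hξ⟩ := ih
    obtain ⟨x, hx⟩ := Submodule.exists_forall_notMem_of_forall_ne_top
      (fun σ : {σ : Finset V // σ.card ≤ 2} =>
        Submodule.span ℝ ((σ.1.image fun v => β a v * ξ v : Finset ℍ) : Set ℍ)) fun σ h => by
        have h3 := finrank_span_finset_le_card (R := ℝ) (σ.1.image fun v => β a v * ξ v)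
        have h4 := Finset.card_image_le (s := σ.1) (f := fun v => β a v * ξ v)
        have h5 := σ.2
        rw [Set.finrank, h, finrank_top, Quaternion.finrank_eq_four] at h3
        omega
    refine ⟨update ξ a x, fun σ hσ hc u hu p hp => ?_⟩
    have hs : σ.erase a ⊆ A := fun v hv =>
      (Finset.mem_insert.1 (hσ (Finset.mem_of_mem_erase hv))).resolve_left (Finset.ne_of_mem_erase hv)
    have he : ∀ u, ∑ v ∈ σ.erase a, p v • (β u v * update ξ a x v) =
        ∑ v ∈ σ.erase a, p v • (β u v * ξ v) := fun u =>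
      Finset.sum_congr rfl fun v hv => by rw [update_of_ne (Finset.ne_of_mem_erase hv)]
    have key := hξ (σ.erase a) hs
      (fun v hv v' hv' => hc v (Finset.mem_of_mem_erase hv) v' (Finset.mem_of_mem_erase hv')) u
      (fun v hv => hu v (Finset.mem_of_mem_erase hv)) p
    by_cases haσ : a ∈ σ
    swap
    · rw [Finset.erase_eq_of_notMem haσ] at key he
      exact key (he u ▸ hp)
    rw [← Finset.add_sum_erase _ _ haσ, he, update_self] at hp
    have hpa : p a = 0 := by
      by_contra hne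
      have hcard : σ.card ≤ 3 := hd σ fun v hv v' hv' hvv => (hc v hv v' hv').resolve_left hvv
      have haa : β a a = 1 := by
        have h3 := h2 a a a (Or.inl rfl) (Or.inl rfl) (Or.inl rfl)
        have h4 : β a a ≠ 0 := norm_ne_zero_iff.1 (by rw [h1 a a (Or.inl rfl)]; norm_num)
        exact mul_left_cancel₀ h4 (by rw [h3, mul_one])
      have h5 := congrArg (β a u * ·) hp
      simp only [mul_add, mul_smul_comm, Finset.mul_sum, mul_zero, ← mul_assoc] at h5
      rw [h2 a u a (near_symm (hu a haσ)) (hu a haσ) (Or.inl rfl), haa, one_mul] at h5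
      apply hx ⟨σ.erase a, by rw [Finset.card_erase_of_mem haσ]; omega⟩
      rw [← Submodule.smul_mem_iff _ hne, eq_neg_of_add_eq_zero_left h5]
      refine neg_mem (Submodule.sum_mem _ fun v hv => Submodule.smul_mem _ _
        (Submodule.subset_span ?_))
      have hv' := Finset.mem_of_mem_erase hv
      rw [h2 a u v (near_symm (hu a haσ)) (hu v hv') (hc a haσ v hv')]
      exact Finset.mem_coe.2 (Finset.mem_image_of_mem _ hv)
    rw [hpa, zero_smul, zero_add] at hp
    intro v hv
    by_cases e : v = a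
    · rw [e, hpa]
    · exact key hp v (Finset.mem_erase.2 ⟨e, hv⟩)

lemma exists_bound [Fintype V] (hd : Dim2 L) (β : V → V → ℍ)
    (h1 : ∀ u v, Near L u v → ‖β u v‖ = 1)
    (h2 : ∀ u v t, Near L u v → Near L v t → Near L u t → β u v * β v t = β u t) :
    ∃ (ξ : V → ℍ) (K : ℝ), 0 ≤ K ∧ ∀ (u : V) (p : V → ℝ), (∀ v, p v ≠ 0 → Near L u v) →
      (∀ v v', p v ≠ 0 → p v' ≠ 0 → Near L v v') →
      ∀ v, p v ≤ K * ‖∑ v, p v • (β u v * ξ v)‖ := by
  classical
  obtain ⟨ξ, hξ⟩ := exists_xi hd β h1 h2 Finset.univ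
  have key : ∀ q : V × Finset V, ∃ K : ℝ, 0 ≤ K ∧ ((∀ v ∈ q.2, ∀ v' ∈ q.2, Near L v v') →
      (∀ v ∈ q.2, Near L q.1 v) → ∀ p : V → ℝ, ∀ v ∈ q.2,
        p v ≤ K * ‖∑ v ∈ q.2, p v • (β q.1 v * ξ v)‖) := by
    rintro ⟨u, σ⟩
    by_cases hc : (∀ v ∈ σ, ∀ v' ∈ σ, Near L v v') ∧ ∀ v ∈ σ, Near L u v
    swap
    · exact ⟨0, le_rfl, fun a b => absurd ⟨a, b⟩ hc⟩
    obtain ⟨K, -, hK⟩ := LinearMap.exists_antilipschitzWith
      (Fintype.linearCombination ℝ fun v : σ => β u v * ξ v) (by
        rw [LinearMap.ker_eq_bot']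
        intro p hp
        have := hξ σ (Finset.subset_univ _) hc.1 u hc.2 (fun v => if h : v ∈ σ then p ⟨v, h⟩ else 0)
          (by
            rw [← hp, Fintype.linearCombination_apply, ← Finset.sum_coe_sort]
            simp)
        funext v
        simpa using this v v.2)
    refine ⟨K, K.2, fun _ _ p v hv => ?_⟩
    have h3 := ZeroHomClass.bound_of_antilipschitz _ hK (fun v : σ => p v)
    rw [Fintype.linearCombination_apply,
      Finset.sum_coe_sort σ (fun v => p v • (β u v * ξ v))] at h3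
    exact ((le_abs_self _).trans (norm_le_pi_norm (fun v : σ => p v) ⟨v, hv⟩)).trans h3
  choose K hK0 hK using key
  refine ⟨ξ, ∑ q, K q, Finset.sum_nonneg fun q _ => hK0 q, fun u p hp1 hp2 v => ?_⟩
  by_cases hv : p v = 0
  · rw [hv]; exact mul_nonneg (Finset.sum_nonneg fun q _ => hK0 q) (norm_nonneg _)
  have := hK (u, Finset.univ.filter fun v => p v ≠ 0)
    (fun a ha b hb => hp2 a b (Finset.mem_filter.1 ha).2 (Finset.mem_filter.1 hb).2)
    (fun a ha => hp1 a (Finset.mem_filter.1 ha).2) p v (by simpa using hv)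
  rw [Finset.sum_filter_of_ne fun a _ ha => left_ne_zero_of_smul ha] at this
  exact this.trans (mul_le_mul_of_nonneg_right
    (Finset.single_le_sum (fun q _ => hK0 q) (Finset.mem_univ _)) (norm_nonneg _))

/-- normalisation -/
def nz (a : ℍ) : ℍ := ‖a‖⁻¹ • a

lemma norm_nz {a : ℍ} (ha : a ≠ 0) : ‖nz a‖ = 1 := norm_smul_inv_norm ha

lemma norm_nz_sub {a b : ℍ} (ha : a ≠ 0) (hb : b ≠ 0) : ‖nz b - nz a‖ ≤ 2 * ‖a - b‖ / ‖a‖ := by
  have ha' : 0 < ‖a‖ := norm_pos_iff.2 ha
  have hb' : 0 < ‖b‖ := norm_pos_iff.2 hb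
  have e : nz b - nz a = ‖a‖⁻¹ • ((‖a‖ - ‖b‖) • nz b - (a - b)) := by
    unfold nz
    rw [sub_smul, smul_smul ‖b‖, mul_inv_cancel₀ hb'.ne', one_smul, sub_sub, add_sub_cancel,
      smul_sub, smul_smul ‖a‖⁻¹, inv_mul_cancel₀ ha'.ne', one_smul]
  rw [e, norm_smul, norm_inv, norm_norm, le_div_iff₀ ha', mul_comm, ← mul_assoc,
    mul_inv_cancel₀ ha'.ne', one_mul]
  refine (norm_sub_le _ _).trans ?_
  rw [norm_smul, norm_nz hb, mul_one]
  have := abs_norm_sub_norm_le a b
  rw [Real.norm_eq_abs]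
  linarith

end Co

open Co in
theorem coc : CocStmt := by
  intro V _ _ L nf hd ⟨β, h1, h2, h3⟩ hsurj ε hε
  classical
  have hV : Nonempty V := by
    by_contra h
    exact h3 ⟨fun _ => 1, fun v => absurd ⟨v⟩ h, fun v => absurd ⟨v⟩ h⟩
  obtain ⟨v₀⟩ := id hV
  have hββ : ∀ a, β a a = 1 := fun a => by
    have h3 := h2 a a a (Or.inl rfl) (Or.inl rfl) (Or.inl rfl)
    have h4 : β a a ≠ 0 := norm_ne_zero_iff.1 (by rw [h1 a a (Or.inl rfl)]; norm_num)
    exact mul_left_cancel₀ h4 (by rw [h3, mul_one])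
  obtain ⟨ξ, K, hK0, hK⟩ := exists_bound hd β h1 h2
  obtain ⟨k, hk⟩ : ∃ k, k = Fintype.card (V × Bool) := ⟨_, rfl⟩
  have hmax : ∀ g : RA L, ∃ l, len L g ≤ 2 ^ k * wt L g l := fun g => by
    obtain ⟨l, -, hl⟩ := Finset.exists_max_image Finset.univ (wt L g) Finset.univ_nonempty
    exact ⟨l, le_trans (Nat.le_add_right _ _) (len_le_wt nf k g _
      (hk ▸ Finset.card_le_univ _) fun x => hl x (Finset.mem_univ _))⟩
  choose lm hlm using hmax
  let W : RA L → V → ℝ := fun g v => (wt L g (v, true) : ℝ) + wt L g (v, false)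
  have hW : ∀ g v, W g v ≠ 0 → ∃ b, Init L g (v, b) := fun g v h => by
    by_contra hc
    push Not at hc
    apply h
    have a1 : wt L g (v, true) = 0 := by by_contra h; exact hc _ (init_of_wt h)
    have a2 : wt L g (v, false) = 0 := by by_contra h; exact hc _ (init_of_wt h)
    simp [W, a1, a2]
  let Γ : RA L → ℍ := fun g => ∑ v, W g v • (β (lm g).1 v * ξ v)
  obtain ⟨n, hn1, hn⟩ : ∃ n : ℕ, 1 ≤ n ∧ 2 * (4 * ∑ v, ‖ξ v‖) * (2 ^ k * K) ≤ ε * n := by
    obtain ⟨n, hn⟩ := exists_nat_ge (2 * (4 * ∑ v, ‖ξ v‖) * (2 ^ k * K) / ε)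
    refine ⟨n + 1, by omega, ?_⟩
    rw [div_le_iff₀ hε] at hn
    push_cast
    linarith
  have hI : ∀ g, ht L g = n → Init L g (lm g) := fun g hg => init_of_wt fun h0 => by
    have a1 := hlm g
    have a2 := ht_le g
    rw [h0] at a1
    omega
  have hΓ : ∀ g, ht L g = n → (n : ℝ) ≤ 2 ^ k * K * ‖Γ g‖ := fun g hg => by
    have a1 := hK (lm g).1 (W g)
      (fun v hv => by obtain ⟨b, hb⟩ := hW g v hv; exact init_near nf (hI g hg) hb)
      (fun v v' hv hv' => by
        obtain ⟨b, hb⟩ := hW g v hv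
        obtain ⟨b', hb'⟩ := hW g v' hv'
        exact init_near nf hb hb') (lm g).1
    have a2 : (wt L g (lm g) : ℝ) ≤ W g (lm g).1 := by
      rcases e : lm g with ⟨v, _ | _⟩ <;> simp [W]
    have a3 : (n : ℝ) ≤ 2 ^ k * wt L g (lm g) := by
      have a4 := ht_le g
      exact_mod_cast (by have := hlm g; omega : n ≤ 2 ^ k * wt L g (lm g))
    rw [mul_assoc]
    exact a3.trans (mul_le_mul_of_nonneg_left (a2.trans a1) (by positivity))
  have hΓ0 : ∀ g, ht L g = n → Γ g ≠ 0 := fun g hg h0 => by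
    have := hΓ g hg
    rw [h0, norm_zero, mul_zero] at this
    have : (1 : ℝ) ≤ n := by exact_mod_cast hn1
    linarith
  let c : RA L := gen L v₀ ^ n
  have hpow : ∀ (v : V) (j : ℕ), ht L (gen L v ^ j) = j := fun v j => by
    induction j with
    | zero => simp
    | succ j ih => simp [pow_succ, ih]
  have hc : ∀ g : BB L, ht L (c * g) = n := fun g => by
    rw [ht_mul, hpow, (mem_BB L).1 g.2, add_zero]
  have hnear : ∀ (g : RA L) (e : Edge L) x y, Init L g x → Init L (g * phi0 L e) y →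
      Near L x.1 y.1 := fun g e x y hx hy =>
    init_near2 nf (l := (e.1.1, true)) (m := (e.1.2, false)) e.2.2 hx (by
      rw [mul_assoc]; exact hy)
  let r : RA L → RA L → ℍ := fun g g' => (nz (Γ g))⁻¹ * (β (lm g).1 (lm g').1 * nz (Γ g'))
  have hnr : ∀ (g : BB L) (e : Edge L), Near L (lm (c * g)).1 (lm (c * (g * phi0 L e : BB L))).1 :=
    fun g e => hnear _ e _ _ (hI _ (hc g)) (by
      have := hI _ (hc (g * phi0 L e))
      rwa [Subgroup.coe_mul, ← mul_assoc] at this ⊢)
  have hr : ∀ (g : BB L) (e : Edge L), ‖r (c * g) (c * (g * phi0 L e : BB L))‖ = 1 := fun g e => by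
    simp only [r, norm_mul, norm_inv, norm_nz (hΓ0 _ (hc _)), h1 _ _ (hnr g e)]
    norm_num
  let ρ : BB L → Edge L → ℍˣ := fun g e => Units.mk0 (r (c * g) (c * (g * phi0 L e : BB L)))
    (norm_ne_zero_iff.1 (by rw [hr]; norm_num))
  have hnz0 : ∀ g : BB L, nz (Γ (c * g)) ≠ 0 := fun g =>
    norm_ne_zero_iff.1 (by rw [norm_nz (hΓ0 _ (hc g))]; norm_num)
  refine ⟨ρ, hr, fun g e => ?_, ?_, ?_⟩
  · change ‖r (c * g) (c * (g * phi0 L e : BB L)) - 1‖ ≤ ε
    have hg := hc g
    have hg' := hc (g * phi0 L e)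
    have hn' := hnr g e
    have hne := hnear (c * g) e
    rw [mul_assoc, ← Subgroup.coe_mul] at hne
    have hlip : ∀ l, |(wt L (c * g) l : ℝ) - wt L (c * (g * phi0 L e : BB L)) l| ≤ 2 := fun l => by
      have a0 : len L (phi0 L e : RA L) ≤ 2 := by
        have := len_mul_le L (lt L (e.1.1, true)) (lt L (e.1.2, false))
        have := len_lt_le L (e.1.1, true)
        have := len_lt_le L (e.1.2, false)
        change len L (lt L (e.1.1, true) * lt L (e.1.2, false)) ≤ 2
        omega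
      have a1 := wt_lip (c * (g : RA L)) (c * ((g * phi0 L e : BB L) : RA L)) l
      have a2 := wt_lip (c * ((g * phi0 L e : BB L) : RA L)) (c * (g : RA L)) l
      rw [Subgroup.coe_mul] at a1 a2 ⊢
      rw [show (c * (g : RA L))⁻¹ * (c * ((g : RA L) * phi0 L e)) = (phi0 L e : RA L) by group] at a1
      rw [show (c * ((g : RA L) * phi0 L e))⁻¹ * (c * (g : RA L)) = (phi0 L e : RA L)⁻¹ by group, len_inv] at a2
      rw [abs_le]
      constructor
      · have : wt L (c * (g * phi0 L e)) l ≤ wt L (c * g) l + 2 := by omega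
        have : (wt L (c * (g * phi0 L e)) l : ℝ) ≤ wt L (c * g) l + 2 := by exact_mod_cast this
        linarith
      · have : wt L (c * g) l ≤ wt L (c * (g * phi0 L e)) l + 2 := by omega
        have : (wt L (c * g) l : ℝ) ≤ wt L (c * (g * phi0 L e)) l + 2 := by exact_mod_cast this
        linarith
    have hz := hnz0 g
    generalize c * (g * phi0 L e : BB L) = g' at *
    generalize c * g = g at *
    have hb : β (lm g).1 (lm g').1 * Γ g' = ∑ v, W g' v • (β (lm g).1 v * ξ v) := by
      rw [Finset.mul_sum]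
      refine Finset.sum_congr rfl fun v _ => ?_
      by_cases hv : W g' v = 0
      · simp [hv]
      · obtain ⟨b, hb⟩ := hW g' v hv
        rw [mul_smul_comm, ← mul_assoc, h2 _ _ _ hn' (init_near nf (hI g' hg') hb)
          (hne _ _ (hI g hg) hb)]
    have hnb : ‖β (lm g).1 (lm g').1 * Γ g'‖ = ‖Γ g'‖ := by rw [norm_mul, h1 _ _ hn', one_mul]
    have e1 : r g g' - 1 = (nz (Γ g))⁻¹ * (nz (β (lm g).1 (lm g').1 * Γ g') - nz (Γ g)) := by
      rw [mul_sub, inv_mul_cancel₀ hz]
      simp only [r, nz, hnb, mul_smul_comm]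
    have hd' : ‖Γ g - β (lm g).1 (lm g').1 * Γ g'‖ ≤ 4 * ∑ v, ‖ξ v‖ := by
      rw [hb, ← Finset.sum_sub_distrib, Finset.mul_sum]
      refine (norm_sum_le _ _).trans (Finset.sum_le_sum fun v _ => ?_)
      rw [← sub_smul]
      by_cases hv : W g v - W g' v = 0
      · rw [hv, zero_smul, norm_zero]; positivity
      have hnv : Near L (lm g).1 v := by
        by_cases hv1 : W g v = 0
        · obtain ⟨b, hb⟩ := hW g' v fun h => hv (by rw [hv1, h, sub_zero])
          exact hne _ _ (hI g hg) hb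
        · obtain ⟨b, hb⟩ := hW g v hv1
          exact init_near nf (hI g hg) hb
      rw [norm_smul, norm_mul, h1 _ _ hnv, one_mul, Real.norm_eq_abs]
      refine mul_le_mul_of_nonneg_right ?_ (norm_nonneg _)
      have a1 := abs_le.1 (hlip (v, true))
      have a2 := abs_le.1 (hlip (v, false))
      rw [abs_le]
      simp only [W]
      constructor <;> linarith
    rw [e1, norm_mul, norm_inv, norm_nz (hΓ0 g hg), inv_one, one_mul]
    refine (norm_nz_sub (hΓ0 g hg) (norm_ne_zero_iff.1 (by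
      rw [hnb]; exact norm_ne_zero_iff.2 (hΓ0 g' hg')))).trans ?_
    have hpos : 0 < ‖Γ g‖ := norm_pos_iff.2 (hΓ0 g hg)
    rw [div_le_iff₀ hpos]
    have hn0 : (0 : ℝ) < n := by exact_mod_cast hn1
    refine le_of_mul_le_mul_right ?_ hn0
    have a1 : (0 : ℝ) ≤ 4 * ∑ v, ‖ξ v‖ := (norm_nonneg _).trans hd'
    calc 2 * ‖Γ g - β (lm g).1 (lm g').1 * Γ g'‖ * n
        ≤ 2 * (4 * ∑ v, ‖ξ v‖) * (2 ^ k * K * ‖Γ g‖) := by gcongr; exact hΓ g hg
      _ = 2 * (4 * ∑ v, ‖ξ v‖) * (2 ^ k * K) * ‖Γ g‖ := by ring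
      _ ≤ ε * n * ‖Γ g‖ := by gcongr
      _ = _ := by ring
  · have tri : ∀ (g : BB L) (e e' e'' : Edge L), phi0 L e * phi0 L e' = phi0 L e'' →
        hol (phi0 L) ρ (FreeGroup.of e * FreeGroup.of e' * (FreeGroup.of e'')⁻¹) g = 1 := by
      intro g e e' e'' he
      rw [hol_mul, hol_mul, hol_inv, hol_of, hol_of, hol_of, map_mul, ev_of, ev_of, ev_of, he,
        mul_inv_cancel_right, mul_inv_eq_one]
      ext1
      have a1 := hnr g e
      have a2 := hnr (g * phi0 L e) e'
      have a3 := hnr g e''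
      change r _ _ * r _ (c * (g * phi0 L e * phi0 L e' : BB L)) = r _ _
      rw [mul_assoc g, he] at a2 ⊢
      simp only [r]
      rw [mul_assoc, mul_assoc, mul_inv_cancel_left₀ (hnz0 _), ← mul_assoc (β _ _), h2 _ _ _ a1 a2 a3]
    rintro g ⟨t, _ | _⟩
    · refine tri g _ _ _ (Subtype.ext ?_)
      change gen L t.1.2.1 * (gen L t.1.2.2)⁻¹ * (gen L t.1.1 * (gen L t.1.2.1)⁻¹) =
        gen L t.1.1 * (gen L t.1.2.2)⁻¹
      have c1 := (gen_comm L t.2.2.2).inv_right
      have c2 := gen_comm L t.2.1.2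
      have c3 := (gen_comm L t.2.2.1.2).inv_right
      rw [c3.eq, mul_assoc, ← mul_assoc (gen L t.1.2.1), ← c2.eq, mul_inv_cancel_right, c1.eq]
    · refine tri g _ _ _ (Subtype.ext ?_)
      change gen L t.1.1 * (gen L t.1.2.1)⁻¹ * (gen L t.1.2.1 * (gen L t.1.2.2)⁻¹) =
        gen L t.1.1 * (gen L t.1.2.2)⁻¹
      group
  · by_contra hcon
    push Not at hcon
    choose σ hσ using hsurj
    let Θ : BB L → ℍˣ := fun g => hol (phi0 L) ρ (σ g) 1
    have hΘ : ∀ g e, Θ (g * phi0 L e) = Θ g * ρ g e := fun g e => by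
      have := hcon (σ g * FreeGroup.of e * (σ (g * phi0 L e))⁻¹) (by simp [hσ])
      rw [hol_mul, hol_mul, hol_inv, hol_of, map_mul, ev_of, hσ, hσ, one_mul, one_mul,
        mul_inv_cancel, mul_inv_eq_one] at this
      exact this.symm
    let x : BB L → ℍ := fun g => nz (Γ (c * g)) * ((Θ g)⁻¹ : ℍˣ)
    have hx : ∀ (g : BB L) e,
        β (lm (c * g)).1 (lm (c * (g * phi0 L e : BB L))).1 * x (g * phi0 L e) = x g :=
      fun g e => by
        simp only [x]
        rw [hΘ, mul_inv_rev, Units.val_mul, ← mul_assoc, ← mul_assoc]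
        congr 1
        rw [Units.mul_inv_eq_iff_eq_mul]
        exact (mul_inv_cancel_left₀ (hnz0 g) _).symm
    let pt : V → V → Fin (n + 1) → BB L := fun u v j =>
      ⟨c⁻¹ * (gen L u ^ (j : ℕ) * gen L v ^ (n - j)), by
        have := j.2
        simp only [mem_BB, c, ht_mul, ht_inv, hpow]
        omega⟩
    have hpt : ∀ u v j, c * pt u v j = gen L u ^ (j : ℕ) * gen L v ^ (n - j) := fun u v j =>
      mul_inv_cancel_left _ _
    have hlm' : ∀ u v j, (lm (c * pt u v j)).1 = u ∨ (lm (c * pt u v j)).1 = v := fun u v j => by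
      have := hI _ (hc (pt u v j))
      generalize lm (c * pt u v j) = l at this
      rw [hpt] at this
      exact init_pow this
    have edge : ∀ e : Edge L, β e.1.1 e.1.2 * x (pt e.1.2 e.1.2 0) = x (pt e.1.1 e.1.1 0) := by
      rintro ⟨⟨u, v⟩, huv, hadj⟩
      change L.Adj u v at hadj
      change β u v * x (pt v v 0) = x (pt u u 0)
      have nr : ∀ a b, (a = u ∨ a = v) → (b = u ∨ b = v) → Near L a b := by
        rintro a b (rfl | rfl) (rfl | rfl)
        exacts [Or.inl rfl, Or.inr hadj, Or.inr hadj.symm, Or.inl rfl]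
      have ind : ∀ j : Fin (n + 1),
          β u (lm (c * pt u v j)).1 * x (pt u v j) = β u v * x (pt v v 0) := by
        intro j
        induction j using Fin.induction with
        | zero =>
          have e0 : pt u v 0 = pt v v 0 := Subtype.ext (by simp [pt])
          rw [e0, (or_self_iff).1 (hlm' v v 0)]
        | succ j ih =>
          have e1 : pt u v j.succ = pt u v j.castSucc * phi0 L ⟨(u, v), huv, hadj⟩ := by
            refine Subtype.ext ?_
            change c⁻¹ * (gen L u ^ ((j : ℕ) + 1) * gen L v ^ (n - (j + 1))) =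
              c⁻¹ * (gen L u ^ (j : ℕ) * gen L v ^ (n - j)) * (gen L u * (gen L v)⁻¹)
            have : n - j = n - (j + 1) + 1 := by have := j.2; omega
            rw [this, pow_succ, pow_succ]
            generalize n - (j + 1) = i
            have c1 := ((gen_comm L hadj).pow_right i).eq
            have c2 := (gen_comm L hadj).eq
            simp only [mul_assoc]
            rw [← mul_assoc (gen L v), ← c2, mul_inv_cancel_right, c1]
          rw [← ih, ← hx (pt u v j.castSucc) ⟨(u, v), huv, hadj⟩, ← e1, ← mul_assoc (β u _) (β _ _),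
            h2 _ _ _ (nr _ _ (Or.inl rfl) (hlm' u v _)) (nr _ _ (hlm' u v _) (hlm' u v _))
              (nr _ _ (Or.inl rfl) (hlm' u v _))]
      have e0 : pt u v (Fin.last n) = pt u u 0 := Subtype.ext (by simp [pt])
      rw [← ind (Fin.last n), e0, (or_self_iff).1 (hlm' u u 0), hββ, one_mul]
    refine h3 ⟨fun v => x (pt v v 0), fun v => mul_ne_zero (hnz0 _) (Units.ne_zero _),
      fun u v huv => ?_⟩
    rcases lt_or_gt_of_ne huv.ne with h | h
    · exact edge ⟨(u, v), h, huv⟩
    · have := edge ⟨(v, u), h, huv.symm⟩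
      change β v u * x (pt u u 0) = x (pt v v 0) at this
      change β u v * x (pt v v 0) = x (pt u u 0)
      rw [← this, ← mul_assoc, h2 _ _ _ (Or.inr huv) (Or.inr huv.symm) (Or.inl rfl), hββ, one_mul]

end Crest.Agent.R197
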