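import Crest.Agent.R197.Defs

/-! # R197: the cube chain complex of a right-angled Artin group is exact -/

set_option autoImplicit false
set_option linter.unusedSectionVars false

noncomputable section

namespace Crest.Agent.R197

namespace CU
open Finsupp Classical

theorem map_mem {X M : Type} [AddCommGroup M] {s : Set X} {N : Submodule ℤ M}
    (f : (X →₀ ℤ) →ₗ[ℤ] M) (h : ∀ c ∈ s, f (single c 1) ∈ N) {z : X →₀ ℤ}
    (hz : z ∈ supported ℤ ℤ s) : f z ∈ N := by
  rw [supported_eq_span_single] at hz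
  refine (Submodule.span_le (p := N.comap f)).2 ?_ hz
  rintro _ ⟨c, hc, rfl⟩
  exact h c hc

theorem single_mem {X : Type} {s : Set X} {c : X} (h : c ∈ s) :
    single c (1 : ℤ) ∈ supported ℤ ℤ s := single_mem_supported ℤ _ h

variable {V : Type} [LinearOrder V]

theorem sgn_sq (v : V) (σ : Finset V) : sgn v σ * sgn v σ = 1 := by
  rw [sgn, ← mul_pow]; simp

theorem sgn_erase {u v : V} {σ : Finset V} (hv : v ∈ σ) :
    sgn u (σ.erase v) = if v < u then -sgn u σ else sgn u σ := by
  unfold sgn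
  rw [Finset.filter_erase]
  split_ifs with h
  · rw [← Finset.card_erase_add_one (s := σ.filter (· < u)) (a := v) (by simp [hv, h]), pow_succ]
    ring
  · rw [Finset.erase_eq_of_notMem (by simp [h])]

theorem sgn_anti {u v : V} {σ : Finset V} (hu : u ∈ σ) (hv : v ∈ σ) (h : u ≠ v) :
    sgn v σ * sgn u (σ.erase v) = -(sgn u σ * sgn v (σ.erase u)) := by
  rw [sgn_erase hu, sgn_erase hv]
  rcases lt_or_gt_of_ne h with h' | h'
  · rw [if_pos h', if_neg h'.not_gt]; ring
  · rw [if_pos h', if_neg h'.not_gt]; ring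

theorem sum_anti {M : Type} [AddCommGroup M] (σ : Finset V) (f : V → V → M)
    (h : ∀ u ∈ σ, ∀ v ∈ σ, u ≠ v → f v u + f u v = 0) :
    ∑ v ∈ σ, ∑ u ∈ σ.erase v, f v u = 0 := by
  rw [Finset.sum_sigma']
  refine Finset.sum_involution (fun p _ => ⟨p.2, p.1⟩) (fun p hp => ?_) (fun p hp _ e => ?_)
    (fun p hp => ?_) (fun _ _ => rfl)
  · simp only [Finset.mem_sigma, Finset.mem_erase] at hp
    exact h _ hp.2.2 _ hp.1 hp.2.1
  · simp only [Finset.mem_sigma, Finset.mem_erase] at hp
    exact hp.2.1 (congrArg Sigma.fst e)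
  · simp only [Finset.mem_sigma, Finset.mem_erase] at hp ⊢
    exact ⟨hp.2.2, Ne.symm hp.2.1, hp.1⟩

variable {L : SimpleGraph V}

theorem bd_single (g : RA L) (σ : Finset V) : bd L (single (g, σ) 1) =
    ∑ v ∈ σ, sgn v σ • (single (g * gen L v, σ.erase v) 1 - single (g, σ.erase v) 1) := by
  simp [bd]

theorem clique_erase {σ : Finset V} (h : L.IsClique (σ : Set V)) (v : V) :
    L.IsClique (σ.erase v : Set V) := h.subset (by simp)

theorem bd_mem (k : ℕ) (z) (hz : z ∈ ChK L (k + 1)) : bd L z ∈ ChK L k := by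
  refine map_mem _ ?_ hz
  rintro ⟨g, σ⟩ ⟨h1, h2⟩
  rw [bd_single]
  refine Submodule.sum_mem _ fun v hv => Submodule.smul_mem _ _ (Submodule.sub_mem _ ?_ ?_) <;>
    exact single_mem ⟨clique_erase h1 v, by
      have := Finset.card_erase_add_one hv; dsimp only at h2 ⊢; omega⟩

theorem bd_bd (k : ℕ) (z) (hz : z ∈ ChK L k) : bd L (bd L z) = 0 := by
  refine (Submodule.mem_bot ℤ).1 (map_mem (bd L ∘ₗ bd L) ?_ hz)
  rintro ⟨g, σ⟩ ⟨h1, -⟩
  rw [Submodule.mem_bot, LinearMap.comp_apply, bd_single, map_sum]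
  simp only [map_smul, map_sub, bd_single, ← Finset.sum_sub_distrib, ← smul_sub, Finset.smul_sum,
    smul_smul]
  refine sum_anti σ _ fun u hu v hv h => ?_
  rw [sgn_anti hu hv h, Finset.erase_right_comm, mul_assoc g, mul_assoc g,
    (gen_comm L (h1 hu hv h)).eq]
  module

theorem aug_bd (z) : aug _ (bd L z) = 0 := by
  induction z using Finsupp.induction_linear with
  | zero => simp
  | add a b ha hb => simp [ha, hb]
  | single p k => simp [bd, map_sum]

/-- length of the top vertex -/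
def hh (c : RA L × Finset V) : ℕ := len L c.1 + (c.2.filter fun v => ¬ Down L c.1 (v, true)).card

/-- directions of the down-steps at the top vertex -/
def T (c : RA L × Finset V) : Set V :=
  {v | v ∈ c.2 ∨ ((∀ u ∈ c.2, L.Adj u v) ∧ ∃ b, Down L c.1 (v, b))}

/-- upper face -/
def hi (c : RA L × Finset V) (u : V) : RA L × Finset V :=
  (if Down L c.1 (u, true) then c.1 else c.1 * gen L u, c.2.erase u)

/-- lower face -/
def lo (c : RA L × Finset V) (u : V) : RA L × Finset V :=
  (if Down L c.1 (u, true) then c.1 * gen L u else c.1, c.2.erase u)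

/-- orientation -/
def ep (c : RA L × Finset V) (u : V) : ℤ := if Down L c.1 (u, true) then -1 else 1

theorem ep_sq (c : RA L × Finset V) (u : V) : ep c u * ep c u = 1 := by
  unfold ep; split_ifs <;> rfl

theorem bd_eq (c : RA L × Finset V) : bd L (single c 1) =
    ∑ u ∈ c.2, (sgn u c.2 * ep c u) • (single (hi c u) 1 - single (lo c u) 1) := by
  obtain ⟨g, σ⟩ := c
  rw [bd_single]
  refine Finset.sum_congr rfl fun u _ => ?_
  simp only [hi, lo, ep]
  split_ifs <;> module

variable (nf : NF L)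
include nf

theorem filt {g : RA L} {σ : Finset V} (h : L.IsClique (σ : Set V)) {u : V} (hu : u ∈ σ) :
    ((σ.erase u).filter fun v => ¬ Down L (g * gen L u) (v, true)) =
      (σ.erase u).filter fun v => ¬ Down L g (v, true) :=
  Finset.filter_congr fun v hv => not_congr (nf.comm g (u, true) (v, true)
    (h hu (Finset.mem_of_mem_erase hv) (Finset.ne_of_mem_erase hv).symm))

theorem hh_face {c : RA L × Finset V} (h : L.IsClique (c.2 : Set V)) {u : V} (hu : u ∈ c.2) :
    hh (hi c u) = hh c ∧ hh (lo c u) < hh c := by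
  obtain ⟨g, σ⟩ := c
  have st := nf.step g (u, true)
  by_cases hd : Down L g (u, true)
  · simp only [hh, hi, lo, if_pos hd, filt nf h hu]
    rw [Finset.filter_erase, Finset.erase_eq_of_notMem (by simp [hd])]
    exact ⟨rfl, Nat.add_lt_add_right hd _⟩
  · simp only [hh, hi, lo, if_neg hd, filt nf h hu]
    rw [Finset.filter_erase]
    have := Finset.card_erase_add_one (s := σ.filter fun v => ¬ Down L g (v, true)) (a := u)
      (Finset.mem_filter.2 ⟨hu, hd⟩)
    simp only [Down, lt_true] at hd st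
    omega

theorem down_hi (c : RA L × Finset V) (u : V) : ∃ b, Down L (hi c u).1 (u, b) := by
  by_cases hd : Down L c.1 (u, true)
  · exact ⟨true, by simpa only [hi, if_pos hd] using hd⟩
  · refine ⟨false, ?_⟩
    have st := nf.step c.1 (u, true)
    simp only [hi, if_neg hd]
    simp only [Down, lt_true, lt_false, mul_inv_cancel_right] at hd st ⊢
    omega

theorem down_hi_iff (c : RA L × Finset V) {u : V} {m : V × Bool} (h : L.Adj u m.1) :
    Down L (hi c u).1 m ↔ Down L c.1 m := by
  unfold hi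
  split_ifs
  · rfl
  · exact nf.comm c.1 (u, true) m h

theorem T_hi {c : RA L × Finset V} (h : L.IsClique (c.2 : Set V)) {u : V} (hu : u ∈ c.2) :
    T (hi c u) = T c := by
  ext v
  have e : (hi c u).2 = c.2.erase u := rfl
  simp only [T, Set.mem_ofPred_eq, e, Finset.mem_erase]
  obtain ⟨b', hb'⟩ := down_hi nf c u
  constructor
  · rintro (h1 | ⟨h1, b, h2⟩)
    · exact Or.inl h1.2
    · by_cases huv : v = u
      · exact Or.inl (huv ▸ hu)
      · have ha : L.Adj u v := nf.clique _ (u, b') (v, b) hb' h2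
          (fun e => huv (congrArg Prod.fst e).symm)
        refine Or.inr ⟨fun w hw => ?_, b, (down_hi_iff nf c (m := (v, b)) ha).1 h2⟩
        by_cases hwu : w = u
        · exact hwu ▸ ha
        · exact h1 w ⟨hwu, hw⟩
  · rintro (h1 | ⟨h1, b, h2⟩)
    · by_cases huv : v = u
      · subst huv
        exact Or.inr ⟨fun w hw => h hw.2 hu hw.1, b', hb'⟩
      · exact Or.inl ⟨huv, h1⟩
    · exact Or.inr ⟨fun w hw => h1 w hw.2, b, (down_hi_iff nf c (m := (v, b)) (h1 u hu)).2 h2⟩

omit nf in
/-- the cube having `c` as upper face in direction `v` -/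
def plus (c : RA L × Finset V) (v : V) : RA L × Finset V :=
  (if Down L c.1 (v, true) then c.1 else c.1 * (gen L v)⁻¹, insert v c.2)

theorem hi_plus {c : RA L × Finset V} {v : V} (hv : v ∈ T c) (hv' : v ∉ c.2) :
    hi (plus c v) v = c := by
  obtain ⟨g, σ⟩ := c
  obtain ⟨-, b, hb⟩ := hv.resolve_left hv'
  by_cases hd : Down L g (v, true)
  · simp only [hi, plus, if_pos hd, Finset.erase_insert hv']
  · have : ¬ Down L (g * (gen L v)⁻¹) (v, true) := by
      cases b
      · simp only [Down, lt_true, lt_false, inv_mul_cancel_right] at hb ⊢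
        omega
      · exact absurd hb hd
    simp only [hi, plus, if_neg hd, if_neg this, Finset.erase_insert hv', inv_mul_cancel_right]

theorem plus_hi {c : RA L × Finset V} {v : V} (hv : v ∈ c.2) : plus (hi c v) v = c := by
  obtain ⟨g, σ⟩ := c
  by_cases hd : Down L g (v, true)
  · simp only [hi, plus, if_pos hd, Finset.insert_erase hv]
  · have : ¬ Down L (g * gen L v) (v, true) := fun h => by
      have st := nf.step g (v, true)
      have h2 : Down L (g * gen L v) (v, false) := by
        simp only [Down, lt_true, lt_false, mul_inv_cancel_right] at hd st ⊢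
        omega
      exact L.irrefl (nf.clique _ (v, true) (v, false) h h2 (by simp))
    simp only [hi, plus, if_neg hd, if_neg this, Finset.insert_erase hv, mul_inv_cancel_right]

omit nf in
theorem clique_plus {c : RA L × Finset V} (h : L.IsClique (c.2 : Set V)) {v : V} (hv : v ∈ T c)
    (hv' : v ∉ c.2) : L.IsClique ((plus c v).2 : Set V) := by
  show L.IsClique ((insert v c.2 : Finset V) : Set V)
  rw [Finset.coe_insert]
  exact h.insert fun u hu _ => ((hv.resolve_left hv').1 u hu).symm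

omit nf in
/-- the contraction on cubes -/
def H0 (c : RA L × Finset V) : RA L × Finset V →₀ ℤ :=
  if h : ∃ v, IsLeast (T c) v ∧ v ∉ c.2 then
    (sgn h.choose (plus c h.choose).2 * ep (plus c h.choose) h.choose) • single (plus c h.choose) 1
  else 0

omit nf in
/-- the contraction -/
def H : (RA L × Finset V →₀ ℤ) →ₗ[ℤ] (RA L × Finset V →₀ ℤ) := linearCombination ℤ H0

omit nf in
theorem H_pos {c : RA L × Finset V} {v : V} (h : IsLeast (T c) v) (h' : v ∉ c.2) :
    H (single c 1) = (sgn v (plus c v).2 * ep (plus c v) v) • single (plus c v) 1 := by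
  have e : ∃ v, IsLeast (T c) v ∧ v ∉ c.2 := ⟨v, h, h'⟩
  rw [H, linearCombination_single, one_smul, H0, dif_pos e, e.choose_spec.1.unique h]

omit nf in
theorem H_neg {c : RA L × Finset V} (h : ¬ ∃ v, IsLeast (T c) v ∧ v ∉ c.2) :
    H (single c 1) = 0 := by
  rw [H, linearCombination_single, one_smul, H0, dif_neg h]

omit nf in
/-- cubes of bounded height -/
def S (k n : ℕ) : Set (RA L × Finset V) :=
  {c | L.IsClique (c.2 : Set V) ∧ c.2.card = k ∧ hh c < n}

omit nf in
/-- cubes of bounded height, the highest ones being killed by `H` -/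
def SA (k n : ℕ) : Set (RA L × Finset V) :=
  {c | L.IsClique (c.2 : Set V) ∧ c.2.card = k ∧
    (hh c < n ∨ (hh c = n ∧ ¬ ∃ v, IsLeast (T c) v ∧ v ∉ c.2))}

theorem H_mem {k n : ℕ} {z} (hz : z ∈ supported ℤ ℤ (S (L := L) k n)) :
    H z ∈ supported ℤ ℤ (S (L := L) (k + 1) n) := by
  refine map_mem _ ?_ hz
  rintro c ⟨h1, h2, h3⟩
  by_cases e : ∃ v, IsLeast (T c) v ∧ v ∉ c.2
  · obtain ⟨v, hv, hv'⟩ := e
    rw [H_pos hv hv']
    have hc := clique_plus h1 hv.1 hv'
    refine Submodule.smul_mem _ _ (single_mem ⟨hc, ?_, ?_⟩)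
    · rw [← h2]; exact Finset.card_insert_of_notMem hv'
    · rwa [← (hh_face nf hc (Finset.mem_insert_self _ _)).1, hi_plus nf hv.1 hv']
  · rw [H_neg e]; exact Submodule.zero_mem _

theorem step1 {k n : ℕ} {z} (hz : z ∈ supported ℤ ℤ (S (L := L) k (n + 1))) :
    z - bd L (H z) ∈ supported ℤ ℤ (SA (L := L) k n) := by
  refine map_mem (LinearMap.id - bd L ∘ₗ H) ?_ hz
  rintro c ⟨h1, h2, h3⟩
  simp only [LinearMap.sub_apply, LinearMap.id_apply, LinearMap.comp_apply]
  by_cases e : ∃ v, IsLeast (T c) v ∧ v ∉ c.2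
  · obtain ⟨v, hv, hv'⟩ := e
    have hc := clique_plus h1 hv.1 hv'
    have hm : v ∈ (plus c v).2 := Finset.mem_insert_self _ _
    have hh1 : hh (plus c v) = hh c := by rw [← (hh_face nf hc hm).1, hi_plus nf hv.1 hv']
    have hT : T (plus c v) = T c := by rw [← T_hi nf hc hm, hi_plus nf hv.1 hv']
    have hcard : ∀ u ∈ (plus c v).2, ((plus c v).2.erase u).card = k := fun u hu => by
      have h4 := Finset.card_erase_add_one hu
      have h5 : (plus c v).2.card = c.2.card + 1 := Finset.card_insert_of_notMem hv'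
      omega
    have hlo : ∀ u ∈ (plus c v).2, single (lo (plus c v) u) (1 : ℤ) ∈ supported ℤ ℤ (SA k n) :=
      fun u hu => single_mem ⟨clique_erase hc u, hcard u hu, Or.inl (by
        have := (hh_face nf hc hu).2; omega)⟩
    rw [H_pos hv hv', map_smul, bd_eq, ← Finset.add_sum_erase _ _ hm, hi_plus nf hv.1 hv', smul_add,
      smul_smul, mul_mul_mul_comm, sgn_sq, ep_sq, mul_one, one_smul, sub_add_eq_sub_sub,
      sub_sub_cancel]
    refine Submodule.sub_mem _ (hlo v hm) (Submodule.smul_mem _ _ (Submodule.sum_mem _ fun u hu =>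
      Submodule.smul_mem _ _ (Submodule.sub_mem _ ?_ (hlo u (Finset.mem_of_mem_erase hu)))))
    have hu' := Finset.mem_of_mem_erase hu
    refine single_mem ⟨clique_erase hc u, hcard u hu', ?_⟩
    rw [(hh_face nf hc hu').1, T_hi nf hc hu', hT, hh1]
    rcases Nat.lt_succ_iff_lt_or_eq.1 h3 with h | h
    · exact Or.inl h
    · refine Or.inr ⟨h, fun ⟨w, hw, hw'⟩ => hw' ?_⟩
      rw [hw.unique hv]
      exact Finset.mem_erase.2 ⟨(Finset.ne_of_mem_erase hu).symm, hm⟩
  · rw [H_neg e, map_zero, sub_zero]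
    exact single_mem ⟨h1, h2, (Nat.lt_succ_iff_lt_or_eq.1 h3).imp id fun h => ⟨h, e⟩⟩

theorem step2 [Fintype V] {k n : ℕ} (hn : 0 < n) {z} (hz : z ∈ supported ℤ ℤ (SA (L := L) k n)) :
    z - H (bd L z) ∈ supported ℤ ℤ (S (L := L) k n) := by
  refine map_mem (LinearMap.id - H ∘ₗ bd L) ?_ hz
  rintro c ⟨h1, h2, h3⟩
  simp only [LinearMap.sub_apply, LinearMap.id_apply, LinearMap.comp_apply]
  have hface : ∀ u ∈ c.2, ∀ g, hh (g, c.2.erase u) < n →
      H (single (g, c.2.erase u) 1) ∈ supported ℤ ℤ (S (L := L) k n) := fun u hu g hg => by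
    have := H_mem nf (single_mem (s := S _ n) (c := (g, c.2.erase u)) ⟨clique_erase h1 u, rfl, hg⟩)
    rwa [Finset.card_erase_add_one hu, h2] at this
  rw [bd_eq, map_sum]
  simp only [map_smul, map_sub]
  rcases h3 with h3 | ⟨h3, h4⟩
  · refine Submodule.sub_mem _ (single_mem ⟨h1, h2, h3⟩) (Submodule.sum_mem _ fun u hu =>
      Submodule.smul_mem _ _ (Submodule.sub_mem _ (hface u hu _ ?_) (hface u hu _ ?_)))
    · exact (hh_face nf h1 hu).1.trans_lt h3
    · exact (hh_face nf h1 hu).2.trans h3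
  · have hne : (T c).Nonempty := by
      rcases c.2.eq_empty_or_nonempty with h | ⟨u, hu⟩
      · have : c.1 ≠ 1 := fun e => by simp [hh, h, e] at h3; omega
        obtain ⟨⟨v, b⟩, hl⟩ := exists_down L this
        exact ⟨v, Or.inr ⟨by simp [h], b, hl⟩⟩
      · exact ⟨u, Or.inl hu⟩
    obtain ⟨v, hv, hv2⟩ := (Set.toFinite (T c)).exists_minimal hne
    have hv' : IsLeast (T c) v := ⟨hv, fun w hw => (le_total v w).elim id fun h => hv2 hw h⟩
    have hm : v ∈ c.2 := by_contra fun h => h4 ⟨v, hv', h⟩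
    have hlo : ∀ u ∈ c.2, H (single (lo c u) 1) ∈ supported ℤ ℤ (S (L := L) k n) :=
      fun u hu => hface u hu _ (h3 ▸ (hh_face nf h1 hu).2)
    rw [← Finset.add_sum_erase _ _ hm, H_pos (v := v) (by rwa [T_hi nf h1 hm])
      (Finset.notMem_erase _ _), plus_hi nf hm, smul_sub, smul_smul, mul_mul_mul_comm, sgn_sq, ep_sq,
      mul_one, one_smul, sub_add_eq_sub_sub, sub_sub_cancel]
    refine Submodule.sub_mem _ (Submodule.smul_mem _ _ (hlo v hm)) (Submodule.sum_mem _ fun u hu =>
      Submodule.smul_mem _ _ (Submodule.sub_mem _ ?_ (hlo u (Finset.mem_of_mem_erase hu))))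
    rw [H_neg]
    · exact Submodule.zero_mem _
    · rintro ⟨w, hw, hw'⟩
      rw [T_hi nf h1 (Finset.mem_of_mem_erase hu)] at hw
      rw [hw.unique hv'] at hw'
      exact hw' (Finset.mem_erase.2 ⟨(Finset.ne_of_mem_erase hu).symm, hm⟩)

omit nf in
theorem S_le (k n : ℕ) : supported ℤ ℤ (S (L := L) k n) ≤ ChK L k :=
  supported_mono fun _ h => ⟨h.1, h.2.1⟩

theorem descend [Fintype V] {k : ℕ} (n : ℕ) {z} (hz : z ∈ supported ℤ ℤ (S (L := L) k (n + 1)))
    (h0 : bd L z = 0) : ∃ y ∈ ChK L (k + 1), z - bd L y ∈ supported ℤ ℤ (S (L := L) k 1) := by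
  induction n generalizing z with
  | zero => exact ⟨0, Submodule.zero_mem _, by simpa using hz⟩
  | succ n ih =>
    have h1 := S_le _ _ (H_mem nf hz)
    have h2 : bd L (z - bd L (H z)) = 0 := by rw [map_sub, h0, bd_bd _ _ h1, sub_zero]
    have h3 := step2 nf (Nat.succ_pos n) (step1 nf hz)
    rw [h2, map_zero, sub_zero] at h3
    obtain ⟨y, hy, hy'⟩ := ih h3 h2
    exact ⟨H z + y, Submodule.add_mem _ h1 hy, by rwa [map_add, ← sub_sub]⟩

theorem reduce [Fintype V] {k : ℕ} {z} (hz : z ∈ ChK L k) (h0 : bd L z = 0) :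
    ∃ y ∈ ChK L (k + 1), z - bd L y ∈ supported ℤ ℤ (S (L := L) k 1) :=
  descend nf (z.support.sup hh) (fun _ hc => ⟨(hz hc).1, (hz hc).2,
    Nat.lt_succ_of_le (Finset.le_sup (f := hh) hc)⟩) h0

omit nf in
theorem S_one {k : ℕ} {c : RA L × Finset V} (h : c ∈ S (L := L) k 1) : c = (1, ∅) := by
  obtain ⟨g, σ⟩ := c
  have h3 := h.2.2
  simp only [hh, Nat.lt_one_iff, Nat.add_eq_zero_iff, Finset.card_eq_zero,
    Finset.filter_eq_empty_iff, not_not] at h3
  obtain rfl := len_eq_zero L h3.1
  rw [Finset.eq_empty_of_forall_notMem (s := σ) fun v hv => by simpa [Down] using h3.2 hv]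

end CU
open CU

theorem cube : CubeStmt := fun V _ _ L nf =>
  { bd_mem := bd_mem
    bd_bd := bd_bd
    ex := fun k z hz h0 => by
      obtain ⟨y, hy, h⟩ := reduce nf hz h0
      refine ⟨y, hy, (sub_eq_zero.1 (Finsupp.support_eq_empty.1
        (Finset.eq_empty_of_forall_notMem fun c hc => ?_))).symm⟩
      have h1 := h hc
      have h2 := h1.2.1
      rw [S_one h1] at h2
      simp at h2
    ex0 := fun z hz h0 => by
      have hb : bd L z = 0 := (Submodule.mem_bot ℤ).1 (map_mem (bd L) (fun c hc => by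
        obtain ⟨g, σ⟩ := c
        obtain rfl : σ = ∅ := Finset.card_eq_zero.1 hc.2
        simp [bd_single]) hz)
      obtain ⟨y, hy, h⟩ := reduce nf hz hb
      refine ⟨y, hy, (sub_eq_zero.1 ?_).symm⟩
      have h1 : (z - bd L y).support ⊆ {(1, ∅)} := fun c hc =>
        Finset.mem_singleton.2 (S_one (h hc))
      have h2 := Finsupp.support_subset_singleton.1 h1
      have h3 : aug _ (z - bd L y) = 0 := by rw [map_sub, h0, aug_bd, sub_zero]
      rw [h2, aug_single] at h3
      rw [h2, h3, Finsupp.single_zero] }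

end Crest.Agent.R197
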