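import Mathlib

/-!
# R197: holonomy of words, Fox chains

`hol φ x n g` is the product of the labels `x` along the edge path spelled by the word `n` from the
vertex `g` of the Cayley graph of `φ : S → G` (edges `g → g * φ s`).  `D φ n g` is the chain of that
edge path.
-/

set_option autoImplicit false

noncomputable section

namespace Crest.Agent.R197

open Function

/-- Unrestricted wreath product, as pairs (label function, base element). -/
@[ext] structure Wr (G U : Type) where
  f : G → U
  h : G

section
variable {G G' U U' S S' R : Type} [Group G] [Group G'] [Group U] [Group U']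

instance : Mul (Wr G U) := ⟨fun a b => ⟨fun g => a.f g * b.f (g * a.h), a.h * b.h⟩⟩
instance : One (Wr G U) := ⟨⟨fun _ => 1, 1⟩⟩
instance : Inv (Wr G U) := ⟨fun a => ⟨fun g => (a.f (g * a.h⁻¹))⁻¹, a.h⁻¹⟩⟩

@[simp] lemma Wr.mul_f (a b : Wr G U) (g : G) : (a * b).f g = a.f g * b.f (g * a.h) := rfl
@[simp] lemma Wr.mul_h (a b : Wr G U) : (a * b).h = a.h * b.h := rfl
@[simp] lemma Wr.one_f (g : G) : (1 : Wr G U).f g = 1 := rfl
@[simp] lemma Wr.one_h : (1 : Wr G U).h = 1 := rfl
@[simp] lemma Wr.inv_f (a : Wr G U) (g : G) : (a⁻¹).f g = (a.f (g * a.h⁻¹))⁻¹ := rfl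
@[simp] lemma Wr.inv_h (a : Wr G U) : (a⁻¹).h = a.h⁻¹ := rfl

instance : Group (Wr G U) where
  mul_assoc a b c := by ext <;> simp [mul_assoc]
  one_mul a := by ext <;> simp
  mul_one a := by ext <;> simp
  inv_mul_cancel a := by ext <;> simp

/-- Evaluation of words. -/
def ev (φ : S → G) : FreeGroup S →* G := FreeGroup.lift φ

@[simp] lemma ev_of (φ : S → G) (s : S) : ev φ (FreeGroup.of s) = φ s := by simp [ev]

/-- The homomorphism to the wreath product given by labels `x`. -/
def Hol (φ : S → G) (x : G → S → U) : FreeGroup S →* Wr G U :=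
  FreeGroup.lift fun s => ⟨fun g => x g s, φ s⟩

/-- Holonomy of the word `n` read from the vertex `g`. -/
def hol (φ : S → G) (x : G → S → U) (n : FreeGroup S) (g : G) : U := (Hol φ x n).f g

lemma Hol_h (φ : S → G) (x : G → S → U) (n : FreeGroup S) : (Hol φ x n).h = ev φ n := by
  induction n using FreeGroup.induction_on with
  | C1 => simp
  | of s => simp [Hol]
  | inv_of s ih => simp [ih]
  | mul a b iha ihb => simp [iha, ihb]

@[simp] lemma hol_one (φ : S → G) (x : G → S → U) (g : G) : hol φ x 1 g = 1 := by simp [hol]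

@[simp] lemma hol_of (φ : S → G) (x : G → S → U) (s : S) (g : G) :
    hol φ x (FreeGroup.of s) g = x g s := by simp [hol, Hol]

lemma hol_mul (φ : S → G) (x : G → S → U) (n n' : FreeGroup S) (g : G) :
    hol φ x (n * n') g = hol φ x n g * hol φ x n' (g * ev φ n) := by
  simp [hol, Hol_h]

lemma hol_inv (φ : S → G) (x : G → S → U) (n : FreeGroup S) (g : G) :
    hol φ x n⁻¹ g = (hol φ x n (g * (ev φ n)⁻¹))⁻¹ := by
  simp [hol, Hol_h]

/-- Conjugating a closed word. -/
lemma hol_conj (φ : S → G) (x : G → S → U) (u n : FreeGroup S) (hn : ev φ n = 1) (g : G) :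
    hol φ x (u * n * u⁻¹) g = hol φ x u g * hol φ x n (g * ev φ u) * (hol φ x u g)⁻¹ := by
  rw [hol_mul, hol_mul, hol_inv]
  simp [hn]

/-- Naturality in the coefficient group. -/
lemma hol_map (φ : S → G) (x : G → S → U) (F : U →* U') (n : FreeGroup S) (g : G) :
    F (hol φ x n g) = hol φ (fun g s => F (x g s)) n g := by
  induction n using FreeGroup.induction_on generalizing g with
  | C1 => simp
  | of s => simp
  | inv_of s ih => simp [hol_inv]
  | mul a b iha ihb => simp [hol_mul, iha, ihb]

lemma ev_comp (φ : S → G) (pr : G →* G') (n : FreeGroup S) :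
    ev (fun s => pr (φ s)) n = pr (ev φ n) := by
  induction n using FreeGroup.induction_on with
  | C1 => simp
  | of s => simp
  | inv_of s ih => simp
  | mul a b iha ihb => simp [iha, ihb]

/-- Naturality in the base group. -/
lemma hol_comp (φ : S → G) (pr : G →* G') (x : G' → S → U) (n : FreeGroup S) (g : G) :
    hol (fun s => pr (φ s)) x n (pr g) = hol φ (fun g s => x (pr g) s) n g := by
  induction n using FreeGroup.induction_on generalizing g with
  | C1 => simp
  | of s => simp
  | inv_of s ih => simp [hol_inv]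
  | mul a b iha ihb => simp [hol_mul, iha, ← ihb, ev_comp]

/-- Left translation. -/
lemma hol_transl (φ : S → G) (x : G → S → U) (n : FreeGroup S) (h g : G) :
    hol φ x n (h * g) = hol φ (fun g s => x (h * g) s) n g := by
  induction n using FreeGroup.induction_on generalizing g with
  | C1 => simp
  | of s => simp
  | inv_of s ih => simp [hol_inv, mul_assoc]
  | mul a b iha ihb => simp [hol_mul, iha, ← ihb, mul_assoc]

lemma ev_lift (φ : S' → G) (σ : S → FreeGroup S') (n : FreeGroup S) :
    ev φ (FreeGroup.lift σ n) = ev (fun s => ev φ (σ s)) n := by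
  induction n using FreeGroup.induction_on with
  | C1 => simp
  | of s => simp
  | inv_of s ih => simp
  | mul a b iha ihb => simp [iha, ihb]

/-- Substitution of words for letters. -/
lemma hol_lift (φ : S' → G) (x : G → S' → U) (σ : S → FreeGroup S') (n : FreeGroup S) (g : G) :
    hol φ x (FreeGroup.lift σ n) g =
      hol (fun s => ev φ (σ s)) (fun g s => hol φ x (σ s) g) n g := by
  induction n using FreeGroup.induction_on generalizing g with
  | C1 => simp
  | of s => simp
  | inv_of s ih => simp [hol_inv]
  | mul a b iha ihb => simp [hol_mul, iha, ihb, ev_lift]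

lemma ev_map (φ : S' → G) (j : S → S') (n : FreeGroup S) :
    ev φ (FreeGroup.map j n) = ev (fun s => φ (j s)) n := by
  induction n using FreeGroup.induction_on with
  | C1 => simp
  | of s => simp
  | inv_of s ih => simp
  | mul a b iha ihb => simp [iha, ihb]

/-- Renaming of letters. -/
lemma hol_rename (φ : S' → G) (x : G → S' → U) (j : S → S') (n : FreeGroup S) (g : G) :
    hol φ x (FreeGroup.map j n) g = hol (fun s => φ (j s)) (fun g s => x g (j s)) n g := by
  induction n using FreeGroup.induction_on generalizing g with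
  | C1 => simp
  | of s => simp
  | inv_of s ih => simp [hol_inv]
  | mul a b iha ihb => simp [hol_mul, iha, ihb, ev_map]

/-- The holonomy only reads finitely many labels. -/
lemma exists_hol_congr (φ : S → G) (n : FreeGroup S) :
    ∃ B : Finset G, ∀ (U : Type) [Group U] (x y : G → S → U) (g : G),
      (∀ b ∈ B, x (g * b) = y (g * b)) → hol φ x n g = hol φ y n g := by
  classical
  induction n using FreeGroup.induction_on with
  | C1 => exact ⟨∅, fun U _ x y g _ => by simp⟩
  | of s => exact ⟨{1}, fun U _ x y g h => by simpa using congrFun (h 1 (by simp)) s⟩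
  | inv_of s ih =>
    refine ⟨{(φ s)⁻¹}, fun U _ x y g h => ?_⟩
    have := congrFun (h _ (Finset.mem_singleton_self _)) s
    simp [hol_inv, this]
  | mul a b iha ihb =>
    obtain ⟨A, hA⟩ := iha
    obtain ⟨B, hB⟩ := ihb
    refine ⟨A ∪ B.image (ev φ a * ·), fun U _ x y g h => ?_⟩
    rw [hol_mul, hol_mul, hA U x y g fun b hb => h b (Finset.mem_union_left _ hb),
      hB U x y _ fun b hb => ?_]
    rw [mul_assoc]
    exact h _ (Finset.mem_union_right _ (Finset.mem_image_of_mem _ hb))

/-! ### Fox chains -/

/-- The chain of the edge path spelled by `n` from `g`. -/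
def D (φ : S → G) (n : FreeGroup S) (g : G) : G × S →₀ ℤ :=
  Multiplicative.toAdd
    (hol φ (fun g s => Multiplicative.ofAdd (Finsupp.single (g, s) (1 : ℤ))) n g)

@[simp] lemma D_one (φ : S → G) (g : G) : D φ 1 g = 0 := by simp [D]

@[simp] lemma D_of (φ : S → G) (s : S) (g : G) :
    D φ (FreeGroup.of s) g = Finsupp.single (g, s) 1 := by simp [D]

lemma D_mul (φ : S → G) (n n' : FreeGroup S) (g : G) :
    D φ (n * n') g = D φ n g + D φ n' (g * ev φ n) := by simp [D, hol_mul]

lemma D_inv (φ : S → G) (n : FreeGroup S) (g : G) :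
    D φ n⁻¹ g = -D φ n (g * (ev φ n)⁻¹) := by simp [D, hol_inv]

lemma D_conj (φ : S → G) (u n : FreeGroup S) (hn : ev φ n = 1) (g : G) :
    D φ (u * n * u⁻¹) g = D φ n (g * ev φ u) := by
  rw [D_mul, D_mul, D_inv]
  simp [hn]

/-- Left translation of chains. -/
def tr (h : G) : (G × S →₀ ℤ) →ₗ[ℤ] (G × S →₀ ℤ) :=
  Finsupp.lmapDomain ℤ ℤ fun p => (h * p.1, p.2)

@[simp] lemma tr_single (h : G) (p : G × S) (k : ℤ) :
    tr h (Finsupp.single p k) = Finsupp.single (h * p.1, p.2) k := by simp [tr]

lemma tr_one (z : G × S →₀ ℤ) : tr (1 : G) z = z := by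
  induction z using Finsupp.induction_linear with
  | zero => simp
  | add a b ha hb => simp [ha, hb]
  | single p k => simp

lemma tr_mul (h h' : G) (z : G × S →₀ ℤ) : tr (h * h') z = tr h (tr h' z) := by
  induction z using Finsupp.induction_linear with
  | zero => simp
  | add a b ha hb => simp [ha, hb]
  | single p k => simp [mul_assoc]

lemma D_transl (φ : S → G) (n : FreeGroup S) (h g : G) : D φ n (h * g) = tr h (D φ n g) := by
  induction n using FreeGroup.induction_on generalizing g with
  | C1 => simp
  | of s => simp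
  | inv_of s ih => simp [D_inv, mul_assoc]
  | mul a b iha ihb => simp [D_mul, iha, ← ihb, mul_assoc]

/-- An additive function of edge paths is read off from the chain. -/
lemma lc_D {M : Type} [AddCommGroup M] (φ : S → G) (y : G × S → M) (n : FreeGroup S) (g : G) :
    Finsupp.linearCombination ℤ y (D φ n g) =
      Multiplicative.toAdd (hol φ (fun g s => Multiplicative.ofAdd (y (g, s))) n g) := by
  induction n using FreeGroup.induction_on generalizing g with
  | C1 => simp
  | of s => simp
  | inv_of s ih => simp [D_inv, hol_inv]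
  | mul a b iha ihb => simp [D_mul, hol_mul, iha, ihb]

/-- Holonomy in a commutative group. -/
lemma hol_comm {U : Type} [CommGroup U] (φ : S → G) (x : G → S → U) (n : FreeGroup S) (g : G) :
    hol φ x n g = Additive.toMul
      (Finsupp.linearCombination ℤ (fun p : G × S => Additive.ofMul (x p.1 p.2)) (D φ n g)) := by
  induction n using FreeGroup.induction_on generalizing g with
  | C1 => simp
  | of s => simp
  | inv_of s ih => simp [D_inv, hol_inv]
  | mul a b iha ihb => simp [D_mul, hol_mul, iha, ihb]

/-- Boundary of 2-chains of the Cayley complex. -/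
def d2 (φ : S → G) (w : R → FreeGroup S) : (G × R →₀ ℤ) →ₗ[ℤ] (G × S →₀ ℤ) :=
  Finsupp.linearCombination ℤ fun p => D φ (w p.2) p.1

/-- Boundary of 1-chains of the Cayley graph. -/
def d1 (φ : S → G) : (G × S →₀ ℤ) →ₗ[ℤ] (G →₀ ℤ) :=
  Finsupp.linearCombination ℤ fun p => Finsupp.single (p.1 * φ p.2) 1 - Finsupp.single p.1 1

/-- Augmentation. -/
def aug (X : Type) : (X →₀ ℤ) →ₗ[ℤ] ℤ := Finsupp.linearCombination ℤ fun _ => 1

@[simp] lemma d2_single (φ : S → G) (w : R → FreeGroup S) (p : G × R) (k : ℤ) :
    d2 φ w (Finsupp.single p k) = k • D φ (w p.2) p.1 := by simp [d2]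

@[simp] lemma d1_single (φ : S → G) (p : G × S) (k : ℤ) :
    d1 φ (Finsupp.single p k) =
      k • (Finsupp.single (p.1 * φ p.2) 1 - Finsupp.single p.1 1) := by simp [d1]

@[simp] lemma aug_single (X : Type) (p : X) (k : ℤ) : aug X (Finsupp.single p k) = k := by
  simp [aug]

lemma d1_D (φ : S → G) (n : FreeGroup S) (g : G) :
    d1 φ (D φ n g) = Finsupp.single (g * ev φ n) 1 - Finsupp.single g 1 := by
  induction n using FreeGroup.induction_on generalizing g with
  | C1 => simp
  | of s => simp
  | inv_of s ih => simp [D_inv]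
  | mul a b iha ihb => simp [D_mul, iha, ihb, mul_assoc]

lemma d2_tr (φ : S → G) (w : R → FreeGroup S) (h : G) (z : G × R →₀ ℤ) :
    d2 φ w (tr h z) = tr h (d2 φ w z) := by
  induction z using Finsupp.induction_linear with
  | zero => simp
  | add a b ha hb => simp [ha, hb]
  | single p k => simp [D_transl]

/-- The Cayley complex of `(φ, w)` is acyclic (it need not be simply connected). -/
structure Acyc (φ : S → G) (w : R → FreeGroup S) : Prop where
  rel : ∀ r, ev φ (w r) = 1
  inj : Injective (d2 φ w)
  ex1 : ∀ z, d1 φ z = 0 → ∃ y, d2 φ w y = z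
  ex0 : ∀ z, aug G z = 0 → ∃ y, d1 φ y = z

/-- `(φ, w)` is an aspherical presentation of `G`. -/
structure Asph (φ : S → G) (w : R → FreeGroup S) : Prop where
  surj : Surjective (ev φ)
  rel : ∀ r, ev φ (w r) = 1
  ker : ∀ n, ev φ n = 1 → n ∈ Subgroup.normalClosure (Set.range w)
  inj : Injective (d2 φ w)

lemma Acyc.surj {φ : S → G} {w : R → FreeGroup S} (h : Acyc φ w) : Surjective (ev φ) := by
  classical
  intro g
  obtain ⟨y, hy⟩ := h.ex0 (Finsupp.single g 1 - Finsupp.single 1 1) (by simp)
  let χ : G → ℤ := fun k => if k ∈ (ev φ).range then 1 else 0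
  have h0 : ∀ y : G × S →₀ ℤ, Finsupp.linearCombination ℤ χ (d1 φ y) = 0 := by
    intro y
    induction y using Finsupp.induction_linear with
    | zero => simp
    | add a b ha hb => simp [ha, hb]
    | single p k =>
      have hs : φ p.2 ∈ (ev φ).range := ⟨FreeGroup.of p.2, by simp⟩
      have : χ (p.1 * φ p.2) = χ p.1 := by
        simp only [χ, (ev φ).range.mul_mem_cancel_right hs]
      simp [this]
  have h1 := h0 y
  rw [hy] at h1
  by_contra hg
  have hg' : g ∉ (ev φ).range := hg
  have h1' : (1 : G) ∈ (ev φ).range := one_mem _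
  simp only [map_sub, Finsupp.linearCombination_single, one_smul, χ, if_neg hg', if_pos h1'] at h1
  omega

end

end Crest.Agent.R197
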