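import Crest.Prelude.Def_ClassifyingComplex
import Crest.Agent.R197.Hol

/-!
# R197 (Eilenberg-Ganea): definitions and sub-task statements

`G = BB L` is the Bestvina-Brady group of an acyclic flag 2-complex `L` whose fundamental group has a
non-trivial representation in the unit quaternions.  Each `…Stmt` is proved in its own file
`Crest/Agent/R197/<Name>.lean`, as a theorem with the name given at the start of the docstring.
-/

set_option autoImplicit false

noncomputable section

namespace Crest.Agent.R197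

open Function Quaternion Set

/-! ## A parity principle for zeros (Borsuk type) -/

/-- **DEG** (`Deg.lean`, `theorem deg : DegStmt`).  Reduce to `V = Fin N → ℝ` by a continuous linear
equivalence.  (1) Null Lagrangian: for `k` of class `C¹` with compact support,
`∫ (det (1 + Dk) - 1) = 0`: for small `t`, `id + t k` is a bijection (contraction), the identity off a
ball `B`, with positive Jacobian, so `vol B = ∫_B det (1 + t Dk)` by
`integral_image_eq_integral_abs_det_fderiv_smul`; `t ↦ det (1 + t A)` is a polynomial of degree `≤ N`, so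
Lagrange interpolation at `N+1` small nodes gives `t = 1`.  (2) `b ≥ 0` a `C¹` bump on `ℝ` supported in
`[-r,r]`, `ψ y = ∏ b (y i) = det DΨ` with `Ψ y i = ∫_0^{y i} b`; `I F = ∫_Ω ψ (F x) * det (DF x)`.  If
`‖F‖ > 2r` on `K \ Ω` and `‖F' - F‖ ≤ r` on `K` then `I F = I F'`: take a smooth cut-off `χ` with compact
support in `Ω`, equal to 1 near the compact set `{x ∈ K | ‖F x‖ ≤ 2r}`; `Ψ ∘ (F + χ (F' - F)) - Ψ ∘ F` has compact
support in `Ω`; apply (1) to `k₀ = χ' (Ψ ∘ F - id)` and `k₀ + ` that difference.  Hence `I` is constant along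
homotopies without small values on `K \ Ω` (uniform continuity), in particular along `F ↦ l • F`, `l ≥ 1`.
(3) If `F` has no zero in `K`, `I F = I (l • F) = 0` for large `l`.  (4) If all zeros in `Ω` are
nondegenerate they are finitely many, and by the inverse function theorem and the change of variables
formula `I (l • F) = (∑ ± 1) ∫ ψ` for large `l`, non-zero if their number is odd.  (5) Perturb `H 0` (Gromes): `lk x`
= coordinates of `x - τ x`, `φ t = t^3`, `F_k x = F_{k-1} x - (φ (lk x) • y⁻ + |φ (lk x)| • y⁺)`,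
`y^± = (y ± τ y)/2`, `y` a small regular value of `F_{k-1} / φ (lk)` on `Ω ∩ {lk > 0}`
(`addHaar_image_eq_zero_of_det_fderivWithin_eq_zero`).  `F_k` is equivariant, its zeros with some
`lj ≠ 0`, `j ≤ k`, are nondegenerate (where `lk = 0` value and derivative are those of `F_{k-1}`), and on the fixed
space nothing changes; the zeros other than `x₀` come in pairs `x`, `τ x`. -/
def DegStmt : Prop :=
  ∀ (V : Type) [NormedAddCommGroup V] [NormedSpace ℝ V] [FiniteDimensional ℝ V]
    (τ : V →L[ℝ] V) (O K Ω : Set V) (H : ℝ → V → V) (x₀ : V),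
    (∀ x, τ (τ x) = x) → IsOpen O → IsCompact K → IsOpen Ω → Ω ⊆ K → K ⊆ O →
    (∀ s ∈ Icc (0 : ℝ) 1, ContDiffOn ℝ 1 (H s) O) →
    ContinuousOn (fun p : ℝ × V => H p.1 p.2) (Icc (0 : ℝ) 1 ×ˢ K) →
    (∀ s ∈ Icc (0 : ℝ) 1, ∀ x ∈ K, H s x = 0 → x ∈ Ω) →
    (∀ x ∈ Ω, τ x ∈ Ω) → (∀ x ∈ Ω, H 0 (τ x) = τ (H 0 x)) →
    x₀ ∈ Ω → (∀ x ∈ Ω, τ x = x → (H 0 x = 0 ↔ x = x₀)) → τ x₀ = x₀ →
    HasFDerivAt (H 0) (ContinuousLinearMap.id ℝ V) x₀ →
    ∃ x ∈ Ω, H 1 x = 0

/-! ## The algebraic non-existence argument -/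

section
variable {G S₀ R₀ T R : Type} [Group G]

/-- Arbitrarily small flat labellings by unit quaternions with non-trivial holonomy. -/
def Small (φ : S₀ → G) (w : R₀ → FreeGroup S₀) : Prop :=
  ∀ ε : ℝ, 0 < ε → ∃ ρ : G → S₀ → ℍˣ, (∀ g s, ‖(ρ g s : ℍ)‖ = 1) ∧ (∀ g s, ‖(ρ g s : ℍ) - 1‖ ≤ ε) ∧
    (∀ g e, hol φ ρ (w e) g = 1) ∧ ∃ q, ev φ q = 1 ∧ hol φ ρ q 1 ≠ 1

/-- The system of equations `v r = 1` in the unknowns `T` over the letters `S₀`. -/
structure Sys (φ₀ : S₀ → G) (w₀ : R₀ → FreeGroup S₀) (φT : T → G) (a : R₀ → T)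
    (v : R → FreeGroup (S₀ ⊕ T)) : Prop where
  a_one : ∀ e, φT (a e) = 1
  v_one : ∀ r, ev (Sum.elim φ₀ φT) (v r) = 1
  gen : ∀ n, ev (Sum.elim φ₀ φT) n = 1 →
    n ∈ Subgroup.normalClosure (range v ∪ range fun e => FreeGroup.of (Sum.inr (a e)))
  key : ∀ e, FreeGroup.map Sum.inl (w₀ e) * FreeGroup.of (Sum.inr (a e)) ∈
    Subgroup.normalClosure (range v) ⊔ ⁅(ev (Sum.elim φ₀ φT)).ker, (ev (Sum.elim φ₀ φT)).ker⁆
  dual : ∃ m : T → (G × R →₀ ℤ), ∀ g r,
    Finsupp.linearCombination ℤ
      (fun p : G × (S₀ ⊕ T) => Sum.elim (fun _ => 0) (fun t => tr p.1 (m t)) p.2)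
      (D (Sum.elim φ₀ φT) (v r) g) = Finsupp.single (g, r) 1

end

/-- **SYS** (`Sys.lean`, `theorem sys : SysStmt`).  (0) Tietze: choose `σ s₀` with `ev φ (σ s₀) = φ₀ s₀`;
letters `S₀ ⊕ S`, relators `R ⊕ S₀` (`map inr (w r)`, `of (inl s₀) * (map inr (σ s₀))⁻¹`) are again `Asph`
(injectivity: look at the `inl` coordinates first).  So assume letters `S₀ ⊕ T₀`, relators `w`.
(1) `ψ : FreeGroup (S₀ ⊕ T₀) →* FreeGroup S₀` a retraction with `ev φ₀ ∘ ψ = ev` (`Acyc.surj`); `π r` with
`d2 φ₀ w₀ (π r) = D φ₀ (ψ (w r)) 1` (`ex1`, `d1_D`).  `T = T₀ ⊕ R₀`, `a = inr`, `φT (inr e) = 1`, `N` = kernel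
of `ev` on `F' = FreeGroup (S₀ ⊕ T)`, `B = Additive (Abelianization N)`, `cl : N → B`; conjugation by `u ∈ F'` acts on `B`
through `ev u`.  `κ : (G × R₀ →₀ ℤ) →ₗ B`, `(g,e) ↦ cl (u a_e u⁻¹)`, `ev u = g`.  Choose `A r` in the normal
closure of the `a_e` with `cl (A r) = κ (π r)`, and put `v r = j (w r) * A r`.  `gen` is clear.  `key`: the
`n ∈ ker ev ⊆ FreeGroup (S₀ ⊕ T₀)` with `∃ m, d2 φ₀ w₀ m = D φ₀ (ψ n) 1 ∧ cl (j n) + κ m ∈ cl (normalClosure v)` form a
normal subgroup containing the `w r`; for `n = map inl (w₀ e)`, `m = single (1,e) 1` by `Acyc.inj`.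
`dual`: `m (inl t)` with `d2 φ w (m t) = D (of (inr t) * (map inl (ψ t))⁻¹) 1`, `m (inr e)` with
`d2 φ w (m e) = D (map inl (w₀ e)) 1` (exists for each word of the normal closure of `w`); apply the injective
`d2 φ w` to both sides: `D (j n) g ↦ D n g - D (map inl (ψ n)) g` (induction on `n`), and
`D (A r) g ↦ D (map inl (ψ (w r))) g`, since `n ↦ D n g` is additive on `N`, so factors through `cl`. -/
def SysStmt : Prop :=
  ∀ (G S₀ R₀ S R : Type) [Group G] (φ₀ : S₀ → G) (w₀ : R₀ → FreeGroup S₀) (φ : S → G)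
    (w : R → FreeGroup S), Acyc φ₀ w₀ → Asph φ w →
    ∃ (T R' : Type) (φT : T → G) (a : R₀ → T) (v : R' → FreeGroup (S₀ ⊕ T)), Sys φ₀ w₀ φT a v

/-- **FIN** (`Fin.lean`, `theorem fin : DegStmt → FinStmt`).  Gap estimate, finite quotient, degree. -/
def FinStmt : Prop :=
  ∀ (G S₀ R₀ T R : Type) [Group G] [Group.ResiduallyFinite G] [Finite R₀] (φ₀ : S₀ → G)
    (w₀ : R₀ → FreeGroup S₀) (φT : T → G) (a : R₀ → T) (v : R → FreeGroup (S₀ ⊕ T)),
    (∀ e, ev φ₀ (w₀ e) = 1) → Sys φ₀ w₀ φT a v → ¬ Small φ₀ w₀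

/-- **EXT** (`Ext.lean`): a two-dimensional classifying complex gives an aspherical presentation. -/
def ExtStmt : Prop :=
  ∀ (G : Type) [Group G], Crest.Topology.HasClassifyingComplex G 2 →
    ∃ (S R : Type) (φ : S → G) (w : R → FreeGroup S), Asph φ w

/-- **CD** (`Cd.lean`, `theorem cd : CdStmt`).  `0 → ℤ[G × R] → ℤ[G × S] → ℤ[G] → ℤ → 0` is a projective
resolution of the trivial representation (`G` acts by `tr`; `Rep.free`, `Rep.ofMulAction`, or transport to
`R →₀ G →₀ ℤ`); use `groupCohomologyIso`.  In degree `≥ 3` the cochain group is zero.  In degree two with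
trivial coefficients `ℤ` the cochain `(g,r) ↦ c r` is a cocycle and not a coboundary (an equivariant map
`ℤ[G × S] → ℤ` is `(g,s) ↦ y s`). -/
def CdStmt : Prop :=
  ∀ (G S R : Type) [Group G] (φ : S → G) (w : R → FreeGroup S), Acyc φ w →
    (∀ (A : Rep ℤ G) (n : ℕ), 3 ≤ n → CategoryTheory.Limits.IsZero (groupCohomology A n)) ∧
    (∀ c : R → ℤ, (∀ y : S → ℤ, ∃ r,
        Finsupp.linearCombination ℤ (fun p : G × S => y p.2) (D φ (w r) 1) ≠ c r) →
      ¬ CategoryTheory.Limits.IsZero (groupCohomology (Rep.trivial ℤ G ℤ) 2))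

/-! ## Right-angled Artin groups and Bestvina-Brady groups -/

section
variable {V : Type} (L : SimpleGraph V)

/-- Commutation relators. -/
def rels : Set (FreeGroup V) :=
  {r | ∃ u v, L.Adj u v ∧ r = FreeGroup.of u * FreeGroup.of v * (FreeGroup.of u)⁻¹ * (FreeGroup.of v)⁻¹}

/-- The right-angled Artin group. -/
abbrev RA : Type := PresentedGroup (rels L)

/-- Standard generators. -/
def gen (v : V) : RA L := PresentedGroup.of v

lemma gen_comm {u v : V} (h : L.Adj u v) : Commute (gen L u) (gen L v) := by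
  have : PresentedGroup.mk (rels L)
      (FreeGroup.of u * FreeGroup.of v * (FreeGroup.of u)⁻¹ * (FreeGroup.of v)⁻¹) = 1 :=
    PresentedGroup.one_of_mem ⟨u, v, h, rfl⟩
  rw [map_mul, map_mul, map_mul, map_inv, map_inv, mul_inv_eq_one, mul_inv_eq_iff_eq_mul] at this
  exact this

/-- Universal property. -/
def raLift {H : Type} [Group H] (f : V → H) (hf : ∀ u v, L.Adj u v → Commute (f u) (f v)) :
    RA L →* H :=
  PresentedGroup.toGroup (f := f) (by
    rintro r ⟨u, v, h, rfl⟩
    simp only [map_mul, map_inv, FreeGroup.lift_apply_of]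
    rw [(hf u v h).eq]; group)

@[simp] lemma raLift_gen {H : Type} [Group H] (f : V → H)
    (hf : ∀ u v, L.Adj u v → Commute (f u) (f v)) (v : V) : raLift L f hf (gen L v) = f v :=
  PresentedGroup.toGroup.of _

/-- Letters: generators and their inverses. -/
def lt (l : V × Bool) : RA L := if l.2 then gen L l.1 else (gen L l.1)⁻¹

@[simp] lemma lt_true (v : V) : lt L (v, true) = gen L v := rfl
@[simp] lemma lt_false (v : V) : lt L (v, false) = (gen L v)⁻¹ := rfl

lemma lt_not (l : V × Bool) : lt L (l.1, !l.2) = (lt L l)⁻¹ := by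
  obtain ⟨v, _ | _⟩ := l <;> simp

lemma lt_comm {l m : V × Bool} (h : L.Adj l.1 m.1) : Commute (lt L l) (lt L m) := by
  obtain ⟨u, _ | _⟩ := l <;> obtain ⟨v, _ | _⟩ := m
  · exact (gen_comm L h).inv_inv
  · exact (gen_comm L h).inv_left
  · exact (gen_comm L h).inv_right
  · exact gen_comm L h

lemma exists_word (g : RA L) : ∃ n, ∃ l : List (V × Bool), l.length = n ∧ (l.map (lt L)).prod = g := by
  have hg : g ∈ Subgroup.closure (range (PresentedGroup.of : V → RA L)) := by
    rw [PresentedGroup.closure_range_of]; trivial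
  induction hg using Subgroup.closure_induction with
  | mem x hx => obtain ⟨v, rfl⟩ := hx; exact ⟨1, [(v, true)], rfl, by simp [gen]⟩
  | one => exact ⟨0, [], rfl, rfl⟩
  | mul x y _ _ hx hy =>
    obtain ⟨_, l, -, rfl⟩ := hx
    obtain ⟨_, l', -, rfl⟩ := hy
    exact ⟨_, l ++ l', rfl, by simp⟩
  | inv x _ hx =>
    obtain ⟨_, l, -, rfl⟩ := hx
    refine ⟨_, (l.map fun p => (p.1, !p.2)).reverse, rfl, ?_⟩
    rw [List.prod_inv_reverse, List.map_reverse, List.map_map, List.map_map]
    congr 2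
    exact List.map_congr_left fun p _ => lt_not L p

open Classical in
/-- Word length. -/
def len (g : RA L) : ℕ := Nat.find (exists_word L g)

lemma exists_list (g : RA L) :
    ∃ l : List (V × Bool), l.length = len L g ∧ (l.map (lt L)).prod = g := by
  classical
  exact Nat.find_spec (exists_word L g)

lemma len_le (l : List (V × Bool)) : len L (l.map (lt L)).prod ≤ l.length := by
  classical
  exact Nat.find_min' (exists_word L _) ⟨l, rfl, rfl⟩

@[simp] lemma len_one : len L 1 = 0 := Nat.le_zero.1 (len_le L [])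

lemma len_eq_zero {g : RA L} (h : len L g = 0) : g = 1 := by
  obtain ⟨l, hl, rfl⟩ := exists_list L g
  rw [h, List.length_eq_zero_iff] at hl
  simp [hl]

lemma len_mul_le (g h : RA L) : len L (g * h) ≤ len L g + len L h := by
  obtain ⟨l, hl, rfl⟩ := exists_list L g
  obtain ⟨l', hl', rfl⟩ := exists_list L h
  have := len_le L (l ++ l')
  rw [List.map_append, List.prod_append, List.length_append] at this
  omega

lemma len_lt_le (l : V × Bool) : len L (lt L l) ≤ 1 := by simpa using len_le L [l]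

lemma len_inv_le (g : RA L) : len L g⁻¹ ≤ len L g := by
  obtain ⟨l, hl, rfl⟩ := exists_list L g
  have := len_le L (l.map fun p => (p.1, !p.2)).reverse
  rw [List.length_reverse, List.length_map, hl] at this
  convert this using 2
  rw [List.prod_inv_reverse, List.map_reverse, List.map_map, List.map_map]
  congr 2
  exact List.map_congr_left fun p _ => (lt_not L p).symm

lemma len_inv (g : RA L) : len L g⁻¹ = len L g :=
  le_antisymm (len_inv_le L g) (by simpa using len_inv_le L g⁻¹)

/-- The letter `l` shortens `g` on the right. -/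
def Down (g : RA L) (l : V × Bool) : Prop := len L (g * lt L l) < len L g

lemma exists_down {g : RA L} (hg : g ≠ 1) : ∃ l, Down L g l := by
  obtain ⟨l, hl, rfl⟩ := exists_list L g
  rcases List.eq_nil_or_concat l with rfl | ⟨l', p, rfl⟩
  · simp at hg
  · refine ⟨(p.1, !p.2), ?_⟩
    have := len_le L l'
    rw [Down, ← hl, lt_not]
    simp only [List.concat_eq_append, List.map_append, List.prod_append, List.map_cons,
      List.map_nil, List.prod_cons, List.prod_nil, mul_one, mul_inv_cancel_right,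
      List.length_append, List.length_cons, List.length_nil]
    omega

/-- Height: every generator goes to `1`. -/
def htM : RA L →* Multiplicative ℤ :=
  raLift L (fun _ => Multiplicative.ofAdd 1) fun _ _ _ => Commute.all _ _

/-- Height as an integer. -/
def ht (g : RA L) : ℤ := Multiplicative.toAdd (htM L g)

@[simp] lemma ht_one : ht L 1 = 0 := by simp [ht]
@[simp] lemma ht_mul (g h : RA L) : ht L (g * h) = ht L g + ht L h := by simp [ht]
@[simp] lemma ht_inv (g : RA L) : ht L g⁻¹ = -ht L g := by simp [ht]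
@[simp] lemma ht_gen (v : V) : ht L (gen L v) = 1 := by simp [ht, htM]

/-- The Bestvina-Brady group. -/
def BB : Subgroup (RA L) := (htM L).ker

lemma mem_BB {g : RA L} : g ∈ BB L ↔ ht L g = 0 := by
  simp [BB, ht, MonoidHom.mem_ker]

/-- Normal form facts. -/
structure NF : Prop where
  step : ∀ g l, len L (g * lt L l) = len L g + 1 ∨ len L (g * lt L l) + 1 = len L g
  clique : ∀ g l m, Down L g l → Down L g m → l ≠ m → L.Adj l.1 m.1
  comm : ∀ g l m, L.Adj l.1 m.1 → (Down L (g * lt L l) m ↔ Down L g m)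
  rf : Group.ResiduallyFinite (RA L)

variable [LinearOrder V]

/-- Edges of `L`. -/
def Edge : Type := {p : V × V // p.1 < p.2 ∧ L.Adj p.1 p.2}

/-- Triangles of `L`. -/
def Tri : Type := {t : V × V × V // (t.1 < t.2.1 ∧ L.Adj t.1 t.2.1) ∧
  (t.2.1 < t.2.2 ∧ L.Adj t.2.1 t.2.2) ∧ L.Adj t.1 t.2.2}

/-- The three sides of a triangle `u < v < t`: `uv`, `vt`, `ut`. -/
def Tri.e01 {L : SimpleGraph V} (t : Tri L) : Edge L := ⟨(t.1.1, t.1.2.1), t.2.1⟩
/-- See `Tri.e01`. -/
def Tri.e12 {L : SimpleGraph V} (t : Tri L) : Edge L := ⟨(t.1.2.1, t.1.2.2), t.2.2.1⟩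
/-- See `Tri.e01`. -/
def Tri.e02 {L : SimpleGraph V} (t : Tri L) : Edge L :=
  ⟨(t.1.1, t.1.2.2), t.2.1.1.trans t.2.2.1.1, t.2.2.2⟩

/-- Generators of the Bestvina-Brady group. -/
def phi0 (e : Edge L) : BB L := ⟨gen L e.1.1 * (gen L e.1.2)⁻¹, by simp [mem_BB]⟩

/-- The two-cells of the level set. -/
def w0 (p : Tri L × Bool) : FreeGroup (Edge L) :=
  if p.2 then FreeGroup.of p.1.e01 * FreeGroup.of p.1.e12 * (FreeGroup.of p.1.e02)⁻¹
  else FreeGroup.of p.1.e12 * FreeGroup.of p.1.e01 * (FreeGroup.of p.1.e02)⁻¹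

/-- Sign of `v` in the simplex `σ`. -/
def sgn (v : V) (σ : Finset V) : ℤ := (-1) ^ (σ.filter (· < v)).card

/-- Augmented simplicial boundary. -/
def bdL : (Finset V →₀ ℤ) →ₗ[ℤ] (Finset V →₀ ℤ) :=
  Finsupp.linearCombination ℤ fun σ => ∑ v ∈ σ, sgn v σ • Finsupp.single (σ.erase v) 1

/-- Boundary of cubes; `(g, σ)` is the cube with vertices `g * ∏_{v ∈ τ} gen v`, `τ ⊆ σ`. -/
def bd : (RA L × Finset V →₀ ℤ) →ₗ[ℤ] (RA L × Finset V →₀ ℤ) :=
  Finsupp.linearCombination ℤ fun p => ∑ v ∈ p.2, sgn v p.2 •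
    (Finsupp.single (p.1 * gen L v, p.2.erase v) 1 - Finsupp.single (p.1, p.2.erase v) 1)

/-- Chains of `k`-dimensional cubes. -/
def ChK (k : ℕ) : Submodule ℤ (RA L × Finset V →₀ ℤ) :=
  Finsupp.supported ℤ ℤ {p | L.IsClique (p.2 : Set V) ∧ p.2.card = k}

/-- The cube complex is acyclic. -/
structure CubeExact : Prop where
  bd_mem : ∀ k, ∀ z ∈ ChK L (k + 1), bd L z ∈ ChK L k
  bd_bd : ∀ k, ∀ z ∈ ChK L k, bd L (bd L z) = 0
  ex : ∀ k, ∀ z ∈ ChK L (k + 1), bd L z = 0 → ∃ y ∈ ChK L (k + 2), bd L y = z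
  ex0 : ∀ z ∈ ChK L 0, aug _ z = 0 → ∃ y ∈ ChK L 1, bd L y = z

/-- The flag complex of `L` has dimension at most two. -/
def Dim2 : Prop := ∀ σ : Finset V, L.IsClique (σ : Set V) → σ.card ≤ 3

/-- The flag complex of `L` is acyclic: a contraction of the augmented chain complex. -/
def LAcyc : Prop :=
  ∃ H : Finset V → (Finset V →₀ ℤ), ∀ σ : Finset V, L.IsClique (σ : Set V) →
    H σ ∈ Finsupp.supported ℤ ℤ {τ : Finset V | L.IsClique (τ : Set V) ∧ τ.card = σ.card + 1} ∧
    bdL (H σ) + Finsupp.linearCombination ℤ H (bdL (Finsupp.single σ 1)) = Finsupp.single σ 1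

/-- Equal or adjacent. -/
def Near (u v : V) : Prop := u = v ∨ L.Adj u v

/-- A flat labelling of `L` by unit quaternions that is not a coboundary. -/
def LRep : Prop :=
  ∃ β : V → V → ℍ, (∀ u v, Near L u v → ‖β u v‖ = 1) ∧
    (∀ u v t, Near L u v → Near L v t → Near L u t → β u v * β v t = β u t) ∧
    ¬ ∃ γ : V → ℍ, (∀ v, γ v ≠ 0) ∧ ∀ u v, L.Adj u v → β u v * γ v = γ u

end

/-- **NF** (`NF.lean`, `theorem nf : NFStmt`).  A letter `l` acts on `x : V × Bool → ℤ` by
`x' l̄ = - x l`, `x' l = x l̄ + 2 x l`, `x' m = x m + 2 x l` if `m.1 ≠ l.1` is not adjacent to `l.1`, `x' m = x m` if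
adjacent (`l̄ = (l.1, !l.2)` acts as the inverse; adjacent letters commute), so `x (g * lt l) = l • x g`,
`x 1 = 1` defines `x g` (use `raLift` into `Equiv.Perm` with inverses or `ᵐᵒᵖ`).  `Up n g`: `g` is the product of a
word of `n` letters each of which has a positive coordinate when it is read.  Invariant on `Up`: all
`x m ≠ 0` (odd) and `x l + x m > 0` for `l ≠ m` non-adjacent (including `l̄`).  Descent: if `Up (n+1) g` and
`x g m < 0` then `Up n (g * lt m)` (induction: `g = g' * lt l`, `x g l̄ < 0`, so `m = l̄` or `m` is adjacent to `l`;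
commute), and `Up 0 g` has no negative coordinate.  So every `g` has `Up n g` for some `n` changing by `± 1`
per letter; `n` is unique (descend along a negative coordinate) hence `n = len g` and
`Down g m ↔ x g m < 0`.  `rf`: `g ≠ 1` has a negative coordinate; act on `V × Bool → ZMod N`. -/
def NFStmt : Prop := ∀ (V : Type) [Fintype V] (L : SimpleGraph V), NF L

/-- **CUBE** (`Cube.lean`, `theorem cube : CubeStmt`).  For a cube `c = (g,σ)` let
`top c = g * ∏ {gen v | v ∈ σ, ¬ Down g (v,true)}` and `h c = len (top c) = len g + #{v ∈ σ | ¬ Down g (v,true)}`; each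
`v ∈ σ` has a unique letter `(v, b)` with `Down (top c) (v,b)`; of the two faces opposite to `v` one has the same top,
the other has `h` smaller by one.  For `t ≠ 1` fix `d t = (v, b)` with `Down t (d t)`; `H c = 0` if `top c = 1` or
`v ∈ σ`, else `H c = ± (cube with the same top spanned by insert v σ)` (`(g * (gen v)⁻¹, insert v σ)` with sign
`sgn v (insert v σ)` if `b = false`; `(g, insert v σ)` with the opposite sign if `b = true`; a clique by `NF.clique`).
`bd (H c) + H (bd c) - c` is supported on cubes with smaller `h` when `top c ≠ 1` (sign identity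
`sgn u (insert v σ) * sgn v (insert v σ) = - sgn u σ * sgn v (insert v (σ.erase u))`), `H` does not raise `h`;
induct on the largest `h` of a cycle; `h = 0` only for `(1, ∅)`. -/
def CubeStmt : Prop :=
  ∀ (V : Type) [Fintype V] [LinearOrder V] (L : SimpleGraph V), NF L → CubeExact L

/-- **MORSE** (`Morse.lean`, `theorem morse : MorseStmt`).  `bd = bd⁺ - bd⁰`, `bd⁰ = 1 ⊗ bdL`, `H⁰ = 1 ⊗ H`.  With
`U m` = chains supported on `ht g ≥ m`: `bd H⁰ + H⁰ bd + 1 = bd⁺ H⁰ + H⁰ bd⁺` maps `U m` to `U (m+1)` (clique chains), so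
(a) if `z ∈ ChK k` and `bd z ∈ U 0` then `z - bd y ∈ U 0` for some `y ∈ ChK (k+1)` (`y = 0` if `k = 3`).  The map
`Θ (g,σ) = (θ (g * ∏_{v ∈ σ} gen v), σ)`, `θ (gen v) = (gen v)⁻¹`, is an involution with `bd Θ = - Θ bd` exchanging `U 0` and
`W` = chains supported on `ht g + #σ ≤ 0`; (b) the same as (a) for `W`.  Lift `(g, uv) ↦ (g * (gen v)⁻¹, {u,v})`,
`(g, (uvt, false)) ↦ -(g * (gen t)⁻¹, {u,v,t})`, `(g, (uvt, true)) ↦ (g * (gen t)⁻¹ * (gen v)⁻¹, {u,v,t})`: these are the cubes in
neither `U 0` nor `W`; `bd (lift₃ y) - lift₂ (d2 y) ∈ U 0 + W`, and the `U 0`-part of `bd (lift₂ z)` has boundary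
`± d1 z`.  `U 0 ∩ W` is spanned by the vertices of height zero.  Chase: `inj`: `bd (lift₃ y) = u + l`, `bd u = - bd l ∈
U 0 ∩ W` of degree one is zero, `u = bd u'`, `l = bd l'` by `ex` and (a), (b), `lift₃ y - u' - l'` is a 3-cycle, so zero
(`ChK 4 = 0`).  `ex1`: same one degree lower, then project.  `ex0`: `z = bd u = bd l`, `u - l = bd y`, project `y`. -/
def MorseStmt : Prop :=
  ∀ (V : Type) [Fintype V] [LinearOrder V] (L : SimpleGraph V), CubeExact L → Dim2 L → LAcyc L →
    Acyc (phi0 L) (w0 L)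

/-- **COC** (`Coc.lean`, `theorem coc : CocStmt`).  `Init g l := Down g⁻¹ l` (a clique of letters; it grows along
up-steps: `len (g * lt m) = len g + 1 → Init g l → Init (g * lt m) l`).  `wt g l` = least `len u` with
`¬ Init (g * u) l`: 1-Lipschitz, positive iff `Init g l`.  Sorting: any word read from `g` can be replaced by a
word, not longer, of down-steps followed by up-steps with the same product (an up-step `m` followed by a down-step `m'`: `m' = m̄`, or
adjacent by `NF.clique`, swap by `NF.comm`), so the least `u` may be taken to be down-steps only, which do not add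
initial letters; removing the (at most 3) initial letters one after the other gives `len g ≤ 7 * max_l wt g l`.
`W g v = wt g (v,true) + wt g (v,false)`; for adjacent letters `l`, `m` the supports of `W g` and `W (g * lt l * lt m)` are
pairwise `Near` (both `Init` sets lie in the `Init` set of the longest corner of the square).  Choose `ξ v ∈ ℍ` such that
for each clique `σ` and `u ∈ σ` the `β u v * ξ v`, `v ∈ σ`, are linearly independent over `ℝ` (induct over the vertices,
avoiding finitely many proper subspaces; `#σ ≤ 3 < 4`), so `‖∑ v, p v • β u v * ξ v‖ ≥ c ∑ p v` for `p ≥ 0` supported in a clique containing `u`.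
For `g ≠ 1` pick `u g` with `W g (u g) > 0`, `Γ g = ∑ v, W g v • β (u g) v * ξ v`, `Γ̂ = Γ/‖Γ‖`,
`r g g' = (Γ̂ g)⁻¹ * β (u g) (u g') * Γ̂ g'`; `ρ g s = r (c g) (c g s)`, `c = gen v₀ ^ n` (`len ≥ |ht| = n`).  Flat since three pairwise
`Near` vertices; `‖ρ - 1‖ ≤ C / n` since `β (u g) (u g') * Γ g' = ∑ v, W g' v • β (u g) v * ξ v`.  If all closed words had trivial
holonomy, `Θ (ev q) = hol ρ q 1` is well defined on `BB L`, `Θ (g s) = Θ g * ρ g s`; along
`gen u ^ (n-k) * gen v ^ k` the initial letters are among `(u,true)`, `(v,true)` (abelianise), only `(u,true)` for `k = 0`; telescoping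
shows that `γ v = Γ̂ (gen v ^ n) * (Θ (c⁻¹ * gen v ^ n))⁻¹` contradicts `LRep`. -/
def CocStmt : Prop :=
  ∀ (V : Type) [Fintype V] [LinearOrder V] (L : SimpleGraph V), NF L → Dim2 L → LRep L →
    Surjective (ev (phi0 L)) → Small (phi0 L) (w0 L)

/-- **LDATA** (`LData.lean`, `theorem ldata : LDataStmt`).  Order complex of the face poset of the spine of
the Poincaré sphere: 5 vertices, 10 edges (`K₅`), 6 pentagons; 21 vertices, 80 edges, 60 triangles; `π₁` is the
binary icosahedral group.  Find the pentagons, the contraction `H` and `β` (entries in `ℤ[√5]/4`) by a script, and check them by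
`decide +kernel` on a list or bit-mask encoding. -/
def LDataStmt : Prop :=
  ∃ (n : ℕ) (L : SimpleGraph (Fin n)), Dim2 L ∧ LAcyc L ∧ LRep L ∧ Nonempty (Tri L)

/-- **TOP3** (`Top3.lean`, `theorem top3 : Top3Stmt`; may be split).  For a type `Γ` with permutations
`mv v : Γ ≃ Γ` commuting for adjacent `v` (`Γ = RA L`, right multiplication by `gen v`; `Γ = ℤ`, add one) let `Sp Γ` be the
pairs `(g, y)`, `y : V → ℝ` with values in `[0,1)` and support a clique; cube maps
`χ (g,σ) : (V → I) → Sp Γ`, `z ↦ (g moved by {v ∈ σ | z v = 1}, z on {v ∈ σ | z v < 1}, 0 elsewhere)`; topology coinduced by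
all `χ (g,σ)`, `σ` a clique.  (a) `Sp ℤ` is Hausdorff (continuous separating functions `y v (1 - y v)`,
`y v ^ 2 (1 - y v)`, `g + ∑ y v`) and a `CWComplex` with `n`-cells the `(g,σ)` with `#σ = n` (`Finset.orderEmbOfFin` or an
`equivFin`); none above dimension 3.  (b) `Sp (RA L) → Sp ℤ` induced by `ht` is an `IsQuotientCoveringMap` for left
multiplication by `BB L` (around `(g,y)` take `θ ∈ (0,1)` different from all `y v` and the open set of points with all
`y' v ≠ θ` and the same vertex `g' * ∏ {gen v | y' v > θ}`); `IsQuotientCoveringMap.fundamentalGroupEquiv`,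
`MulEquiv.inv'` as in `KP/Top1.lean`.  (c) `Sp (RA L)` is contractible: for `t` let `Dn t` be the clique of letters
with `Down t`; each point lies in the cube below a unique `t` at distances `z l ∈ [0,1)`, `l ∈ Dn t`, from `t`; push it by
`z ↦ z + s (1 - max z)` during a time interval depending on `len t`, and go on with the lower face reached.  Continuity on
`cube × I` by induction on `len t` (finitely many closed pieces), on `Sp × I` because a quotient map times `I` is a
quotient map. -/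
def Top3Stmt : Prop :=
  ∀ (V : Type) [Fintype V] [LinearOrder V] (L : SimpleGraph V), NF L → Dim2 L → Nonempty V →
    Crest.Topology.HasClassifyingComplex (BB L) 3

end Crest.Agent.R197
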