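import Mathlib

/-! Row 197, piece DEG, part A: null Lagrangians and homotopy invariance of `∫ ψ (F) det DF`. -/

set_option autoImplicit false

noncomputable section

namespace Crest.Agent.R197.Deg

open Set MeasureTheory Filter Topology Metric Polynomial

variable {V : Type} [NormedAddCommGroup V] [NormedSpace ℝ V] [FiniteDimensional ℝ V]

lemma det_interp (δ : ℝ) (hδ : 0 < δ) : ∃ (N : ℕ) (t w : Fin N → ℝ), (∀ i, |t i| < δ) ∧
    ∀ A : V →L[ℝ] V, (1 + A).det - 1 = ∑ i, w i * ((1 + t i • A).det - 1) := by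
  classical
  set n := Module.finrank ℝ V
  let t : Fin (n + 1) → ℝ := fun i => δ * (i : ℕ) / (n + 2)
  have ht : Set.InjOn t (Finset.univ : Finset (Fin (n + 1))) := by
    intro i _ j _ h
    have h2 : (0 : ℝ) < n + 2 := by positivity
    have : ((i : ℕ) : ℝ) = (j : ℕ) := by
      simp only [t] at h
      field_simp at h
      exact h
    exact Fin.ext (by exact_mod_cast this)
  refine ⟨n + 1, t, fun i => (Lagrange.basis Finset.univ t i).eval 1, fun i => ?_, fun A => ?_⟩
  · have h1 : ((i : ℕ) : ℝ) < n + 2 := by have := i.2; exact_mod_cast (by omega)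
    rw [abs_of_nonneg (by positivity), div_lt_iff₀ (by positivity)]
    exact mul_lt_mul_of_pos_left h1 hδ
  · let e := Module.finBasis ℝ V
    let M := LinearMap.toMatrix e e (A : V →ₗ[ℝ] V)
    let q : ℝ[X] := Matrix.det ((X : ℝ[X]) • M.map C + (1 : Matrix _ _ ℝ).map C) - 1
    have hq : ∀ s : ℝ, q.eval s = (1 + s • A).det - 1 := by
      intro s
      have h1 : (1 + s • A).det = (s • M + 1).det := by
        rw [ContinuousLinearMap.det, ← LinearMap.det_toMatrix e]
        congr 1
        simp [M, add_comm]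
      rw [h1, eval_sub, eval_one, ← coe_evalRingHom, RingHom.map_det]
      congr 2
      ext i j
      by_cases hij : i = j
      · subst hij; simp [mul_comm s]
      · simp [hij, mul_comm s]
    have hd : q.degree < (Finset.univ : Finset (Fin (n + 1))).card := by
      have h1 : q.natDegree ≤ n := by
        refine (natDegree_sub_le _ _).trans (max_le ?_ (by simp))
        simpa using natDegree_det_X_add_C_le M 1
      refine (degree_le_natDegree).trans_lt ?_
      simp only [Finset.card_univ, Fintype.card_fin]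
      exact_mod_cast Nat.lt_succ_of_le h1
    have h := congrArg (eval 1) (Lagrange.eq_interpolate ht hd)
    rw [hq, one_smul, Lagrange.interpolate_apply, eval_finsetSum] at h
    rw [h]
    refine Finset.sum_congr rfl fun i _ => ?_
    rw [eval_mul, eval_C, hq, mul_comm]

lemma exists_cutoff {C Ω : Set V} (hC : IsCompact C) (hΩ : IsOpen Ω) (h : C ⊆ Ω) :
    ∃ (χ : V → ℝ) (T : Set V), ContDiff ℝ 1 χ ∧ IsCompact T ∧ T ⊆ Ω ∧ C ⊆ T ∧
      (∀ x ∈ C, χ =ᶠ[𝓝 x] fun _ => 1) ∧ (∀ x ∉ T, χ x = 0) ∧ ∀ x, χ x ∈ Icc (0 : ℝ) 1 := by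
  obtain ⟨T, hT, h1, h2⟩ := exists_compact_between hC hΩ h
  obtain ⟨f, f1, f0, f2⟩ := exists_contMDiffMap_one_nhds_of_subset_interior (n := 1)
    (modelWithCornersSelf ℝ V) hC.isClosed h1
  exact ⟨f, T, f.contMDiff.contDiff, hT, h2, h1.trans interior_subset,
    fun x hx => f1.filter_mono (nhds_le_nhdsSet hx), f0, f2⟩

omit [FiniteDimensional ℝ V] in
lemma contDiff_cut {χ : V → ℝ} {T Ω : Set V} (hχ : ContDiff ℝ 1 χ) (hT : IsClosed T)
    (hΩ : IsOpen Ω) (h : T ⊆ Ω) (h0 : ∀ x ∉ T, χ x = 0) {A : V → V} (hA : ContDiffOn ℝ 1 A Ω) :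
    ContDiff ℝ 1 fun x => χ x • A x := by
  rw [contDiff_iff_contDiffAt]
  intro x
  by_cases hx : x ∈ Ω
  · exact hχ.contDiffAt.smul (hA.contDiffAt (hΩ.mem_nhds hx))
  · refine (contDiffAt_const (c := (0 : V))).congr_of_eventuallyEq ?_
    filter_upwards [hT.isOpen_compl.mem_nhds fun h' => hx (h h')] with y hy
    rw [h0 y hy, zero_smul]

variable [MeasurableSpace V] [BorelSpace V] (μ : Measure V) [μ.IsAddHaarMeasure]

omit [MeasurableSpace V] [BorelSpace V] [FiniteDimensional ℝ V] in
lemma cont_det {k : V → V} (hk : ContDiff ℝ 1 k) (t : ℝ) :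
    Continuous fun x => (1 + t • fderiv ℝ k x).det - 1 :=
  (ContinuousLinearMap.continuous_det.comp
    (continuous_const.add ((hk.continuous_fderiv one_ne_zero).const_smul t))).sub continuous_const

omit [MeasurableSpace V] [BorelSpace V] [FiniteDimensional ℝ V] in
lemma supp_det {k : V → V} (hc : HasCompactSupport k) (t : ℝ) :
    HasCompactSupport fun x => (1 + t • fderiv ℝ k x).det - 1 :=
  (hc.fderiv ℝ).comp_left (g := fun A : V →L[ℝ] V => (1 + t • A).det - 1)
    (by simp [ContinuousLinearMap.det])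

lemma nl0 {k : V → V} (hk : ContDiff ℝ 1 k) (hc : HasCompactSupport k) :
    ∫ x, ((1 + fderiv ℝ k x).det - 1) ∂μ = 0 := by
  obtain ⟨L, hL⟩ := hk.lipschitzWith_of_hasCompactSupport hc one_ne_zero
  obtain ⟨η, hη, hpos⟩ : ∃ η > 0, ∀ A : V →L[ℝ] V, ‖A‖ < η → 0 < (1 + A).det := by
    have h1 : ContinuousAt (fun A : V →L[ℝ] V => (1 + A).det) 0 :=
      (ContinuousLinearMap.continuous_det.comp (continuous_const.add continuous_id)).continuousAt
    have h2 := h1.eventually (lt_mem_nhds (show (0 : ℝ) < (1 + (0 : V →L[ℝ] V)).det by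
      simp [ContinuousLinearMap.det]))
    obtain ⟨η, hη, h⟩ := Metric.eventually_nhds_iff.1 h2
    exact ⟨η, hη, fun A hA => h (by simpa using hA)⟩
  obtain ⟨R, hR⟩ := hc.isCompact.isBounded.subset_closedBall 0
  have hk0 : ∀ x ∉ closedBall (0 : V) R, k x = 0 := fun x hx =>
    image_eq_zero_of_notMem_tsupport fun h => hx (hR h)
  have key : ∀ t : ℝ, |t| < min η 1 / (L + 1) → ∫ x, ((1 + t • fderiv ℝ k x).det - 1) ∂μ = 0 := by
    intro t ht
    have ht' : |t| * L < min η 1 := by
      rw [lt_div_iff₀ (by positivity)] at ht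
      nlinarith [abs_nonneg t]
    let f : V → V := fun x => x + t • k x
    have hap : ApproximatesLinearOn f
        ((ContinuousLinearEquiv.refl ℝ V : V ≃L[ℝ] V) : V →L[ℝ] V) univ (‖t‖₊ * L) := by
      refine LipschitzOnWith.approximatesLinearOn ?_
      have : (f - ⇑((ContinuousLinearEquiv.refl ℝ V : V ≃L[ℝ] V) : V →L[ℝ] V)) = t • k := by
        ext x; simp [f]
      rw [this]
      exact ((lipschitzWith_smul t).comp hL).lipschitzOnWith
    have hc' : Subsingleton V ∨ ‖t‖₊ * L <
        ‖(((ContinuousLinearEquiv.refl ℝ V : V ≃L[ℝ] V).symm : V →L[ℝ] V))‖₊⁻¹ := by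
      rcases subsingleton_or_nontrivial V with h | h
      · exact Or.inl h
      · right
        rw [ContinuousLinearEquiv.refl_symm, ContinuousLinearEquiv.coe_refl,
          ContinuousLinearMap.nnnorm_id, inv_one, ← NNReal.coe_lt_coe]
        simpa using ht'.trans_le (min_le_right _ _)
    have hinj : InjOn f univ := hap.injOn hc'
    have hsurj := hap.surjective hc'
    have hf0 : ∀ x ∉ closedBall (0 : V) R, f x = x := fun x hx => by simp [f, hk0 x hx]
    have himg : f '' closedBall 0 R = closedBall 0 R := by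
      apply Subset.antisymm
      · rintro _ ⟨x, hx, rfl⟩
        by_contra h
        exact h ((hinj trivial trivial (hf0 _ h)).symm ▸ hx)
      · intro y hy
        obtain ⟨x, rfl⟩ := hsurj y
        by_cases hx : x ∈ closedBall (0 : V) R
        · exact ⟨x, hx, rfl⟩
        · exact absurd (hf0 x hx ▸ hy) hx
    have hd : ∀ x, HasFDerivAt f (1 + t • fderiv ℝ k x) x := fun x =>
      (hasFDerivAt_id x).add ((hk.differentiable one_ne_zero x).hasFDerivAt.const_smul t)
    have hcv := integral_image_eq_integral_abs_det_fderiv_smul μ measurableSet_closedBall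
      (fun x _ => (hd x).hasFDerivWithinAt) (hinj.mono (subset_univ (closedBall (0 : V) R)))
      (fun _ => (1 : ℝ))
    rw [himg] at hcv
    have habs : ∀ x, |(1 + t • fderiv ℝ k x).det| • (1 : ℝ) = (1 + t • fderiv ℝ k x).det := by
      intro x
      rw [smul_eq_mul, mul_one, abs_of_pos (hpos _ ?_)]
      rw [norm_smul, Real.norm_eq_abs]
      exact (mul_le_mul_of_nonneg_left (norm_fderiv_le_of_lipschitz ℝ hL) (abs_nonneg t)).trans_lt
        (ht'.trans_le (min_le_left _ _))
    simp only [habs] at hcv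
    rw [← setIntegral_eq_integral_of_forall_compl_eq_zero (s := closedBall (0 : V) R),
      integral_sub, hcv, sub_self]
    · exact (ContinuousLinearMap.continuous_det.comp (continuous_const.add
        ((hk.continuous_fderiv one_ne_zero).const_smul t))).continuousOn.integrableOn_compact
        (isCompact_closedBall (0 : V) R)
    · exact continuous_const.continuousOn.integrableOn_compact (isCompact_closedBall (0 : V) R)
    · intro x hx
      have : fderiv ℝ k x = 0 := by
        have h : k =ᶠ[𝓝 x] fun _ => 0 := by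
          filter_upwards [isClosed_closedBall.isOpen_compl.mem_nhds hx] with y hy using hk0 y hy
        rw [h.fderiv_eq]; simp
      simp [this, ContinuousLinearMap.det]
  obtain ⟨N, t, w, ht, hw⟩ := det_interp (V := V) (min η 1 / (L + 1)) (by positivity)
  rw [funext fun x => hw (fderiv ℝ k x), integral_finsetSum _ fun i _ =>
    (((cont_det hk (t i)).integrable_of_hasCompactSupport (supp_det hc (t i))).const_mul (w i))]
  refine Finset.sum_eq_zero fun i _ => ?_
  rw [integral_const_mul, key _ (ht i), mul_zero]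

lemma nl {A B : V → V} {C Ω : Set V} (hC : IsCompact C) (hΩ : IsOpen Ω) (h : C ⊆ Ω)
    (hA : ContDiffOn ℝ 1 A Ω) (hB : ContDiffOn ℝ 1 B Ω) (hAB : ∀ x ∈ Ω, x ∉ C → A x = B x) :
    ∫ x in Ω, ((fderiv ℝ A x).det - (fderiv ℝ B x).det) ∂μ = 0 := by
  obtain ⟨χ, T, hχ, hT, hTΩ, -, h1, h0, -⟩ := exists_cutoff hC hΩ h
  have hs : ∀ A : V → V, HasCompactSupport fun x => χ x • (A x - x) := fun A =>
    HasCompactSupport.intro hT fun x hx => by rw [h0 x hx, zero_smul]
  have hd : ∀ A : V → V, ContDiffOn ℝ 1 A Ω → ContDiff ℝ 1 fun x => χ x • (A x - x) := fun A hA =>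
    contDiff_cut hχ hT.isClosed hΩ hTΩ h0 (hA.sub contDiffOn_id)
  have hi : ∀ A : V → V, ContDiffOn ℝ 1 A Ω →
      Integrable (fun x => (1 + fderiv ℝ (fun x => χ x • (A x - x)) x).det - 1) μ := by
    intro A hA
    simpa using (cont_det (hd A hA) 1).integrable_of_hasCompactSupport (μ := μ) (supp_det (hs A) 1)
  have hnear : ∀ A : V → V, ContDiffOn ℝ 1 A Ω → ∀ x ∈ C,
      1 + fderiv ℝ (fun x => χ x • (A x - x)) x = fderiv ℝ A x := by
    intro A hA x hx
    have e : (fun x => χ x • (A x - x)) =ᶠ[𝓝 x] fun x => A x - x := by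
      filter_upwards [h1 x hx] with y hy
      rw [hy, one_smul]
    have hx' := ((hA.contDiffAt (hΩ.mem_nhds (h hx))).differentiableAt one_ne_zero).hasFDerivAt
    rw [e.fderiv_eq, (hx'.fun_sub (show HasFDerivAt (fun x : V => x) _ x from hasFDerivAt_id x)).fderiv]
    ext v; simp
  have e := integral_sub (hi A hA) (hi B hB)
  rw [nl0 μ (hd A hA) (hs A), nl0 μ (hd B hB) (hs B), sub_self] at e
  rw [← e, ← integral_indicator hΩ.measurableSet]
  refine integral_congr_ae (Eventually.of_forall fun x => ?_)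
  by_cases hx : x ∈ C
  · simp only [indicator_of_mem (h hx), hnear A hA x hx, hnear B hB x hx]; ring
  · have e1 : (fun x => χ x • (A x - x)) =ᶠ[𝓝 x] fun x => χ x • (B x - x) := by
      filter_upwards [hC.isClosed.isOpen_compl.mem_nhds hx] with y hy
      by_cases hy' : y ∈ Ω
      · rw [hAB y hy' hy]
      · rw [h0 y fun h' => hy' (hTΩ h'), zero_smul, zero_smul]
    simp only [e1.fderiv_eq, sub_self]
    by_cases hx' : x ∈ Ω
    · have e2 : A =ᶠ[𝓝 x] B := by
        filter_upwards [hC.isClosed.isOpen_compl.mem_nhds hx, hΩ.mem_nhds hx'] with y hy hy'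
          using hAB y hy' hy
      rw [indicator_of_mem hx', e2.fderiv_eq, sub_self]
    · rw [indicator_of_notMem hx']

/-- A bump of the form `det DΨ`. -/
structure Bump (Ψ : V → V) (ψ : V → ℝ) (r : ℝ) : Prop where
  smooth : ContDiff ℝ 1 Ψ
  cont : Continuous ψ
  det : ∀ y, (fderiv ℝ Ψ y).det = ψ y
  zero : ∀ y, r ≤ ‖y‖ → ψ y = 0
  nonneg : ∀ y, 0 ≤ ψ y
  pos : 0 < ψ 0

omit [MeasurableSpace V] [BorelSpace V] in
lemma exists_bump {r : ℝ} (hr : 0 < r) : ∃ (Ψ : V → V) (ψ : V → ℝ), Bump Ψ ψ r := by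
  classical
  let e := Module.finBasis ℝ V
  let S : ℝ := ∑ i, ‖e i‖ + 1
  have hS : 0 < S := by positivity
  let ρ := r / S
  have hρ : 0 < ρ := by positivity
  let b : ℝ → ℝ := fun t => max (ρ - |t|) 0
  have hb : Continuous b := by fun_prop
  let B : ℝ → ℝ := fun t => ∫ s in (0 : ℝ)..t, b s
  have hB : ∀ t, HasDerivAt B (b t) t := fun t => (hb.integral_hasStrictDerivAt 0 t).hasDerivAt
  have hB1 : ContDiff ℝ 1 B := contDiff_one_iff_deriv.2 ⟨fun t => (hB t).differentiableAt, by
    have : deriv B = b := funext fun t => (hB t).deriv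
    rw [this]; exact hb⟩
  let c : Fin (Module.finrank ℝ V) → V →L[ℝ] ℝ := fun i => LinearMap.toContinuousLinearMap (e.coord i)
  refine ⟨fun y => ∑ i, B (c i y) • e i, fun y => ∏ i, b (c i y), ?_, ?_, ?_, ?_, ?_, ?_⟩
  · exact ContDiff.sum fun i _ => (hB1.comp (c i).contDiff).smul contDiff_const
  · exact continuous_finsetProd _ fun i _ => hb.comp (c i).continuous
  · intro y
    have hd : HasFDerivAt (fun y => ∑ i, B (c i y) • e i)
        (∑ i, (b (c i y) • c i).smulRight (e i)) y :=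
      HasFDerivAt.fun_sum fun i _ =>
        ((hB (c i y)).comp_hasFDerivAt y (c i).hasFDerivAt).smul_const (e i)
    rw [hd.fderiv, ContinuousLinearMap.det, ← LinearMap.det_toMatrix e, ← Matrix.det_diagonal]
    congr 1
    ext i j
    simp only [LinearMap.toMatrix_apply, Matrix.diagonal_apply, c]
    by_cases hij : i = j
    · subst hij; simp [Finsupp.single_apply]
    · simp [Finsupp.single_apply, hij]
  · intro y hy
    by_contra h
    have h1 : ∀ i, |c i y| < ρ := by
      intro i
      by_contra hi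
      exact h (Finset.prod_eq_zero (Finset.mem_univ i) (max_eq_right (by linarith [not_lt.1 hi])))
    have h2 : ‖y‖ ≤ ∑ i, ρ * ‖e i‖ := by
      conv_lhs => rw [← e.sum_repr y]
      refine (norm_sum_le _ _).trans (Finset.sum_le_sum fun i _ => ?_)
      rw [norm_smul]
      exact mul_le_mul_of_nonneg_right (h1 i).le (norm_nonneg _)
    rw [← Finset.mul_sum] at h2
    have h3 : ρ * S = r := div_mul_cancel₀ _ hS.ne'
    simp only [S] at h3
    nlinarith
  · exact fun y => Finset.prod_nonneg fun i _ => le_max_right _ _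
  · exact Finset.prod_pos fun i _ => by simp [b, hρ]

/-- The degree integral. -/
def II (Ω : Set V) (ψ : V → ℝ) (F : V → V) : ℝ := ∫ x in Ω, ψ (F x) * (fderiv ℝ F x).det ∂μ

omit [FiniteDimensional ℝ V] in
lemma integrableOn_II {K Ω : Set V} (hK : IsCompact K) {O : Set V} (hO : IsOpen O) (h1 : Ω ⊆ K)
    (h2 : K ⊆ O) {ψ : V → ℝ} (hψ : Continuous ψ) {F : V → V} (hF : ContDiffOn ℝ 1 F O) :
    IntegrableOn (fun x => ψ (F x) * (fderiv ℝ F x).det) Ω μ := by
  refine IntegrableOn.mono_set (ContinuousOn.integrableOn_compact hK ?_) h1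
  exact ((hψ.comp_continuousOn hF.continuousOn).mul (ContinuousLinearMap.continuous_det.comp_continuousOn
    (hF.continuousOn_fderiv_of_isOpen hO le_rfl))).mono h2

lemma lin {K Ω O : Set V} (hK : IsCompact K) (hΩ : IsOpen Ω) (hO : IsOpen O) (h1 : Ω ⊆ K)
    (h2 : K ⊆ O) {Ψ : V → V} {ψ : V → ℝ} {r R : ℝ} (hb : Bump Ψ ψ r) (hr : r ≤ R) {F F' : V → V}
    (hF : ContDiffOn ℝ 1 F O) (hF' : ContDiffOn ℝ 1 F' O)
    (hbig : ∀ x ∈ K, x ∉ Ω → 2 * R < ‖F x‖) (hcl : ∀ x ∈ K, ‖F' x - F x‖ ≤ R) :
    II μ Ω ψ F = II μ Ω ψ F' := by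
  have hC : IsCompact (K ∩ F ⁻¹' closedBall 0 (2 * R)) :=
    hK.of_isClosed_subset ((hF.continuousOn.mono h2).preimage_isClosed_of_isClosed hK.isClosed
      isClosed_closedBall) inter_subset_left
  have hCΩ : K ∩ F ⁻¹' closedBall 0 (2 * R) ⊆ Ω := by
    rintro x ⟨hx, hx'⟩
    by_contra h
    exact absurd (hbig x hx h) (not_lt.2 (by simpa using hx'))
  obtain ⟨χ, T, hχ, hT, hTΩ, -, c1, c0, c2⟩ := exists_cutoff hC hΩ hCΩ
  let G : V → V := fun x => F x + χ x • (F' x - F x)
  have hG : ContDiffOn ℝ 1 G O := hF.add (hχ.contDiffOn.smul (hF'.sub hF))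
  have e1 : II μ Ω ψ G = II μ Ω ψ F' := by
    refine setIntegral_congr_fun hΩ.measurableSet fun x hx => ?_
    by_cases hxC : x ∈ K ∩ F ⁻¹' closedBall 0 (2 * R)
    · have e : G =ᶠ[𝓝 x] F' := by
        filter_upwards [c1 x hxC] with y hy
        simp [G, hy]
      simp only [e.fderiv_eq, e.eq_of_nhds]
    · have hx1 : 2 * R < ‖F x‖ := by
        by_contra h
        exact hxC ⟨h1 hx, by simpa using h⟩
      have hx2 := hcl x (h1 hx)
      have hx3 : ‖χ x • (F' x - F x)‖ ≤ R := by
        rw [norm_smul, Real.norm_eq_abs, abs_of_nonneg (c2 x).1]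
        nlinarith [(c2 x).1, (c2 x).2, norm_nonneg (F' x - F x)]
      have a1 : r ≤ ‖G x‖ := by
        have := norm_sub_le (G x) (χ x • (F' x - F x))
        simp only [G, add_sub_cancel_right] at this ⊢
        linarith
      have a2 : r ≤ ‖F' x‖ := by
        have := norm_sub_le (F' x) (F' x - F x)
        rw [sub_sub_cancel] at this
        linarith
      simp only [hb.zero _ a1, hb.zero _ a2, zero_mul]
  have hdet : ∀ F : V → V, ContDiffOn ℝ 1 F O → ∀ x ∈ Ω,
      (fderiv ℝ (Ψ ∘ F) x).det = ψ (F x) * (fderiv ℝ F x).det := by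
    intro F hF x hx
    rw [fderiv_comp x (hb.smooth.differentiable one_ne_zero _)
      ((hF.contDiffAt (hO.mem_nhds (h2 (h1 hx)))).differentiableAt one_ne_zero), ← hb.det]
    exact LinearMap.det_comp _ _
  have e2 := nl μ hT hΩ hTΩ (A := Ψ ∘ G) (B := Ψ ∘ F)
    (hb.smooth.comp_contDiffOn (hG.mono (h1.trans h2)))
    (hb.smooth.comp_contDiffOn (hF.mono (h1.trans h2))) (fun x _ hx => by simp [G, c0 x hx])
  rw [setIntegral_congr_fun hΩ.measurableSet
    (g := fun x => ψ (G x) * (fderiv ℝ G x).det - ψ (F x) * (fderiv ℝ F x).det)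
    (fun x hx => by simp only [hdet G hG x hx, hdet F hF x hx]),
    integral_sub (integrableOn_II μ hK hO h1 h2 hb.cont hG)
      (integrableOn_II μ hK hO h1 h2 hb.cont hF)] at e2
  rw [← e1]
  exact (sub_eq_zero.1 e2).symm

end Crest.Agent.R197.Deg
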