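import Crest.Agent.R197.Defs
import Crest.Agent.R197.DegA

/-! Row 197, piece DEG: the parity principle for zeros of equivariant maps. -/

set_option autoImplicit false

noncomputable section

namespace Crest.Agent.R197

namespace Deg

open Set MeasureTheory Filter _root_.Topology Metric

variable {V : Type} [NormedAddCommGroup V] [NormedSpace ℝ V] [FiniteDimensional ℝ V]

omit [NormedSpace ℝ V] [FiniteDimensional ℝ V] in
lemma exists_lower {X : Type} [TopologicalSpace X] {C : Set X} (hC : IsCompact C) {f : X → V}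
    (hf : ContinuousOn f C) (h : ∀ x ∈ C, f x ≠ 0) : ∃ δ > 0, ∀ x ∈ C, δ < ‖f x‖ := by
  rcases C.eq_empty_or_nonempty with rfl | hne
  · exact ⟨1, one_pos, by simp⟩
  · obtain ⟨x, hx, hm⟩ := hC.exists_isMinOn hne hf.norm
    have := norm_pos_iff.2 (h x hx)
    exact ⟨‖f x‖ / 2, by positivity, fun y hy => lt_of_lt_of_le (by linarith) (hm hy)⟩

/-- Local structure at a nondegenerate zero. -/
lemma local_zero {F : V → V} {O : Set V} (hO : IsOpen O) (hF : ContDiffOn ℝ 1 F O) {z : V}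
    (hz : z ∈ O) (hd : (fderiv ℝ F z).det ≠ 0) {N : Set V} (hN : N ∈ 𝓝 z) :
    ∃ U, IsOpen U ∧ z ∈ U ∧ U ⊆ N ∧ InjOn F U ∧ F '' U ∈ 𝓝 (F z) ∧
      ∃ σ : ℤ, (σ = 1 ∨ σ = -1) ∧ ∀ x ∈ U, |(fderiv ℝ F x).det| = σ * (fderiv ℝ F x).det := by
  have hc := hF.contDiffAt (hO.mem_nhds hz)
  have hs : HasStrictFDerivAt F
      (((fderiv ℝ F z).toContinuousLinearEquivOfDetNeZero hd : V ≃L[ℝ] V) : V →L[ℝ] V) z := by
    simpa using hc.hasStrictFDerivAt one_ne_zero
  have := FiniteDimensional.complete ℝ V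
  have hinj : InjOn F (hs.toOpenPartialHomeomorph F).source :=
    (hs.toOpenPartialHomeomorph F).injOn
  have hcd : ContinuousAt (fun x => (fderiv ℝ F x).det) z :=
    ContinuousLinearMap.continuous_det.continuousAt.comp
      ((hF.continuousOn_fderiv_of_isOpen hO le_rfl).continuousAt (hO.mem_nhds hz))
  obtain ⟨σ, hσ, hev⟩ : ∃ σ : ℤ, (σ = 1 ∨ σ = -1) ∧
      ∀ᶠ x in 𝓝 z, |(fderiv ℝ F x).det| = σ * (fderiv ℝ F x).det := by
    rcases hd.lt_or_gt with h | h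
    · refine ⟨-1, Or.inr rfl, ?_⟩
      filter_upwards [hcd.eventually (gt_mem_nhds h)] with x hx
      rw [abs_of_neg hx]; simp
    · refine ⟨1, Or.inl rfl, ?_⟩
      filter_upwards [hcd.eventually (lt_mem_nhds h)] with x hx
      rw [abs_of_pos hx]; simp
  obtain ⟨U, hU, hUo, hzU⟩ := _root_.mem_nhds_iff.1 (inter_mem (inter_mem hN hev)
    ((hs.toOpenPartialHomeomorph F).open_source.mem_nhds hs.mem_toOpenPartialHomeomorph_source))
  refine ⟨U, hUo, hzU, fun x hx => (hU hx).1.1, hinj.mono fun x hx => (hU hx).2, ?_, σ, hσ,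
    fun x hx => (hU hx).1.2⟩
  rw [← hs.map_nhds_eq_of_equiv]
  exact image_mem_map (hUo.mem_nhds hzU)

section
variable [MeasurableSpace V] [BorelSpace V] (μ : Measure V) [μ.IsAddHaarMeasure]

lemma count {K Ω O : Set V} (hK : IsCompact K) (hΩ : IsOpen Ω) (hO : IsOpen O) (h1 : Ω ⊆ K)
    (h2 : K ⊆ O) {F : V → V} (hF : ContDiffOn ℝ 1 F O) (hz : ∀ x ∈ K, F x = 0 → x ∈ Ω)
    (hd : ∀ x ∈ Ω, F x = 0 → (fderiv ℝ F x).det ≠ 0) (τ : V → V) (hτ : ∀ x, τ (τ x) = x)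
    (hτz : ∀ x ∈ Ω, F x = 0 → τ x ∈ Ω ∧ F (τ x) = 0) {x₀ : V} (hx₀ : x₀ ∈ Ω) (hx₀' : F x₀ = 0)
    (hfix : ∀ x ∈ Ω, F x = 0 → (τ x = x ↔ x = x₀)) :
    ∃ r > 0, ∀ (Ψ : V → V) (ψ : V → ℝ) (r' : ℝ), Bump Ψ ψ r' → r' ≤ r → II μ Ω ψ F ≠ 0 := by
  classical
  let Z : Set V := K ∩ F ⁻¹' {0}
  have hZc : IsCompact Z := hK.of_isClosed_subset ((hF.continuousOn.mono h2).preimage_isClosed_of_isClosed
    hK.isClosed isClosed_singleton) inter_subset_left
  have hZΩ : Z ⊆ Ω := fun x hx => hz x hx.1 hx.2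
  have hZf : Z.Finite := by
    refine hZc.finite (isDiscrete_iff_forall_mem_exists_isOpen.2 fun z hz' => ?_)
    obtain ⟨U, hU, hzU, -, hi, -⟩ := local_zero hO hF (h2 hz'.1) (hd z (hZΩ hz') hz'.2) univ_mem
    refine ⟨U, hU, Subset.antisymm ?_ (singleton_subset_iff.2 ⟨hzU, hz'⟩)⟩
    rintro x ⟨hx, hx'⟩
    exact hi hx hzU (hx'.2.trans hz'.2.symm)
  obtain ⟨W, hW, hWd⟩ := hZf.t2_separation
  have hloc : ∀ z : hZf.toFinset, ∃ U, IsOpen U ∧ z.1 ∈ U ∧ U ⊆ W z ∩ Ω ∧ InjOn F U ∧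
      F '' U ∈ 𝓝 (F z) ∧
      ∃ σ : ℤ, (σ = 1 ∨ σ = -1) ∧ ∀ x ∈ U, |(fderiv ℝ F x).det| = σ * (fderiv ℝ F x).det := by
    intro z
    have hz' := hZf.mem_toFinset.1 z.2
    exact local_zero hO hF (h2 hz'.1) (hd z (hZΩ hz') hz'.2)
      (inter_mem ((hW z).2.mem_nhds (hW z).1) (hΩ.mem_nhds (hZΩ hz')))
  choose U hUo hzU hUW hUi hUn σ hσ hσ' using hloc
  obtain ⟨δ, hδ, hδ'⟩ := exists_lower (hK.diff (isOpen_iUnion hUo)) (hF.continuousOn.mono
    (sdiff_subset.trans h2)) (fun x hx h0 => hx.2 (mem_iUnion.2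
      ⟨⟨x, hZf.mem_toFinset.2 ⟨hx.1, h0⟩⟩, hzU _⟩))
  have hn : ⋂ z, F '' U z ∈ 𝓝 (0 : V) := iInter_mem.2 fun z => by
    have := hUn z
    rwa [(hZf.mem_toFinset.1 z.2).2] at this
  obtain ⟨ρ, hρ, hρ'⟩ := Metric.mem_nhds_iff.1 hn
  refine ⟨min δ ρ, lt_min hδ hρ, fun Ψ ψ r' hb hr' => ?_⟩
  have hint := integrableOn_II μ hK hO h1 h2 hb.cont hF
  have hcpos : 0 < ∫ y, ψ y ∂μ :=
    hb.cont.integral_pos_of_hasCompactSupport_nonneg_nonzero
      (HasCompactSupport.intro (isCompact_closedBall (0 : V) r') fun y hy =>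
        hb.zero y (le_of_lt (by simpa using hy))) hb.nonneg hb.pos.ne'
  have hpiece : ∀ z, ∫ x in U z, ψ (F x) * (fderiv ℝ F x).det ∂μ = σ z * ∫ y, ψ y ∂μ := by
    intro z
    have hcv := integral_image_eq_integral_abs_det_fderiv_smul μ (hUo z).measurableSet
      (f' := fderiv ℝ F) (fun x hx => ((hF.contDiffAt (hO.mem_nhds (h2 (h1 (hUW z hx).2)))).differentiableAt
        one_ne_zero).hasFDerivAt.hasFDerivWithinAt) (hUi z) ψ
    rw [setIntegral_eq_integral_of_forall_compl_eq_zero fun y hy => hb.zero y (by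
      by_contra h
      exact hy (mem_iInter.1 (hρ' (mem_ball_zero_iff.2
        ((not_le.1 h).trans_le (hr'.trans (min_le_right _ _))))) z))] at hcv
    rw [hcv, ← integral_const_mul]
    refine setIntegral_congr_fun (hUo z).measurableSet fun x hx => ?_
    simp only [hσ' z x hx, smul_eq_mul]
    rcases hσ z with h | h <;> rw [h] <;> push_cast <;> ring
  have hsum : II μ Ω ψ F = (∑ z, σ z : ℤ) * ∫ y, ψ y ∂μ := by
    rw [II, setIntegral_eq_of_subset_of_forall_sdiff_eq_zero hΩ.measurableSet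
      (s := ⋃ z, U z) (iUnion_subset fun z x hx => (hUW z hx).2) (fun x hx => by
        rw [hb.zero _ ((hr'.trans (min_le_left _ _)).trans (hδ' x ⟨h1 hx.1, hx.2⟩).le), zero_mul]),
      integral_iUnion_fintype (fun z => (hUo z).measurableSet) ?_
        (fun z => hint.mono_set fun x hx => (hUW z hx).2)]
    · simp only [hpiece]; push_cast; rw [Finset.sum_mul]
    · intro z z' hne
      exact (hWd (hZf.mem_toFinset.1 z.2) (hZf.mem_toFinset.1 z'.2)
        fun h => hne (Subtype.ext h)).mono (fun x hx => (hUW z hx).1) fun x hx => (hUW z' hx).1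
  rw [hsum]
  refine mul_ne_zero ?_ hcpos.ne'
  have hmem : ∀ z : hZf.toFinset, τ z ∈ hZf.toFinset := fun z => by
    have hz' := hZf.mem_toFinset.1 z.2
    have := hτz z (hZΩ hz') hz'.2
    exact hZf.mem_toFinset.2 ⟨h1 this.1, this.2⟩
  let z₀ : hZf.toFinset := ⟨x₀, hZf.mem_toFinset.2 ⟨h1 hx₀, hx₀'⟩⟩
  have hodd : ((∑ z, σ z : ℤ) : ZMod 2) = 1 := by
    have e : ∀ z, ((σ z : ℤ) : ZMod 2) = 1 := fun z => by rcases hσ z with h | h <;> rw [h] <;> rfl
    push_cast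
    simp only [e]
    rw [← Finset.add_sum_erase _ _ (Finset.mem_univ z₀), Finset.sum_involution
      (fun (z : hZf.toFinset) _ => (⟨τ z, hmem z⟩ : hZf.toFinset)) (fun _ _ => rfl) ?_ ?_
      (fun z _ => Subtype.ext (hτ z)), add_zero]
    · intro z hz' _ h
      have hz'' := hZf.mem_toFinset.1 z.2
      exact (Finset.mem_erase.1 hz').1 (Subtype.ext
        ((hfix z (hZΩ hz'') hz''.2).1 (congrArg Subtype.val h)))
    · intro z hz'
      refine Finset.mem_erase.2 ⟨fun h => (Finset.mem_erase.1 hz').1 (Subtype.ext ?_),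
        Finset.mem_univ _⟩
      have h' : τ z = x₀ := congrArg Subtype.val h
      rw [← hτ z, h']
      exact (hfix x₀ hx₀ hx₀').2 rfl
  intro h
  have h' : (∑ z, σ z : ℤ) = 0 := by exact_mod_cast h
  rw [h'] at hodd
  exact absurd hodd (by decide)

end

/-- The cut-off square. -/
def g (t : ℝ) : ℝ := max t 0 ^ 2

lemma g_deriv (t : ℝ) : HasDerivAt g (2 * max t 0) t := by
  rcases lt_trichotomy t 0 with h | rfl | h
  · have e : g =ᶠ[𝓝 t] fun _ => 0 := by
      filter_upwards [gt_mem_nhds h] with s hs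
      simp [g, max_eq_right hs.le]
    rw [max_eq_right h.le, mul_zero]
    exact (hasDerivAt_const t 0).congr_of_eventuallyEq e
  · rw [max_self, mul_zero, hasDerivAt_iff_isLittleO_nhds_zero]
    refine Asymptotics.IsBigO.trans_isLittleO (g := fun s : ℝ => s ^ 2) ?_
      (Asymptotics.isLittleO_pow_id one_lt_two)
    refine Asymptotics.IsBigO.of_bound 1 (Eventually.of_forall fun s => ?_)
    rcases le_total s 0 with h | h
    · simp [g, max_eq_right h, sq_nonneg]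
    · simp [g, max_eq_left h]
  · have e : g =ᶠ[𝓝 t] fun s => s ^ 2 := by
      filter_upwards [lt_mem_nhds h] with s hs
      simp [g, max_eq_left hs.le]
    rw [max_eq_left h.le]
    simpa using (hasDerivAt_pow 2 t).congr_of_eventuallyEq e

lemma g_smooth : ContDiff ℝ 1 g := contDiff_one_iff_deriv.2 ⟨fun t => (g_deriv t).differentiableAt, by
  have : deriv g = fun t => 2 * max t 0 := funext fun t => (g_deriv t).deriv
  rw [this]; fun_prop⟩

lemma step {K Ω O : Set V} (hK : IsCompact K) (hΩ : IsOpen Ω) (hO : IsOpen O) (h12 : Ω ⊆ O)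
    (τ : V →L[ℝ] V) (hτ : ∀ x, τ (τ x) = x) (hτΩ : ∀ x ∈ Ω, τ x ∈ Ω) (l : V →L[ℝ] ℝ)
    (hl : ∀ x, l (τ x) = -l x) {F : V → V} (hF : ContDiffOn ℝ 1 F O)
    (he : ∀ x ∈ Ω, F (τ x) = τ (F x)) {ε : ℝ} (hε : 0 < ε) :
    ∃ F' : V → V, ContDiffOn ℝ 1 F' O ∧ (∀ x ∈ Ω, F' (τ x) = τ (F' x)) ∧
      (∀ x ∈ K, ‖F' x - F x‖ ≤ ε) ∧
      (∀ x ∈ Ω, l x = 0 → F' x = F x ∧ fderiv ℝ F' x = fderiv ℝ F x) ∧
      ∀ x ∈ Ω, l x ≠ 0 → F' x = 0 → (fderiv ℝ F' x).det ≠ 0 := by
  borelize V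
  let μ : Measure V := Measure.addHaar
  have hdF : ∀ x ∈ Ω, HasFDerivAt F (fderiv ℝ F x) x := fun x hx =>
    ((hF.contDiffAt (hO.mem_nhds (h12 hx))).differentiableAt one_ne_zero).hasFDerivAt
  let Q : V → V := fun x => (l x ^ 2)⁻¹ • F x
  have hQ : ∀ x ∈ Ω, 0 < l x → DifferentiableAt ℝ Q x := fun x hx h =>
    ((l.differentiableAt.fun_pow 2).fun_inv (pow_ne_zero 2 h.ne')).fun_smul (hdF x hx).differentiableAt
  let S : Set V := {x | x ∈ Ω ∧ 0 < l x ∧ (fderiv ℝ Q x).det = 0}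
  have hS : μ (Q '' S) = 0 := addHaar_image_eq_zero_of_det_fderivWithin_eq_zero μ
    (fun x hx => (hQ x hx.1 hx.2.1).hasFDerivAt.hasFDerivWithinAt) fun x hx => hx.2.2
  obtain ⟨M, hM⟩ := hK.exists_bound_of_continuousOn
    (f := fun x => g (l x) + g (-l x) * ‖τ‖)
    ((g_smooth.continuous.comp l.continuous).add
      ((g_smooth.continuous.comp l.continuous.neg).mul continuous_const)).continuousOn
  obtain ⟨y, hy, hyS⟩ : ∃ y ∈ ball (0 : V) (ε / (|M| + 1)), y ∉ Q '' S := by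
    by_contra h
    push Not at h
    exact absurd (measure_mono_null h hS) (measure_ball_pos μ 0 (by positivity)).ne'
  let P : V → V := fun x => g (l x) • y + g (-l x) • τ y
  have hP : ContDiff ℝ 1 P := ((g_smooth.comp l.contDiff).smul contDiff_const).add
    ((g_smooth.comp l.contDiff.neg).smul contDiff_const)
  have he' : ∀ x ∈ Ω, F (τ x) - P (τ x) = τ (F x - P x) := fun x hx => by
    simp only [P, he x hx, hl, neg_neg, map_sub, map_add, map_smul, hτ]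
    rw [add_comm]
  have hd' : ∀ x ∈ Ω, HasFDerivAt (fun x => F x - P x) (fderiv ℝ F x - fderiv ℝ P x) x :=
    fun x hx => (hdF x hx).fun_sub (hP.differentiable one_ne_zero x).hasFDerivAt
  have hpos : ∀ x ∈ Ω, 0 < l x → F x - P x = 0 → (fderiv ℝ (fun x => F x - P x) x).det ≠ 0 := by
    intro x hx h h0
    have e : (fun x => F x - P x) =ᶠ[𝓝 x] fun x => l x ^ 2 • (Q x - y) := by
      filter_upwards [l.continuous.continuousAt.eventually (lt_mem_nhds h)] with z hz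
      simp only [P, Q, g, max_eq_left hz.le, max_eq_right (neg_nonpos.2 hz.le), smul_sub]
      rw [smul_inv_smul₀ (by positivity)]
      simp
    have hQy : Q x - y = 0 := by
      have := e.eq_of_nhds
      simp only [h0] at this
      exact (smul_eq_zero.1 this.symm).resolve_left (by positivity)
    have hd := (l.hasFDerivAt.pow 2).fun_smul ((hQ x hx h).hasFDerivAt.sub_const y)
    rw [e.fderiv_eq, hd.fderiv, hQy]
    have : (fderiv ℝ Q x).det ≠ 0 := fun h' => hyS ⟨x, ⟨hx, h, h'⟩, sub_eq_zero.1 hQy⟩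
    simp only [ContinuousLinearMap.smulRight_zero, add_zero, ContinuousLinearMap.det,
      ContinuousLinearMap.toLinearMap_smul, LinearMap.det_smul]
    exact mul_ne_zero (by positivity) this
  refine ⟨fun x => F x - P x, hF.sub hP.contDiffOn, he', fun x hx => ?_, fun x hx h => ?_,
    fun x hx h h0 => ?_⟩
  · have h1 : ‖P x‖ ≤ (g (l x) + g (-l x) * ‖τ‖) * ‖y‖ := by
      refine (norm_add_le _ _).trans ?_
      have a1 : 0 ≤ g (l x) := sq_nonneg _
      have a2 : 0 ≤ g (-l x) := sq_nonneg _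
      rw [norm_smul, norm_smul, Real.norm_of_nonneg a1, Real.norm_of_nonneg a2, add_mul, mul_assoc]
      gcongr
      exact τ.le_opNorm y
    have h2 : g (l x) + g (-l x) * ‖τ‖ ≤ |M| + 1 :=
      ((le_abs_self _).trans (hM x hx)).trans ((le_abs_self M).trans (by linarith))
    have h3 := mem_ball_zero_iff.1 hy
    rw [lt_div_iff₀ (by positivity)] at h3
    rw [sub_sub_cancel_left, norm_neg]
    nlinarith [norm_nonneg y]
  · have h0 : HasFDerivAt P (0 : V →L[ℝ] V) x := by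
      have a1 := ((g_deriv (l x)).comp_hasFDerivAt x l.hasFDerivAt).smul_const y
      have a2 := ((g_deriv (-l x)).comp_hasFDerivAt x l.hasFDerivAt.neg).smul_const (τ y)
      have a3 := a1.fun_add a2
      simp only [h, neg_zero, max_self, mul_zero, zero_smul, ContinuousLinearMap.zero_smulRight,
        add_zero] at a3
      exact a3
    refine ⟨by simp [P, g, h], ?_⟩
    rw [(hd' x hx).fderiv, h0.fderiv, sub_zero]
  · rcases h.lt_or_gt with h | h
    · have h0' : F x - P x = 0 := h0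
      have h1 := hpos (τ x) (hτΩ x hx) (by rw [hl]; linarith) (by rw [he' x hx, h0', map_zero])
      have e : (fun x => F x - P x) ∘ τ =ᶠ[𝓝 x] τ ∘ fun x => F x - P x := by
        filter_upwards [hΩ.mem_nhds hx] with z hz using he' z hz
      have e2 := e.fderiv_eq (𝕜 := ℝ)
      rw [fderiv_comp x (hd' _ (hτΩ x hx)).differentiableAt τ.differentiableAt,
        fderiv_comp x τ.differentiableAt (hd' x hx).differentiableAt, τ.fderiv, τ.fderiv] at e2
      have e3 : (fderiv ℝ (fun x => F x - P x) (τ x)).det * τ.det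
          = τ.det * (fderiv ℝ (fun x => F x - P x) x).det :=
        (LinearMap.det_comp _ _).symm.trans ((congrArg ContinuousLinearMap.det e2).trans
          (LinearMap.det_comp _ _))
      have e4 : τ.det * τ.det = 1 := by
        rw [ContinuousLinearMap.det, ← LinearMap.det_comp, ← LinearMap.det_id (A := ℝ) (M := V)]
        congr 1; ext v; exact hτ v
      intro h'
      rw [h', mul_zero] at e3
      exact h1 ((mul_eq_zero.1 e3).resolve_right (left_ne_zero_of_mul_eq_one e4))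
    · exact hpos x hx h h0

lemma perturb {K Ω O : Set V} (hK : IsCompact K) (hΩ : IsOpen Ω) (hO : IsOpen O) (h12 : Ω ⊆ O)
    (τ : V →L[ℝ] V) (hτ : ∀ x, τ (τ x) = x) (hτΩ : ∀ x ∈ Ω, τ x ∈ Ω) {F : V → V}
    (hF : ContDiffOn ℝ 1 F O) (he : ∀ x ∈ Ω, F (τ x) = τ (F x)) (L : List (V →L[ℝ] ℝ))
    (hl : ∀ l ∈ L, ∀ x, l (τ x) = -l x) {ε : ℝ} (hε : 0 < ε) :
    ∃ F' : V → V, ContDiffOn ℝ 1 F' O ∧ (∀ x ∈ Ω, F' (τ x) = τ (F' x)) ∧
      (∀ x ∈ K, ‖F' x - F x‖ ≤ ε) ∧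
      (∀ x ∈ Ω, (∀ l ∈ L, l x = 0) → F' x = F x ∧ fderiv ℝ F' x = fderiv ℝ F x) ∧
      ∀ x ∈ Ω, (∃ l ∈ L, l x ≠ 0) → F' x = 0 → (fderiv ℝ F' x).det ≠ 0 := by
  induction L generalizing ε with
  | nil => exact ⟨F, hF, he, fun x _ => by simp [hε.le], fun _ _ _ => ⟨rfl, rfl⟩, by simp⟩
  | cons l L ih =>
    obtain ⟨F₁, a1, a2, a3, a4, a5⟩ := ih (fun l' h => hl l' (List.mem_cons_of_mem _ h))
      (half_pos hε)
    obtain ⟨F₂, b1, b2, b3, b4, b5⟩ := step hK hΩ hO h12 τ hτ hτΩ l (hl l List.mem_cons_self)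
      a1 a2 (half_pos hε)
    refine ⟨F₂, b1, b2, fun x hx => ?_, fun x hx h => ?_, fun x hx h h0 => ?_⟩
    · have := norm_sub_le_norm_sub_add_norm_sub (F₂ x) (F₁ x) (F x)
      linarith [a3 x hx, b3 x hx]
    · have c1 := b4 x hx (h l List.mem_cons_self)
      have c2 := a4 x hx fun l' h' => h l' (List.mem_cons_of_mem _ h')
      exact ⟨c1.1.trans c2.1, c1.2.trans c2.2⟩
    · by_cases hlx : l x = 0
      · obtain ⟨l', h1, h2⟩ := h
        have c1 := b4 x hx hlx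
        rw [c1.2]
        refine a5 x hx ⟨l', ?_, h2⟩ (c1.1 ▸ h0)
        rcases List.mem_cons.1 h1 with rfl | h1
        · exact absurd hlx h2
        · exact h1
      · exact b5 x hx hlx h0

end Deg

open Set MeasureTheory Filter _root_.Topology Metric Deg in
theorem deg : DegStmt := by
  intro V _ _ _ τ O K Ω H x₀ hτ hO hK hΩ h1 h2 hH hc hz hτΩ he hx₀ hfix hτ₀ hd
  by_contra hno
  push Not at hno
  borelize V
  let μ : Measure V := Measure.addHaar
  have h0 : (0 : ℝ) ∈ Icc (0 : ℝ) 1 := ⟨le_rfl, zero_le_one⟩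
  have h1' : (1 : ℝ) ∈ Icc (0 : ℝ) 1 := ⟨zero_le_one, le_rfl⟩
  obtain ⟨δ, hδ, hδ'⟩ := exists_lower (isCompact_Icc.prod (hK.diff hΩ))
    (hc.mono (prod_mono le_rfl sdiff_subset)) fun p hp h => hp.2.2 (hz _ hp.1 _ hp.2.1 h)
  obtain ⟨δ₁, hδ₁, hδ₁'⟩ := exists_lower hK ((hH 1 h1').continuousOn.mono h2)
    fun x hx h => hno x (hz 1 h1' x hx h) h
  let e := Module.finBasis ℝ V
  let l : Fin (Module.finrank ℝ V) → V →L[ℝ] ℝ := fun i =>
    (LinearMap.toContinuousLinearMap (e.coord i)).comp (ContinuousLinearMap.id ℝ V - τ)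
  have hl0 : ∀ x, (∀ m ∈ List.ofFn l, m x = 0) ↔ τ x = x := by
    intro x
    rw [List.forall_mem_ofFn_iff, eq_comm, ← sub_eq_zero, ← e.forall_coord_eq_zero_iff]
    rfl
  obtain ⟨F, a1, a2, a3, a4, a5⟩ := perturb hK hΩ hO (h1.trans h2) τ hτ hτΩ (hH 0 h0) he
    (List.ofFn l) (List.forall_mem_ofFn_iff.2 fun i x => by simp [l, hτ]) (half_pos hδ)
  have hbig : ∀ s ∈ Icc (0 : ℝ) 1, ∀ x ∈ K, x ∉ Ω → 2 * (δ / 2) < ‖H s x‖ := fun s hs x hx hx' => by
    have := hδ' (s, x) ⟨hs, hx, hx'⟩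
    linarith
  obtain ⟨r, hr, hr'⟩ := count μ hK hΩ hO h1 h2 a1
    (fun x hx h => by
      by_contra h'
      have b1 := hbig 0 h0 x hx h'
      have b2 := a3 x hx
      rw [h, zero_sub, norm_neg] at b2
      linarith)
    (fun x hx h => by
      by_cases hf : τ x = x
      · have b := a4 x hx ((hl0 x).2 hf)
        obtain rfl := (hfix x hx hf).1 (b.1 ▸ h)
        rw [b.2, hd.fderiv]
        simp [ContinuousLinearMap.det]
      · rw [← hl0] at hf
        push Not at hf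
        exact a5 x hx hf h)
    τ hτ (fun x hx h => ⟨hτΩ x hx, by rw [a2 x hx, h, map_zero]⟩) hx₀
    ((a4 x₀ hx₀ ((hl0 _).2 hτ₀)).1.trans ((hfix x₀ hx₀ hτ₀).2 rfl))
    (fun x hx h => ⟨fun hf => (hfix x hx hf).1 ((a4 x hx ((hl0 x).2 hf)).1 ▸ h),
      fun hf => hf ▸ hτ₀⟩)
  obtain ⟨Ψ, ψ, hb⟩ := exists_bump (V := V) (lt_min hr (lt_min (half_pos hδ) hδ₁))
  have hrδ : min r (min (δ / 2) δ₁) ≤ δ / 2 := (min_le_right _ _).trans (min_le_left _ _)
  refine hr' Ψ ψ _ hb (min_le_left _ _) ?_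
  rw [← lin μ hK hΩ hO h1 h2 hb hrδ (hH 0 h0) a1 (hbig 0 h0) a3]
  obtain ⟨η, hη, hη'⟩ := Metric.uniformContinuousOn_iff.1
    ((isCompact_Icc.prod hK).uniformContinuousOn_of_continuous hc) _ (half_pos hδ)
  have hlc : IsLocallyConstant fun s : Icc (0 : ℝ) 1 => II μ Ω ψ (H s) := by
    rw [IsLocallyConstant.iff_eventually_eq]
    intro s
    filter_upwards [ball_mem_nhds s hη] with t ht
    refine (lin μ hK hΩ hO h1 h2 hb hrδ (hH s s.2) (hH t t.2) (hbig s s.2) fun x hx => ?_).symm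
    have := hη' (t, x) ⟨t.2, hx⟩ (s, x) ⟨s.2, hx⟩ (by
      rw [Prod.dist_eq, dist_self]; exact max_lt (mem_ball.1 ht) hη)
    rw [dist_eq_norm] at this
    exact this.le
  rw [show II μ Ω ψ (H 0) = II μ Ω ψ (H 1) from
    hlc.apply_eq_of_preconnectedSpace ⟨0, h0⟩ ⟨1, h1'⟩]
  refine setIntegral_eq_zero_of_forall_eq_zero fun x hx => ?_
  rw [hb.zero _ (((min_le_right _ _).trans (min_le_right _ _)).trans (hδ₁' x (h1 hx)).le), zero_mul]

end Crest.Agent.R197
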