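import Crest.Agent.R197.ExtC

/-!
# R197 EXT, part D: independence of the boundary words and the aspherical presentation
-/

set_option autoImplicit false

noncomputable section

namespace Crest.Agent.R197

open Function Set Metric

/-- Clamp to the unit interval. -/
def clp (τ : ℝ) : ℝ := max 0 (min τ 1)

lemma continuous_clp : Continuous clp := by unfold clp; fun_prop
lemma clp_le {τ : ℝ} (h : τ ≤ 0) : clp τ = 0 := max_eq_left ((min_le_left _ _).trans h)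
lemma clp_ge {τ : ℝ} (h : 1 ≤ τ) : clp τ = 1 := by simp [clp, min_eq_right h]
lemma clp_mid {τ : ℝ} (h0 : 0 ≤ τ) (h1 : τ ≤ 1) : clp τ = τ := by
  simp [clp, min_eq_left h1, max_eq_right h0]
lemma clp_mem (τ : ℝ) : clp τ ∈ Icc (0 : ℝ) 1 :=
  ⟨le_max_left _ _, max_le zero_le_one (min_le_right _ _)⟩

namespace Env

variable {X1 X E G : Type} [TopologicalSpace X1] [TopologicalSpace X] [TopologicalSpace E]
  [Group G] (Q : Env X1 X E G)

lemma εh_clp (g : G) (s : Q.K.S) (τ : ℝ) : Q.εh g s (clp τ) = Q.εh g s τ := by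
  rcases le_total τ 0 with h0 | h0
  · rw [clp_le h0, Q.εh_le g s h0, εh_zero]
  rcases le_total τ 1 with h1 | h1
  · rw [clp_mid h0 h1]
  · rw [clp_ge h1, Q.εh_ge g s h1, εh_one]

/-- Logarithms along lifted edges. -/
lemma exists_log (hW : WindStmt) {θ : E → ℂ} (hθ : Continuous θ) (g : G) (s : Q.K.S) :
    ∃ (Λ : ℝ → ℂ) (y : ℤ), Continuous Λ ∧
      (∀ τ, τ ≤ 0 → Λ τ = Complex.log (θ (Q.vh g (Q.K.o s)))) ∧
      (∀ τ, 1 ≤ τ → Λ τ = Complex.log (θ (Q.vh (g * Q.φ s) (Q.K.t s))) +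
        y * (2 * Real.pi * Complex.I)) ∧
      ((∀ τ, θ (Q.εh g s τ) ≠ 0) → ∀ τ, Complex.exp (Λ τ) = θ (Q.εh g s τ)) := by
  by_cases h : ∀ τ, θ (Q.εh g s τ) ≠ 0
  · obtain ⟨Λ, hc, he, h0⟩ := hW.1 (fun τ => θ (Q.εh g s τ)) (Complex.log (θ (Q.εh g s 0)))
      (hθ.comp (Q.εh_cont g s)) h (Complex.exp_log (h 0))
    obtain ⟨y, hy⟩ := Complex.exp_eq_exp_iff_exists_int.1
      ((he 1).trans (Complex.exp_log (h 1)).symm)
    refine ⟨fun τ => Λ (clp τ), y, hc.comp continuous_clp, fun τ hτ => ?_, fun τ hτ => ?_,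
      fun _ τ => ?_⟩
    · simp only [clp_le hτ, h0, εh_zero]
    · simp only [clp_ge hτ, hy, εh_one]
    · simp only [he, εh_clp]
  · refine ⟨fun τ => (1 - clp τ) * Complex.log (θ (Q.vh g (Q.K.o s))) +
      clp τ * Complex.log (θ (Q.vh (g * Q.φ s) (Q.K.t s))), 0, ?_, fun τ hτ => ?_, fun τ hτ => ?_,
      fun h' => absurd h' h⟩
    · have := continuous_clp
      fun_prop
    · simp [clp_le hτ]
    · simp [clp_ge hτ]

variable [ContractibleSpace E]

lemma collapse (g : G) (c : Q.K.C) (Y : Type) [TopologicalSpace Y] (f : ℂ → Y) (y₀ : Y)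
    (hf : Continuous f) (h1 : ∀ ζ, 1 ≤ ‖ζ‖ → f ζ = y₀) :
    ∃ F : E → Y, Continuous F ∧ (∀ ζ, F (Q.χh g c ζ) = f ζ) ∧
      ∀ x, x ∉ Q.χh g c '' ball 0 1 → F x = y₀ := by
  classical
  let F : E → Y := fun x => if h : x ∈ Q.χh g c '' ball 0 1 then f h.choose else y₀
  have hF0 : ∀ x, x ∉ Q.χh g c '' ball 0 1 → F x = y₀ := fun x hx => dif_neg hx
  have hF1 : ∀ ζ, F (Q.χh g c ζ) = f ζ := by
    intro ζ
    by_cases h : Q.χh g c ζ ∈ Q.χh g c '' ball 0 1
    · have := h.choose_spec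
      exact (show F _ = f h.choose from dif_pos h).trans
        (congrArg f (Q.χh_inj (mem_ball_zero_iff.1 this.1) this.2.symm).2.2.symm)
    · rw [hF0 _ h, h1]
      by_contra hh
      exact h ⟨ζ, mem_ball_zero_iff.2 (not_le.1 hh), rfl⟩
  refine ⟨F, Q.weakE F (fun g' s => ?_) fun g' c' => ?_, hF1, hF0⟩
  · convert continuous_const (y := y₀) using 2 with τ
    refine hF0 _ ?_
    rintro ⟨ζ, hζ, h⟩
    rw [← sec_ε] at h
    exact Q.sec_ne_χh _ _ _ _ (mem_ball_zero_iff.1 hζ) h.symm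
  · by_cases h : g' = g ∧ c' = c
    · obtain ⟨rfl, rfl⟩ := h
      simpa only [hF1] using hf
    · convert continuous_const (y := y₀) using 2 with ζ'
      refine hF0 _ ?_
      rintro ⟨ζ, hζ, h'⟩
      have := Q.χh_inj (mem_ball_zero_iff.1 hζ) h'.symm
      exact h ⟨this.1, this.2.1⟩

/-- A cochain dual to one lifted two-cell, on a finite set of lifted two-cells. -/
lemma exists_dual (hW : WindStmt) (Cs : Finset (G × Q.K.C)) (p₀ : G × Q.K.C) (hp₀ : p₀ ∈ Cs) :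
    ∃ y : G × Q.K.S → ℤ,
      Finsupp.linearCombination ℤ y (D Q.φ (Q.K.w Q.hL p₀.2) p₀.1) = 1 ∧
      ∀ p ∈ Cs, p ≠ p₀ → Finsupp.linearCombination ℤ y (D Q.φ (Q.K.w Q.hL p.2) p.1) = 0 := by
  let J : Q.K.C → Set (FreeGroup Q.K.S × Q.K.S) := fun c =>
    {p | ∃ t ∈ Icc (0 : ℝ) 1, Q.K.N Q.hL c t = p.1 ∧ ∃ τ, 0 < τ ∧ τ < 1 ∧ Q.K.bl c t = Q.K.ε p.2 τ}
  have hJ : ∀ c, (J c).Finite := fun c =>
    Cx2.finite_edges (Q.K.continuous_bl c) (Q.K.N_lift Q.hL c)
  let Kc : Set E := ⋃ p ∈ Cs, (Q.χh p.1 p.2 '' closedBall 0 1 ∪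
    ⋃ q ∈ J p.2, Q.εh (p.1 * ev Q.φ q.1) q.2 '' Icc 0 1)
  have hK : IsCompact Kc := Cs.isCompact_biUnion fun p _ =>
    ((isCompact_closedBall 0 1).image (Q.χh_cont _ _)).union
      ((hJ p.2).isCompact_biUnion fun q _ => isCompact_Icc.image (Q.εh_cont _ _))
  have hK1 : ∀ p ∈ Cs, Q.χh p.1 p.2 '' closedBall 0 1 ⊆ Kc := fun p hp =>
    subset_union_left.trans (subset_biUnion_of_mem (u := fun p : G × Q.K.C =>
      Q.χh p.1 p.2 '' closedBall 0 1 ∪
        ⋃ q ∈ J p.2, Q.εh (p.1 * ev Q.φ q.1) q.2 '' Icc 0 1) hp)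
  obtain ⟨θ, hθ, hθ0, Λ₀, hΛ₀, hΛ₀e, hΛ₀1⟩ := hW.2.2.2 E (Q.χh p₀.1 p₀.2) Kc (Q.χh_cont _ _) hK
    (hK1 p₀ hp₀) (Q.collapse p₀.1 p₀.2)
  have hsec : ∀ g y, Q.sec g y ∈ Kc → θ (Q.sec g y) ≠ 0 := fun g y h => hθ0 _ h (by
    rintro ⟨ζ, hζ, h'⟩
    exact Q.sec_ne_χh _ _ _ _ (mem_ball_zero_iff.1 hζ) h'.symm)
  choose Λ y hΛc hΛ0 hΛ1 hΛe using Q.exists_log hW hθ
  let yy : G × Q.K.S → ℤ := fun q => y q.1 q.2
  -- the winding number along the boundary of a lifted cell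
  have key : ∀ p ∈ Cs, ∀ Λ' : ℝ → ℂ, Continuous Λ' →
      (∀ t, Complex.exp (Λ' t) = θ (Q.χh p.1 p.2 (cir t))) →
      Λ' 1 - Λ' 0 = (Finsupp.linearCombination ℤ yy (D Q.φ (Q.K.w Q.hL p.2) p.1) : ℤ) *
        (2 * Real.pi * Complex.I) := by
    rintro ⟨g, c⟩ hp Λ' hc' he'
    let A : FreeGroup Q.K.S → ℂ := fun m =>
      (Finsupp.linearCombination ℤ yy (D Q.φ m g) : ℤ) * (2 * Real.pi * Complex.I)
    have hc := Q.K.glue1 (fun m v => A m + Complex.log (θ (Q.vh (g * ev Q.φ m) v)))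
      (fun m s τ => A m + Λ (g * ev Q.φ m) s τ) (fun m s => continuous_const.add (hΛc _ s))
      (fun m s τ h => by rw [hΛ0 _ s τ h])
      (fun m s τ h => by
        rw [hΛ1 _ s τ h]
        simp only [A, yy, D_mul, D_of, map_add, Finsupp.linearCombination_single, map_mul, ev_of,
          mul_assoc, one_smul]
        push_cast; ring)
      (Q.K.continuous_bl c) (Q.K.N_lift Q.hL c)
    have h := hW.2.2.1 _ _ hc' hc fun t ht => ?_
    · rw [h, show Q.K.bl c 1 = Q.K.bl c 0 by simpa using Q.K.bl_add_int c 0 1, Q.K.N_zero]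
      have h1 : ev Q.φ (Q.K.N Q.hL c 1) = 1 := Q.ev_w c
      rcases Q.K.cover1 (Q.K.bl c 0) with ⟨v, hv⟩ | ⟨s, τ, h0, h1', hv⟩
      · rw [hv, Cx2.el1_vtx, Cx2.el1_vtx, h1]; simp [A, Cx2.w]
      · rw [hv, Q.K.el1_ε _ _ s h0 h1', Q.K.el1_ε _ _ s h0 h1', h1]; simp [A, Cx2.w]
    · have hA : ∀ m, Complex.exp (A m) = 1 := fun m => Complex.exp_int_mul_two_pi_mul_I _
      have hin : Q.χh g c (cir t) ∈ Kc :=
        hK1 _ hp ⟨_, mem_closedBall_zero_iff.2 (norm_cir t).le, rfl⟩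
      rw [he', χh_cir]
      rw [χh_cir] at hin
      rcases Q.K.cover1 (Q.K.bl c t) with ⟨v, hv⟩ | ⟨s, τ, h0, h1', hv⟩
      · have := hsec _ _ hin
        rw [hv, sec, Cx2.el1_vtx] at this
        rw [hv, sec, Cx2.el1_vtx, Cx2.el1_vtx, Complex.exp_add, hA, one_mul, Complex.exp_log this]
      · rw [hv, sec, Q.K.el1_ε _ _ s h0 h1', Q.K.el1_ε _ _ s h0 h1', Complex.exp_add, hA, one_mul,
          hΛe]
        intro τ'
        rw [← sec_ε]
        refine hsec _ _ ?_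
        rw [sec_ε, ← εh_clp]
        refine mem_iUnion₂.2 ⟨(g, c), hp, Or.inr (mem_iUnion₂.2 ⟨(Q.K.N Q.hL c t, s), ?_, ?_⟩)⟩
        · exact ⟨t, ht, rfl, τ, h0, h1', hv⟩
        · exact ⟨_, clp_mem τ', rfl⟩
  have h2 : (2 * Real.pi * Complex.I : ℂ) ≠ 0 := Complex.two_pi_I_ne_zero
  refine ⟨yy, ?_, fun p hp hne => ?_⟩
  · have := key p₀ hp₀ Λ₀ hΛ₀ hΛ₀e
    rw [hΛ₀1, add_sub_cancel_left] at this
    exact_mod_cast (mul_right_cancel₀ h2 ((one_mul _).trans this)).symm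
  · obtain ⟨Λ', hc', he', h1'⟩ := hW.2.1 (fun ζ => θ (Q.χh p.1 p.2 ζ)) (hθ.comp (Q.χh_cont _ _))
      fun ζ hζ => hθ0 _ (hK1 p hp ⟨ζ, mem_closedBall_zero_iff.2 hζ, rfl⟩) (by
        rintro ⟨ζ', hζ', h'⟩
        have := Q.χh_inj (mem_ball_zero_iff.1 hζ') h'.symm
        exact hne (Prod.ext this.1 this.2.1))
    have := key p hp Λ' hc' he'
    rw [h1', sub_self] at this
    exact_mod_cast (mul_eq_zero.1 this.symm).resolve_right h2

include Q in
theorem exists_asph (hW : WindStmt) :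
    ∃ (S R : Type) (φ : S → G) (w : R → FreeGroup S), Asph φ w := by
  classical
  obtain ⟨v₀⟩ := Q.exists_vtx
  have hb : ∀ v, ∃ n, Q.K.IsPath v₀ v n ∧ ev Q.φ n = 1 ∧ (v = v₀ → n = 1) := by
    intro v
    by_cases h : v = v₀
    · subst h; exact ⟨1, .refl, by simp, fun _ => rfl⟩
    · obtain ⟨n, h1, h2⟩ := Q.conn v₀ v 1
      exact ⟨n, h1, h2, fun h' => absurd h' h⟩
  choose bv hbp hb1 hb0 using hb
  let w : Q.K.C ⊕ {v // v ≠ v₀} → FreeGroup Q.K.S := Sum.elim (Q.K.w Q.hL) fun v => bv v.1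
  refine ⟨Q.K.S, Q.K.C ⊕ {v // v ≠ v₀}, Q.φ, w, fun g => ?_, ?_, fun n hn => ?_, ?_⟩
  · obtain ⟨n, -, h⟩ := Q.conn v₀ v₀ g
    exact ⟨n, h⟩
  · rintro (c | v)
    · exact Q.ev_w c
    · exact hb1 v.1
  · set M := Subgroup.normalClosure (range w)
    have hbM : ∀ v, bv v ∈ M := fun v => by
      by_cases h : v = v₀
      · rw [hb0 v h]; exact one_mem _
      · exact Subgroup.subset_normalClosure ⟨.inr ⟨v, h⟩, rfl⟩
    let θ : FreeGroup Q.K.S →* FreeGroup Q.K.S :=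
      FreeGroup.lift fun s => bv (Q.K.o s) * FreeGroup.of s * (bv (Q.K.t s))⁻¹
    have hθ : ∀ n, Q.K.IsPath v₀ v₀ (θ n) ∧ ev Q.φ (θ n) = ev Q.φ n ∧
        QuotientGroup.mk' M (θ n) = QuotientGroup.mk' M n := by
      intro n
      have hs : ∀ s, Q.K.IsPath v₀ v₀ (θ (FreeGroup.of s)) ∧
          ev Q.φ (θ (FreeGroup.of s)) = ev Q.φ (FreeGroup.of s) ∧
          QuotientGroup.mk' M (θ (FreeGroup.of s)) = QuotientGroup.mk' M (FreeGroup.of s) := by
        intro s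
        have h1 : ∀ v, QuotientGroup.mk' M (bv v) = 1 := fun v =>
          (QuotientGroup.eq_one_iff _).2 (hbM v)
        simp only [θ, FreeGroup.lift_apply_of, map_mul, map_inv, hb1, h1, one_mul, inv_one,
          mul_one, and_self, and_true]
        exact (hbp _).fwd.trans (hbp _).symm
      induction n using FreeGroup.induction_on with
      | C1 => simpa using Cx2.IsPath.refl
      | of s => exact hs s
      | inv_of s ih =>
        simp only [map_inv]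
        exact ⟨ih.1.symm, by rw [ih.2.1], by rw [ih.2.2]⟩
      | mul a b iha ihb =>
        simp only [map_mul]
        exact ⟨iha.1.trans ihb.1, by rw [iha.2.1, ihb.2.1], by rw [iha.2.2, ihb.2.2]⟩
    obtain ⟨h1, h2, h3⟩ := hθ n
    have h4 := PresentedGroup.mk_eq_one_iff.1 (Q.mk_eq_one h1 (h2.trans hn))
    have h5 : θ n ∈ M := Subgroup.normalClosure_mono (by
      rintro _ ⟨c, rfl⟩; exact ⟨.inl c, rfl⟩) h4
    rw [← QuotientGroup.eq_one_iff] at h5 ⊢
    exact h3.symm.trans h5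
  · refine (injective_iff_map_eq_zero _).2 fun z hz => ?_
    -- the coefficients of the paths `bv v`
    have hv : ∀ g v, z (g, .inr v) = 0 := by
      intro g v
      let k : G → Q.K.V → ℤ := fun g' v' => if g' = g ∧ v' = v.1 then 1 else 0
      let y : G × Q.K.S → ℤ := fun q => k (q.1 * Q.φ q.2) (Q.K.t q.2) - k q.1 (Q.K.o q.2)
      have hy : ∀ {u u' n}, Q.K.IsPath u u' n → ∀ g',
          Finsupp.linearCombination ℤ y (D Q.φ n g') = k (g' * ev Q.φ n) u' - k g' u := by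
        intro u u' n hn g'
        induction hn with
        | refl => simp
        | fwd _ ih => simp [D_mul, ih, y, mul_assoc]
        | bwd _ ih => simp [D_mul, D_inv, ih, y, mul_assoc]
      have : ∀ z, Finsupp.linearCombination ℤ y (d2 Q.φ w z) = z (g, .inr v) := by
        intro z
        induction z using Finsupp.induction_linear with
        | zero => simp
        | add a b ha hb => simp [ha, hb]
        | single p m =>
          obtain ⟨g', c | v'⟩ := p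
          · simp [w, hy (Q.K.isPath_w Q.hL c), Q.ev_w]
          · have hne : v₀ ≠ v.1 := v.2.symm
            simp [w, hy (hbp v'.1), hb1, k, hne, Finsupp.single_apply, Subtype.ext_iff]
      rw [← this, hz, map_zero]
    ext ⟨g, c | v⟩
    · by_contra hne
      let Cs : Finset (G × Q.K.C) := z.support.preimage (fun p => (p.1, .inl p.2))
        (fun a _ b _ h => Prod.ext (Prod.ext_iff.1 h).1 (Sum.inl.inj (Prod.ext_iff.1 h).2))
      have hmem : ∀ p : G × Q.K.C, p ∈ Cs ↔ z (p.1, .inl p.2) ≠ 0 := fun p =>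
        Finset.mem_preimage.trans Finsupp.mem_support_iff
      obtain ⟨y, hy1, hy0⟩ := Q.exists_dual hW Cs (g, c) ((hmem _).2 hne)
      have h := congrArg (Finsupp.linearCombination ℤ y) hz
      rw [map_zero, d2, Finsupp.linearCombination_apply ℤ z, Finsupp.sum, map_sum,
        Finset.sum_eq_single (g, Sum.inl c)] at h
      · rw [map_smul] at h
        change z (g, Sum.inl c) • Finsupp.linearCombination ℤ y (D Q.φ (Q.K.w Q.hL c) g) = 0 at h
        rw [hy1] at h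
        exact hne (by simpa using h)
      · rintro ⟨g', c' | v'⟩ hp hne'
        · rw [map_smul]
          change _ • Finsupp.linearCombination ℤ y (D Q.φ (Q.K.w Q.hL c') g') = 0
          rw [hy0 (g', c') ((hmem _).2 (Finsupp.mem_support_iff.1 hp)) (by
            rintro h'
            obtain ⟨rfl, rfl⟩ := Prod.ext_iff.1 h'
            exact hne' rfl), smul_zero]
        · rw [hv, zero_smul, map_zero]
      · intro h'
        exact absurd (Finsupp.mem_support_iff.2 hne) h'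
    · exact hv g v

end Env

theorem ext_of (hC : CWStmt) (hP : PtStmt) (hL : LiftStmt) (hW : WindStmt) : ExtStmt := by
  rintro G _ ⟨X, _, cw, hT, hd, ⟨E, _, p, hE, hp, hs⟩, x₀, ⟨e⟩⟩
  obtain ⟨X1, _, ⟨K⟩⟩ := hC X hd
  obtain ⟨pt, h1, h2, h3⟩ := hP X E G p x₀ hp hs e
  exact Env.exists_asph ⟨K, hL, p, hp, pt, h1, h2, h3⟩ hW

end Crest.Agent.R197
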