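import Crest.Agent.R197.XAtlas

/-!
# R197 EXT, part A: the free-group atlas on the one-skeleton, edge paths
-/

set_option autoImplicit false

noncomputable section

namespace Crest.Agent.R197

open Function Set Metric

namespace Cx2

variable {X1 X : Type} [TopologicalSpace X1] [TopologicalSpace X] (K : Cx2 X1 X)

lemma exists_cell1 (y : X1) : ∃ c : K.V ⊕ (K.S × ℝ),
    (∀ v, y = K.vtx v → c = .inl v) ∧ ∀ s τ, 0 < τ → τ < 1 → y = K.ε s τ → c = .inr (s, τ) := by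
  rcases K.cover1 y with ⟨v, rfl⟩ | ⟨s, τ, h0, h1, rfl⟩
  · exact ⟨.inl v, fun v' h => by rw [K.vtx_inj h],
      fun s τ h0 h1 h => absurd h.symm (K.ε_ne s τ v h0 h1)⟩
  · refine ⟨.inr (s, τ), fun v h => absurd h (K.ε_ne s τ v h0 h1), fun s' τ' h0' h1' h => ?_⟩
    obtain ⟨rfl, rfl⟩ := K.ε_inj s τ s' τ' h0 h1 h0' h1' h
    rfl

/-- The open cell of a point of the one-skeleton. -/
def cell1 (y : X1) : K.V ⊕ (K.S × ℝ) := (K.exists_cell1 y).choose

@[simp] lemma cell1_vtx (v : K.V) : K.cell1 (K.vtx v) = .inl v :=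
  (K.exists_cell1 _).choose_spec.1 v rfl

lemma cell1_ε (s : K.S) {τ : ℝ} (h0 : 0 < τ) (h1 : τ < 1) : K.cell1 (K.ε s τ) = .inr (s, τ) :=
  (K.exists_cell1 _).choose_spec.2 s τ h0 h1 rfl

/-- Definition by cases on the one-skeleton. -/
def el1 {Y : Type} (f : K.V → Y) (g : K.S → ℝ → Y) (y : X1) : Y :=
  Sum.elim f (fun p => g p.1 p.2) (K.cell1 y)

@[simp] lemma el1_vtx {Y : Type} (f : K.V → Y) (g : K.S → ℝ → Y) (v : K.V) :
    K.el1 f g (K.vtx v) = f v := by simp [el1]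

lemma el1_ε {Y : Type} (f : K.V → Y) (g : K.S → ℝ → Y) (s : K.S) {τ : ℝ} (h0 : 0 < τ)
    (h1 : τ < 1) : K.el1 f g (K.ε s τ) = g s τ := by simp [el1, K.cell1_ε s h0 h1]

/-- The word read along an edge. -/
def a1 (s : K.S) (τ : ℝ) : FreeGroup K.S := if τ < 1 then 1 else FreeGroup.of s

lemma a1_lt (s : K.S) {τ : ℝ} (h : τ < 1) : K.a1 s τ = 1 := if_pos h
lemma a1_ge (s : K.S) {τ : ℝ} (h : 1 ≤ τ) : K.a1 s τ = FreeGroup.of s := if_neg (not_lt.2 h)

/-- Stars and open edges. -/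
def U1 : Bool → Set X1
  | false => {y | ∀ s, y ≠ K.ε s (1 / 2)}
  | true => {y | ∃ s τ, 0 < τ ∧ τ < 1 ∧ y = K.ε s τ}

/-- Sections over stars and open edges. -/
def b1 : Bool → X1 → FreeGroup K.S
  | false => K.el1 (fun _ => 1) fun s τ => if 1 / 2 < τ then (FreeGroup.of s)⁻¹ else 1
  | true => fun _ => 1

lemma cover_U1 (y : X1) : ∃ i, y ∈ K.U1 i := by
  rcases K.cover1 y with ⟨v, rfl⟩ | h
  · exact ⟨false, fun s h => K.ε_ne s (1 / 2) v (by norm_num) (by norm_num) h.symm⟩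
  · exact ⟨true, h⟩

lemma lc1 (s : K.S) (i : Bool) :
    LC (K.ε s ⁻¹' K.U1 i) fun τ => K.a1 s τ * (K.b1 i (K.ε s τ))⁻¹ := by
  cases i with
  | true =>
    refine (LC.const (isOpen_Ioo (a := (0 : ℝ)) (b := 1)) 1).congr ?_ fun τ hτ => ?_
    · ext τ
      simp only [U1, mem_preimage, mem_ofPred_eq, mem_Ioo]
      constructor
      · rintro ⟨s', τ', h0, h1, h⟩
        constructor
        · by_contra hh
          rw [K.ε_le s τ (not_lt.1 hh)] at h
          exact K.ε_ne _ _ _ h0 h1 h.symm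
        · by_contra hh
          rw [K.ε_ge s τ (not_lt.1 hh)] at h
          exact K.ε_ne _ _ _ h0 h1 h.symm
      · rintro ⟨h0, h1⟩; exact ⟨s, τ, h0, h1, rfl⟩
    · simp [b1, K.a1_lt s hτ.2]
  | false =>
    have hW : K.ε s ⁻¹' K.U1 false = {τ | τ ≠ 1 / 2} := by
      ext τ
      simp only [U1, mem_preimage, mem_ofPred_eq]
      constructor
      · rintro h rfl; exact h s rfl
      · intro h s' h'
        by_cases h0 : τ ≤ 0
        · rw [K.ε_le s τ h0] at h'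
          exact K.ε_ne _ _ _ (by norm_num) (by norm_num) h'.symm
        by_cases h1 : 1 ≤ τ
        · rw [K.ε_ge s τ h1] at h'
          exact K.ε_ne _ _ _ (by norm_num) (by norm_num) h'.symm
        exact h (K.ε_inj _ _ _ _ (not_le.1 h0) (not_le.1 h1) (by norm_num) (by norm_num) h').2
    have hf : ∀ τ, K.a1 s τ * (K.b1 false (K.ε s τ))⁻¹ =
        if 1 / 2 < τ then FreeGroup.of s else 1 := by
      intro τ
      by_cases h0 : τ ≤ 0
      · rw [K.ε_le s τ h0, K.a1_lt s (by linarith), if_neg (by linarith)]; simp [b1]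
      by_cases h1 : 1 ≤ τ
      · rw [K.ε_ge s τ h1, K.a1_ge s h1, if_pos (by linarith)]; simp [b1]
      rw [K.a1_lt s (not_le.1 h1), b1, K.el1_ε _ _ s (not_le.1 h0) (not_le.1 h1)]
      split_ifs <;> simp
    intro c
    rw [hW]
    simp only [hf]
    have : {τ : ℝ | τ ∈ {τ : ℝ | τ ≠ 1 / 2} ∧ (if 1 / 2 < τ then FreeGroup.of s else 1) = c} =
        (Ioi (1 / 2) ∩ {_τ | FreeGroup.of s = c}) ∪ (Iio (1 / 2) ∩ {_τ | 1 = c}) := by
      ext τ
      simp only [mem_ofPred_eq, mem_union, mem_inter_iff, mem_Ioi, mem_Iio]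
      rcases lt_trichotomy τ (1 / 2) with h | h | h
      · simp only [if_false, h.ne, h, not_lt.2 h.le, ne_eq, not_false_eq_true,
          true_and, false_and, false_or]
      · simp [h]
      · simp only [if_true, h.ne', h, not_lt.2 h.le, ne_eq, not_false_eq_true,
          true_and, false_and, or_false]
    rw [this]
    exact (isOpen_Ioi.inter isOpen_const).union (isOpen_Iio.inter isOpen_const)

/-- The free-group atlas. -/
def A1 : Atlas X1 (FreeGroup K.S) := Atlas.ofWeak K.ε K.a1 K.weak1 K.U1 K.b1 K.cover_U1 K.lc1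

lemma isLift_ε (s : K.S) : K.A1.IsLift (K.ε s) (K.a1 s) := K.lc1 s

/-- Gluing on the one-skeleton. -/
lemma glue1 {T Y : Type} [TopologicalSpace T] [TopologicalSpace Y] {γ : T → X1}
    {n : T → FreeGroup K.S} (f : FreeGroup K.S → K.V → Y) (g : FreeGroup K.S → K.S → ℝ → Y)
    (hg : ∀ m s, Continuous (g m s)) (h0 : ∀ m s τ, τ ≤ 0 → g m s τ = f m (K.o s))
    (h1 : ∀ m s τ, 1 ≤ τ → g m s τ = f (m * FreeGroup.of s) (K.t s))
    (hγ : Continuous γ) (hn : K.A1.IsLift γ n) :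
    Continuous fun t => K.el1 (f (n t)) (g (n t)) (γ t) := by
  refine Atlas.glue K.ε K.a1 K.weak1 K.isLift_ε (fun m y => K.el1 (f m) (g m) y) (fun m s => ?_)
    hγ hn
  convert hg m s using 2 with τ
  by_cases hτ0 : τ ≤ 0
  · rw [K.ε_le s τ hτ0, K.a1_lt s (by linarith), h0 m s τ hτ0]; simp
  by_cases hτ1 : 1 ≤ τ
  · rw [K.ε_ge s τ hτ1, K.a1_ge s hτ1, h1 m s τ hτ1]; simp
  rw [K.a1_lt s (not_le.1 hτ1), K.el1_ε _ _ s (not_le.1 hτ0) (not_le.1 hτ1), mul_one]

/-- The vertex at which the coordinate of a point is based. -/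
def base : X1 → K.V := K.el1 id fun s _ => K.o s

@[simp] lemma base_vtx (v : K.V) : K.base (K.vtx v) = v := K.el1_vtx _ _ v

lemma base_ε (s : K.S) {τ : ℝ} (h0 : 0 < τ) (h1 : τ < 1) : K.base (K.ε s τ) = K.o s :=
  K.el1_ε _ _ s h0 h1

/-- Words that are edge paths. -/
inductive IsPath (u : K.V) : K.V → FreeGroup K.S → Prop
  | refl : IsPath u u 1
  | fwd {n : FreeGroup K.S} {s : K.S} : IsPath u (K.o s) n → IsPath u (K.t s) (n * FreeGroup.of s)
  | bwd {n : FreeGroup K.S} {s : K.S} :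
      IsPath u (K.t s) n → IsPath u (K.o s) (n * (FreeGroup.of s)⁻¹)

variable {K}

lemma IsPath.trans {u v w : K.V} {n n' : FreeGroup K.S} (h : K.IsPath u v n)
    (h' : K.IsPath v w n') : K.IsPath u w (n * n') := by
  induction h' with
  | refl => simpa using h
  | fwd _ ih => rw [← mul_assoc]; exact ih.fwd
  | bwd _ ih => rw [← mul_assoc]; exact ih.bwd

lemma IsPath.symm {u v : K.V} {n : FreeGroup K.S} (h : K.IsPath u v n) : K.IsPath v u n⁻¹ := by
  induction h with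
  | refl => simpa using IsPath.refl
  | fwd _ ih => simpa using (IsPath.refl.bwd).trans ih
  | bwd _ ih => simpa using (IsPath.refl.fwd).trans ih

lemma isPath_iff {u v w : K.V} {n n' : FreeGroup K.S} (h' : K.IsPath v w n') :
    K.IsPath u w (n * n') ↔ K.IsPath u v n :=
  ⟨fun h => by simpa using h.trans h'.symm, fun h => h.trans h'⟩

lemma isPath_of (s : K.S) : K.IsPath (K.o s) (K.t s) (FreeGroup.of s) := by
  simpa using (IsPath.refl (K := K) (u := K.o s)).fwd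

/-- Lifts of maps from connected spaces read edge paths. -/
lemma isPath_lift {T : Type} [TopologicalSpace T] [PreconnectedSpace T] {γ : T → X1}
    {n : T → FreeGroup K.S} (hγ : Continuous γ) (hn : K.A1.IsLift γ n) (t₀ t : T) :
    K.IsPath (K.base (γ t₀)) (K.base (γ t)) ((n t₀)⁻¹ * n t) := by
  classical
  set u := K.base (γ t₀)
  have hc := K.glue1 (Y := Bool) (fun m v => decide (K.IsPath u v ((n t₀)⁻¹ * m)))
    (fun m s _ => decide (K.IsPath u (K.o s) ((n t₀)⁻¹ * m))) (fun _ _ => continuous_const)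
    (fun _ _ _ _ => rfl) (fun m s _ _ => by
      rw [← mul_assoc, decide_eq_decide, isPath_iff (isPath_of s)]) hγ hn
  have he : ∀ t, K.el1 (fun v => decide (K.IsPath u v ((n t₀)⁻¹ * n t)))
      (fun s _ => decide (K.IsPath u (K.o s) ((n t₀)⁻¹ * n t))) (γ t) =
      decide (K.IsPath u (K.base (γ t)) ((n t₀)⁻¹ * n t)) := by
    intro t
    rcases K.cover1 (γ t) with ⟨v, hv⟩ | ⟨s, τ, hτ0, hτ1, hs⟩
    · rw [hv, K.base_vtx, el1_vtx]
    · rw [hs, K.base_ε s hτ0 hτ1, K.el1_ε _ _ s hτ0 hτ1]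
  simp only [he] at hc
  have := PreconnectedSpace.constant inferInstance hc (x := t₀) (y := t)
  simp only [inv_mul_cancel, decide_eq_decide] at this
  exact this.1 IsPath.refl

/-- A compact family of points meets finitely many lifted open edges. -/
lemma finite_edges {γ : ℝ → X1} {n : ℝ → FreeGroup K.S} (hγ : Continuous γ)
    (hn : K.A1.IsLift γ n) :
    {p : FreeGroup K.S × K.S | ∃ t ∈ Icc (0 : ℝ) 1, n t = p.1 ∧
      ∃ τ, 0 < τ ∧ τ < 1 ∧ γ t = K.ε p.2 τ}.Finite := by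
  classical
  set J := {p : FreeGroup K.S × K.S | ∃ t ∈ Icc (0 : ℝ) 1, n t = p.1 ∧
      ∃ τ, 0 < τ ∧ τ < 1 ∧ γ t = K.ε p.2 τ}
  have hJ : ∀ p : J, ∃ t τ : ℝ, t ∈ Icc (0 : ℝ) 1 ∧ n t = p.1.1 ∧ 0 < τ ∧ τ < 1 ∧
      γ t = K.ε p.1.2 τ := by
    rintro ⟨p, t, ht, h1, τ, h2⟩
    exact ⟨t, τ, ht, h1, h2⟩
  choose tt ττ htt hn' h0 h1 hγ' using hJ
  -- the open sets `O p`: times at which the lift avoids all chosen points other than `p`
  let O : J → Set ℝ := fun p => {t | ∀ q : J, q ≠ p → ¬ (n t = q.1.1 ∧ γ t = K.ε q.1.2 (ττ q))}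
  have hO : ∀ p, IsOpen (O p) := by
    intro p
    have hc := K.glue1 (Y := Prop) (fun _ _ => True)
      (fun m s τ => ∀ q : J, q ≠ p → ¬ (q.1 = (m, s) ∧ τ = ττ q)) (fun m s => ?_)
      (fun m s τ hτ => eq_true fun q _ h => by have := h0 q; linarith [h.2])
      (fun m s τ hτ => eq_true fun q _ h => by have := h1 q; linarith [h.2]) hγ hn
    · convert continuous_Prop.1 hc using 1
      ext t
      simp only [O, mem_ofPred_eq]
      rcases K.cover1 (γ t) with ⟨v, hv⟩ | ⟨s, τ, hτ0, hτ1, hs⟩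
      · rw [hv, el1_vtx, iff_true]
        exact fun q _ h => K.ε_ne _ _ _ (h0 q) (h1 q) h.2.symm
      · rw [hs, K.el1_ε _ _ s hτ0 hτ1]
        refine forall_congr' fun q => imp_congr_right fun _ => not_congr ⟨fun h => ?_, fun h => ?_⟩
        · obtain ⟨h2, h3⟩ := K.ε_inj _ _ _ _ hτ0 hτ1 (h0 q) (h1 q) h.2
          exact ⟨Prod.ext h.1.symm h2.symm, h3⟩
        · rw [h.1, ← h.2]; exact ⟨rfl, rfl⟩
    · refine continuous_Prop.2 ?_
      rw [← isClosed_compl_iff]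
      refine Set.Finite.isClosed (Set.Subsingleton.finite ?_)
      intro τ hτ τ' hτ'
      simp only [mem_compl_iff, mem_ofPred_eq, not_forall, not_not] at hτ hτ'
      obtain ⟨q, -, hq, rfl⟩ := hτ
      obtain ⟨q', -, hq', rfl⟩ := hτ'
      rw [Subtype.ext (hq.trans hq'.symm)]
  rcases isEmpty_or_nonempty J with hJ | ⟨⟨p₀⟩⟩
  · exact Set.toFinite J
  have hcov : Icc (0 : ℝ) 1 ⊆ ⋃ p, O p := by
    intro t _
    by_cases h : ∃ q : J, n t = q.1.1 ∧ γ t = K.ε q.1.2 (ττ q)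
    · obtain ⟨q, hq⟩ := h
      refine mem_iUnion.2 ⟨q, fun q' hne h' => hne (Subtype.ext (Prod.ext (h'.1.symm.trans hq.1) ?_))⟩
      exact (K.ε_inj _ _ _ _ (h0 q') (h1 q') (h0 q) (h1 q) (h'.2.symm.trans hq.2)).1
    · exact mem_iUnion.2 ⟨p₀, fun q _ h' => h ⟨q, h'⟩⟩
  obtain ⟨F, hF⟩ := isCompact_Icc.elim_finite_subcover O hO hcov
  have : Finite J := by
    refine Finite.of_surjective (fun p : F => p.1) fun q => ?_
    obtain ⟨p, hp, hq⟩ := mem_iUnion₂.1 (hF (htt q))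
    by_contra hne
    exact hq q (fun h => hne ⟨⟨p, hp⟩, h.symm⟩) ⟨hn' q, hγ' q⟩
  exact Set.toFinite J

end Cx2

end Crest.Agent.R197
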