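import Crest.Agent.R197.ExtA

/-!
# R197 EXT, part B: boundary words of two-cells and the atlas on the complex
-/

set_option autoImplicit false

noncomputable section

namespace Crest.Agent.R197

open Function Set Metric

lemma cir_ne (t : ℝ) : cir t ≠ 0 := Complex.exp_ne_zero _

lemma norm_cir (t : ℝ) : ‖cir t‖ = 1 := by
  rw [cir, Complex.norm_exp]; simp

lemma cir_add_int (t : ℝ) (k : ℤ) : cir (t + k) = cir t := by
  rw [cir, cir, Complex.exp_eq_exp_iff_exists_int]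
  exact ⟨k, by push_cast; ring⟩

lemma cir_zero : cir 0 = 1 := by simp [cir]

lemma cir_one : cir 1 = 1 := by simpa [cir_zero] using cir_add_int 0 1

lemma continuous_cir : Continuous cir := by unfold cir; fun_prop

/-- Angle in turns. -/
def ang (ζ : ℂ) : ℝ := Complex.arg ζ / (2 * Real.pi)

lemma smul_cir_ang (ζ : ℂ) : ‖ζ‖ • cir (ang ζ) = ζ := by
  have : (2 * Real.pi * Complex.I * (ang ζ : ℝ) : ℂ) = Complex.arg ζ * Complex.I := by
    have : (Real.pi : ℂ) ≠ 0 := by exact_mod_cast Real.pi_ne_zero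
    rw [ang]; push_cast; field_simp
  rw [cir, this, Complex.real_smul, Complex.norm_mul_exp_arg_mul_I]

lemma exp_eq_smul_cir (z : ℂ) : Complex.exp z = Real.exp z.re • cir (z.im / (2 * Real.pi)) := by
  have : (2 * Real.pi * Complex.I * ((z.im / (2 * Real.pi) : ℝ) : ℂ) : ℂ) = z.im * Complex.I := by
    have : (Real.pi : ℂ) ≠ 0 := by exact_mod_cast Real.pi_ne_zero
    push_cast; field_simp
  rw [cir, this, Complex.real_smul, Complex.ofReal_exp, ← Complex.exp_add, Complex.re_add_im]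

lemma exists_int_of_cir_eq {t t' : ℝ} (h : cir t = cir t') : ∃ k : ℤ, t = t' + k := by
  obtain ⟨k, hk⟩ := Complex.exp_eq_exp_iff_exists_int.1 h
  refine ⟨k, ?_⟩
  have h2 : (2 * Real.pi * Complex.I : ℂ) ≠ 0 := Complex.two_pi_I_ne_zero
  have : (t : ℂ) = t' + k := by
    apply mul_left_cancel₀ h2
    rw [hk]; ring
  exact_mod_cast this

lemma ang_exp (z : ℂ) : ∃ k : ℤ, ang (Complex.exp z) = z.im / (2 * Real.pi) + k := by
  apply exists_int_of_cir_eq
  have h := smul_cir_ang (Complex.exp z)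
  rw [Complex.norm_exp] at h
  exact smul_right_injective ℂ (Real.exp_pos z.re).ne' (h.trans (exp_eq_smul_cir z))

namespace Cx2

variable {X1 X : Type} [TopologicalSpace X1] [TopologicalSpace X] (K : Cx2 X1 X) (hL : LiftStmt)

/-- The boundary loop of a two-cell. -/
def bl (c : K.C) (t : ℝ) : X1 := K.bd c (cir t)

lemma continuous_bl (c : K.C) : Continuous (K.bl c) :=
  (K.bd_cont c).comp_continuous continuous_cir cir_ne

lemma bl_ang (c : K.C) {ζ : ℂ} (h : ζ ≠ 0) : K.bl c (ang ζ) = K.bd c ζ := by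
  rw [bl, ← K.bd_smul c ‖ζ‖ _ (norm_pos_iff.2 h), smul_cir_ang]

lemma bl_add_int (c : K.C) (t : ℝ) (k : ℤ) : K.bl c (t + k) = K.bl c t := by
  rw [bl, bl, cir_add_int]

lemma χ_cir (c : K.C) (t : ℝ) : K.χ c (cir t) = K.inc (K.bl c t) :=
  K.χ_bd c _ (norm_cir t).ge

/-- The word read along the boundary loop. -/
def N (c : K.C) : ℝ → FreeGroup K.S :=
  (hL X1 _ ℝ K.A1 (K.bl c) 0 1 (K.continuous_bl c)).choose

lemma N_lift (c : K.C) : K.A1.IsLift (K.bl c) (K.N hL c) :=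
  (hL X1 _ ℝ K.A1 (K.bl c) 0 1 (K.continuous_bl c)).choose_spec.1

lemma N_zero (c : K.C) : K.N hL c 0 = 1 :=
  (hL X1 _ ℝ K.A1 (K.bl c) 0 1 (K.continuous_bl c)).choose_spec.2

/-- The boundary word. -/
def w (c : K.C) : FreeGroup K.S := K.N hL c 1

lemma N_add_one (c : K.C) (t : ℝ) : K.N hL c (t + 1) = K.w hL c * K.N hL c t := by
  have h := (K.N_lift hL c).comp (q := fun t : ℝ => t + 1) (by fun_prop)
  have he : (fun t : ℝ => K.bl c (t + 1)) = K.bl c :=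
    funext fun t => by simpa using K.bl_add_int c t 1
  rw [he] at h
  have := (K.N_lift hL c).unique h 0 t
  simpa [N_zero, w] using this

lemma isPath_N (c : K.C) (t : ℝ) :
    K.IsPath (K.base (K.bl c 0)) (K.base (K.bl c t)) (K.N hL c t) := by
  simpa [N_zero] using isPath_lift (K.continuous_bl c) (K.N_lift hL c) 0 t

lemma isPath_w (c : K.C) : K.IsPath (K.base (K.bl c 0)) (K.base (K.bl c 0)) (K.w hL c) := by
  have := K.isPath_N hL c 1
  rwa [show K.bl c 1 = K.bl c 0 by simpa using K.bl_add_int c 0 1] at this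

/-- The group presented by the edges and the boundary words. -/
abbrev Γ : Type := PresentedGroup (range (K.w hL))

/-- The quotient map. -/
def mkΓ : FreeGroup K.S →* K.Γ hL := PresentedGroup.mk _

lemma mk_w (c : K.C) : K.mkΓ hL (K.w hL c) = 1 := PresentedGroup.one_of_mem ⟨c, rfl⟩

lemma mk_N_add_int (c : K.C) (t : ℝ) (k : ℤ) :
    K.mkΓ hL (K.N hL c (t + k)) = K.mkΓ hL (K.N hL c t) := by
  induction k using Int.induction_on with
  | zero => simp
  | succ k ih =>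
    rw [← ih, Int.cast_add, Int.cast_one, ← add_assoc, N_add_one, map_mul, mk_w, one_mul]
  | pred k ih =>
    rw [← ih]
    have : t + ((-(k : ℤ) : ℤ) : ℝ) = t + ((-(k : ℤ) - 1 : ℤ) : ℝ) + 1 := by push_cast; ring
    rw [this, N_add_one, map_mul, mk_w, one_mul]

lemma exists_cell2 (x : X) : ∃ c : X1 ⊕ (K.C × ℂ),
    (∀ y, x = K.inc y → c = .inl y) ∧ ∀ d ζ, ‖ζ‖ < 1 → x = K.χ d ζ → c = .inr (d, ζ) := by
  rcases K.cover2 x with ⟨y, rfl⟩ | ⟨d, ζ, h, rfl⟩
  · exact ⟨.inl y, fun y' h => by rw [K.inc_inj h],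
      fun d ζ h h' => absurd h'.symm (K.χ_ne d ζ y h)⟩
  · refine ⟨.inr (d, ζ), fun y h' => absurd h' (K.χ_ne d ζ y h), fun d' ζ' h' h'' => ?_⟩
    obtain ⟨rfl, rfl⟩ := K.χ_inj d ζ d' ζ' h h' h''
    rfl

/-- Definition by cases on the complex. -/
def el2 {Y : Type} (f : X1 → Y) (g : K.C → ℂ → Y) (x : X) : Y :=
  Sum.elim f (fun p => g p.1 p.2) (K.exists_cell2 x).choose

@[simp] lemma el2_inc {Y : Type} (f : X1 → Y) (g : K.C → ℂ → Y) (y : X1) :
    K.el2 f g (K.inc y) = f y := by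
  rw [el2, (K.exists_cell2 _).choose_spec.1 y rfl]; rfl

lemma el2_χ {Y : Type} (f : X1 → Y) (g : K.C → ℂ → Y) (c : K.C) {ζ : ℂ} (h : ‖ζ‖ < 1) :
    K.el2 f g (K.χ c ζ) = g c ζ := by
  rw [el2, (K.exists_cell2 _).choose_spec.2 c ζ h rfl]; rfl

/-- All cells, parametrised by the plane. -/
def m2 : K.S ⊕ K.C → ℂ → X
  | .inl s => fun ζ => K.inc (K.ε s ζ.re)
  | .inr c => K.χ c

/-- The group element read along a cell. -/
def a2 : K.S ⊕ K.C → ℂ → K.Γ hL
  | .inl s => fun ζ => K.mkΓ hL (K.a1 s ζ.re)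
  | .inr c => fun ζ => if ‖ζ‖ < 1 then 1 else K.mkΓ hL (K.N hL c (ang ζ))

lemma weak_m2 (O : Set X) (h : ∀ k, IsOpen (K.m2 k ⁻¹' O)) : IsOpen O := by
  refine K.weak2 O (K.weak1 _ fun s => ?_) fun c => h (.inr c)
  have := (h (.inl s)).preimage Complex.continuous_ofReal
  convert this using 1
  ext τ
  simp [m2]

/-- Open cells, and radial thickenings of stars and open edges. -/
def U2 : Option Bool → Set X
  | none => {x | K.el2 (fun _ => False) (fun _ _ => True) x}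
  | some i => {x | K.el2 (fun y => y ∈ K.U1 i) (fun c ζ => ζ ≠ 0 ∧ K.bd c ζ ∈ K.U1 i) x}

/-- Sections. -/
def b2 : Option Bool → X → K.Γ hL
  | none => fun _ => 1
  | some i => K.el2 (fun y => K.mkΓ hL (K.b1 i y))
      fun c ζ => K.mkΓ hL (K.b1 i (K.bd c ζ) * (K.N hL c (ang ζ))⁻¹)

lemma cover_U2 (x : X) : ∃ i, x ∈ K.U2 i := by
  rcases K.cover2 x with ⟨y, rfl⟩ | ⟨d, ζ, h, rfl⟩
  · obtain ⟨i, hi⟩ := K.cover_U1 y
    exact ⟨some i, by simpa [U2] using hi⟩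
  · exact ⟨none, by simp [U2, K.el2_χ _ _ d h]⟩

lemma lc_ang (c : K.C) (i : Bool) : LC {ζ : ℂ | ζ ≠ 0 ∧ K.bd c ζ ∈ K.U1 i}
    fun ζ => K.mkΓ hL (K.N hL c (ang ζ) * (K.b1 i (K.bd c ζ))⁻¹) := by
  intro e
  have h := (((K.N_lift hL c i).map (K.mkΓ hL)).preimage
    (q := fun z : ℂ => z.im / (2 * Real.pi)) (by fun_prop)) e
  have hb : ∀ z : ℂ, K.bd c (Complex.exp z) = K.bl c (z.im / (2 * Real.pi)) := fun z => by
    rw [exp_eq_smul_cir, K.bd_smul c _ _ (Real.exp_pos _), bl]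
  have hN : ∀ z : ℂ, K.mkΓ hL (K.N hL c (ang (Complex.exp z))) =
      K.mkΓ hL (K.N hL c (z.im / (2 * Real.pi))) := fun z => by
    obtain ⟨k, hk⟩ := ang_exp z
    rw [hk, mk_N_add_int]
  convert Complex.isOpenMap_exp _ h using 1
  ext ζ
  simp only [mem_ofPred_eq, mem_image, mem_preimage, map_mul]
  constructor
  · rintro ⟨⟨h0, h1⟩, h2⟩
    obtain ⟨z, rfl⟩ : ∃ z, Complex.exp z = ζ := ⟨_, Complex.exp_log h0⟩
    rw [hb] at h1
    rw [hb, hN] at h2
    exact ⟨z, ⟨h1, h2⟩, rfl⟩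
  · rintro ⟨z, ⟨h1, h2⟩, rfl⟩
    rw [hb, hN]
    exact ⟨⟨Complex.exp_ne_zero z, h1⟩, h2⟩

lemma lc2 (k : K.S ⊕ K.C) (i : Option Bool) :
    LC (K.m2 k ⁻¹' K.U2 i) fun ζ => K.a2 hL k ζ * (K.b2 hL i (K.m2 k ζ))⁻¹ := by
  match k, i with
  | .inl s, none =>
    exact (LC.const isOpen_empty 1).congr (by ext; simp [m2, U2]) fun _ h => h.elim
  | .inl s, some i =>
    exact (((K.lc1 s i).map (K.mkΓ hL)).preimage Complex.continuous_re).congr
      (by ext; simp [m2, U2]) fun _ _ => by simp [m2, a2, b2]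
  | .inr c, none =>
    refine (LC.const (isOpen_ball (x := (0 : ℂ)) (ε := 1)) 1).congr ?_ fun ζ h => ?_
    · ext ζ
      by_cases h : ‖ζ‖ < 1
      · simp [m2, U2, K.el2_χ _ _ c h, h]
      · simp [m2, U2, K.χ_bd c ζ (not_lt.1 h), h]
    · simp [a2, b2, mem_ball_zero_iff.1 h]
  | .inr c, some i =>
    refine (K.lc_ang hL c i).congr ?_ fun ζ _ => ?_
    · ext ζ
      by_cases h : ‖ζ‖ < 1
      · simp [m2, U2, K.el2_χ _ _ c h]
      · have h0 : ζ ≠ 0 := by rintro rfl; simp at h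
        simp [m2, U2, K.χ_bd c ζ (not_lt.1 h), h0]
    · by_cases h : ‖ζ‖ < 1
      · simp [m2, a2, b2, K.el2_χ _ _ c h, h]
      · simp [m2, a2, b2, K.χ_bd c ζ (not_lt.1 h), h]

/-- The atlas on the complex. -/
def A2 : Atlas X (K.Γ hL) :=
  Atlas.ofWeak K.m2 (K.a2 hL) K.weak_m2 K.U2 (K.b2 hL) K.cover_U2 (K.lc2 hL)

lemma isLift_m2 (k : K.S ⊕ K.C) : (K.A2 hL).IsLift (K.m2 k) (K.a2 hL k) := K.lc2 hL k

lemma isLift_ε2 (s : K.S) :
    (K.A2 hL).IsLift (fun τ : ℝ => K.inc (K.ε s τ)) fun τ => K.mkΓ hL (K.a1 s τ) := by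
  simpa [m2, a2] using (K.isLift_m2 hL (.inl s)).comp Complex.continuous_ofReal

/-- Gluing on the complex. -/
lemma glue2 {T Y : Type} [TopologicalSpace T] [TopologicalSpace Y] {γ : T → X}
    {n : T → K.Γ hL} (f : K.Γ hL → X1 → Y) (g : K.Γ hL → K.C → ℂ → Y)
    (hf : ∀ m s, Continuous fun τ => f (m * K.mkΓ hL (K.a1 s τ)) (K.ε s τ))
    (hg : ∀ m c, Continuous (g m c))
    (h1 : ∀ m c ζ, 1 ≤ ‖ζ‖ → g m c ζ = f (m * K.mkΓ hL (K.N hL c (ang ζ))) (K.bl c (ang ζ)))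
    (hγ : Continuous γ) (hn : (K.A2 hL).IsLift γ n) :
    Continuous fun t => K.el2 (f (n t)) (g (n t)) (γ t) := by
  refine Atlas.glue K.m2 (K.a2 hL) K.weak_m2 (K.isLift_m2 hL)
    (fun m x => K.el2 (f m) (g m) x) (fun m k => ?_) hγ hn
  cases k with
  | inl s => simpa [m2, a2, Function.comp_def] using (hf m s).comp Complex.continuous_re
  | inr c =>
    convert hg m c using 2 with ζ
    by_cases h : ‖ζ‖ < 1
    · simp [m2, a2, K.el2_χ _ _ c h, h]
    · have h0 : ζ ≠ 0 := by rintro rfl; simp at h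
      simp [m2, a2, K.χ_bd c ζ (not_lt.1 h), h, h1 m c ζ (not_lt.1 h), K.bl_ang c h0]

end Cx2

end Crest.Agent.R197
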