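import Crest.Agent.R197.ExtB

/-!
# R197 EXT, part C: lifted cells in the contractible cover
-/

set_option autoImplicit false

noncomputable section

namespace Crest.Agent.R197

open Function Set Metric

/-- A cell complex with a covering space and coordinates on the fibres. -/
structure Env (X1 X E G : Type) [TopologicalSpace X1] [TopologicalSpace X] [TopologicalSpace E]
    [Group G] where
  K : Cx2 X1 X
  hL : LiftStmt
  p : E → X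
  cov : IsCoveringMap p
  pt : G → X → E
  p_pt : ∀ g y, p (pt g y) = y
  uniq : ∀ e, ∃! g, pt g (p e) = e
  path : ∀ (T : Type) [TopologicalSpace T] [PathConnectedSpace T] (f : T → X) (t₀ t₁ : T),
    Continuous f → ∃ c : G, ∀ (g : G) (f' : T → E), Continuous f' → (∀ t, p (f' t) = f t) →
      f' t₀ = pt g (f t₀) → f' t₁ = pt (g * c) (f t₁)

namespace Env

variable {X1 X E G : Type} [TopologicalSpace X1] [TopologicalSpace X] [TopologicalSpace E]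
  [Group G] (Q : Env X1 X E G)

lemma pt_inj {g g' : G} {x : X} (h : Q.pt g x = Q.pt g' x) : g = g' := by
  obtain ⟨k, -, hk⟩ := Q.uniq (Q.pt g x)
  rw [hk g (by simp only [Q.p_pt]), hk g' (by simp only [Q.p_pt, h])]

lemma exists_lift {T : Type} [TopologicalSpace T] [SimplyConnectedSpace T]
    [LocallyPathConnectedSpace T] {f : T → X} (hf : Continuous f) (t₀ : T) (e : E)
    (he : Q.p e = f t₀) : ∃ f' : T → E, Continuous f' ∧ (∀ t, Q.p (f' t) = f t) ∧ f' t₀ = e := by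
  obtain ⟨F, ⟨h1, h2⟩, -⟩ := Q.cov.existsUnique_continuousMap_lifts ⟨f, hf⟩ t₀ e he
  exact ⟨F, F.continuous, fun t => congrFun h2 t, h1⟩

lemma cont_edge (s : Q.K.S) : Continuous fun τ => Q.K.inc (Q.K.ε s τ) :=
  Q.K.inc_cont.comp (Q.K.ε_cont s)

/-- Lifted vertices. -/
def vh (g : G) (v : Q.K.V) : E := Q.pt g (Q.K.inc (Q.K.vtx v))

lemma p_vh (g : G) (v : Q.K.V) : Q.p (Q.vh g v) = Q.K.inc (Q.K.vtx v) := Q.p_pt _ _

lemma exists_εh (g : G) (s : Q.K.S) : ∃ f' : ℝ → E, Continuous f' ∧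
    (∀ t, Q.p (f' t) = Q.K.inc (Q.K.ε s t)) ∧ f' 0 = Q.vh g (Q.K.o s) :=
  Q.exists_lift (Q.cont_edge s) 0 _ (by rw [p_vh, Q.K.ε_le s 0 le_rfl])

/-- Lifted edges. -/
def εh (g : G) (s : Q.K.S) : ℝ → E := (Q.exists_εh g s).choose

lemma εh_cont (g : G) (s : Q.K.S) : Continuous (Q.εh g s) := (Q.exists_εh g s).choose_spec.1

lemma p_εh (g : G) (s : Q.K.S) (τ : ℝ) : Q.p (Q.εh g s τ) = Q.K.inc (Q.K.ε s τ) :=
  (Q.exists_εh g s).choose_spec.2.1 τ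

lemma εh_zero (g : G) (s : Q.K.S) : Q.εh g s 0 = Q.vh g (Q.K.o s) :=
  (Q.exists_εh g s).choose_spec.2.2

lemma exists_εh_eq (s : Q.K.S) (τ : ℝ) :
    ∃ k : G, ∀ g, Q.εh g s τ = Q.pt (g * k) (Q.K.inc (Q.K.ε s τ)) := by
  obtain ⟨k, hk⟩ := Q.path ℝ _ 0 τ (Q.cont_edge s)
  exact ⟨k, fun g => hk g _ (Q.εh_cont g s) (Q.p_εh g s)
    (by rw [εh_zero, Q.K.ε_le s 0 le_rfl, vh])⟩

/-- The group element of an edge. -/
def φ (s : Q.K.S) : G := (Q.exists_εh_eq s 1).choose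

lemma εh_one (g : G) (s : Q.K.S) : Q.εh g s 1 = Q.vh (g * Q.φ s) (Q.K.t s) := by
  have : Q.εh g s 1 = Q.pt (g * Q.φ s) (Q.K.inc (Q.K.ε s 1)) := (Q.exists_εh_eq s 1).choose_spec g
  rw [this, Q.K.ε_ge s 1 le_rfl]; rfl

lemma εh_le (g : G) (s : Q.K.S) {τ : ℝ} (h : τ ≤ 0) : Q.εh g s τ = Q.vh g (Q.K.o s) := by
  rw [← εh_zero]
  refine Q.cov.constOn_of_comp (s := Iic 0) isPreconnected_Iic (Q.εh_cont g s).continuousOn
    (fun a ha b hb => ?_) h self_mem_Iic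
  rw [p_εh, p_εh, Q.K.ε_le s a ha, Q.K.ε_le s b hb]

lemma εh_ge (g : G) (s : Q.K.S) {τ : ℝ} (h : 1 ≤ τ) :
    Q.εh g s τ = Q.vh (g * Q.φ s) (Q.K.t s) := by
  rw [← εh_one]
  refine Q.cov.constOn_of_comp (s := Ici 1) isPreconnected_Ici (Q.εh_cont g s).continuousOn
    (fun a ha b hb => ?_) h self_mem_Ici
  rw [p_εh, p_εh, Q.K.ε_ge s a ha, Q.K.ε_ge s b hb]

/-- Points over the one-skeleton. -/
def sec (g : G) : X1 → E := Q.K.el1 (Q.vh g) (Q.εh g)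

lemma exists_sec_eq (y : X1) : ∃ k : G, ∀ g, Q.sec g y = Q.pt (g * k) (Q.K.inc y) := by
  rcases Q.K.cover1 y with ⟨v, rfl⟩ | ⟨s, τ, h0, h1, rfl⟩
  · exact ⟨1, fun g => by simp [sec, vh]⟩
  · obtain ⟨k, hk⟩ := Q.exists_εh_eq s τ
    exact ⟨k, fun g => by rw [sec, Q.K.el1_ε _ _ s h0 h1, hk]⟩

lemma p_sec (g : G) (y : X1) : Q.p (Q.sec g y) = Q.K.inc y := by
  obtain ⟨k, hk⟩ := Q.exists_sec_eq y
  rw [hk, Q.p_pt]

lemma sec_inj {g g' : G} {y : X1} (h : Q.sec g y = Q.sec g' y) : g = g' := by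
  obtain ⟨k, hk⟩ := Q.exists_sec_eq y
  rw [hk, hk] at h
  exact mul_right_cancel (Q.pt_inj h)

lemma sec_ε (g : G) (s : Q.K.S) (τ : ℝ) :
    Q.sec (g * ev Q.φ (Q.K.a1 s τ)) (Q.K.ε s τ) = Q.εh g s τ := by
  by_cases h0 : τ ≤ 0
  · rw [Q.K.ε_le s τ h0, Q.K.a1_lt s (by linarith), Q.εh_le g s h0]; simp [sec]
  by_cases h1 : 1 ≤ τ
  · rw [Q.K.ε_ge s τ h1, Q.K.a1_ge s h1, Q.εh_ge g s h1]; simp [sec]
  rw [Q.K.a1_lt s (not_le.1 h1), sec, Q.K.el1_ε _ _ s (not_le.1 h0) (not_le.1 h1)]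
  simp

lemma exists_χh (g : G) (c : Q.K.C) : ∃ f' : ℂ → E, Continuous f' ∧
    (∀ t, Q.p (f' t) = Q.K.χ c t) ∧ f' (cir 0) = Q.sec g (Q.K.bl c 0) :=
  Q.exists_lift (Q.K.χ_cont c) _ _ (by rw [p_sec, Q.K.χ_cir])

/-- Lifted two-cells. -/
def χh (g : G) (c : Q.K.C) : ℂ → E := (Q.exists_χh g c).choose

lemma χh_cont (g : G) (c : Q.K.C) : Continuous (Q.χh g c) := (Q.exists_χh g c).choose_spec.1

lemma p_χh (g : G) (c : Q.K.C) (ζ : ℂ) : Q.p (Q.χh g c ζ) = Q.K.χ c ζ :=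
  (Q.exists_χh g c).choose_spec.2.1 ζ

lemma χh_cir (g : G) (c : Q.K.C) (t : ℝ) :
    Q.χh g c (cir t) = Q.sec (g * ev Q.φ (Q.K.N Q.hL c t)) (Q.K.bl c t) := by
  have hc := Q.K.glue1 (fun m => Q.vh (g * ev Q.φ m)) (fun m => Q.εh (g * ev Q.φ m))
    (fun m s => Q.εh_cont _ s) (fun m s τ h => Q.εh_le _ s h)
    (fun m s τ h => by rw [Q.εh_ge _ s h]; simp [mul_assoc])
    (Q.K.continuous_bl c) (Q.K.N_lift Q.hL c)
  refine congrFun (Q.cov.eq_of_comp_eq ((Q.χh_cont g c).comp continuous_cir) hc ?_ 0 ?_) t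
  · funext t
    exact (Q.p_χh g c _).trans ((Q.K.χ_cir c t).trans (Q.p_sec _ _).symm)
  · have : Q.χh g c (cir 0) = Q.sec g (Q.K.bl c 0) := (Q.exists_χh g c).choose_spec.2.2
    simpa [Q.K.N_zero, sec] using this

lemma ev_w (c : Q.K.C) : ev Q.φ (Q.K.w Q.hL c) = 1 := by
  have h1 := Q.χh_cir 1 c 1
  have h0 := Q.χh_cir 1 c 0
  rw [cir_one, show Q.K.bl c 1 = Q.K.bl c 0 by simpa using Q.K.bl_add_int c 0 1] at h1
  rw [cir_zero, h1, Q.K.N_zero] at h0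
  simpa [Cx2.w] using Q.sec_inj h0

lemma χh_out (g : G) (c : Q.K.C) {ζ : ℂ} (h : 1 ≤ ‖ζ‖) :
    Q.χh g c ζ = Q.sec (g * ev Q.φ (Q.K.N Q.hL c (ang ζ))) (Q.K.bl c (ang ζ)) := by
  rw [← χh_cir]
  conv_lhs => rw [← smul_cir_ang ζ]
  have := Q.cov.constOn_of_comp (s := Ici (1 : ℝ))
    (g := fun r : ℝ => Q.χh g c (r • cir (ang ζ))) isPreconnected_Ici
    ((Q.χh_cont g c).comp (by fun_prop)).continuousOn (fun a ha b hb => ?_) h self_mem_Ici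
  · simpa using this
  · have hn : ∀ a ∈ Ici (1 : ℝ), Q.K.χ c (a • cir (ang ζ)) = Q.K.inc (Q.K.bd c (cir (ang ζ))) := by
      intro a ha
      have ha0 : 0 < a := lt_of_lt_of_le one_pos ha
      rw [Q.K.χ_bd c _ (by rw [norm_smul, norm_cir, mul_one, Real.norm_of_nonneg ha0.le]; exact ha),
        Q.K.bd_smul c a _ ha0]
    rw [p_χh, p_χh, hn a ha, hn b hb]

/-- The map from the presented group to `G`. -/
def φb : Q.K.Γ Q.hL →* G :=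
  PresentedGroup.toGroup (f := Q.φ) (by rintro _ ⟨c, rfl⟩; exact Q.ev_w c)

@[simp] lemma φb_mk (n : FreeGroup Q.K.S) : Q.φb (Q.K.mkΓ Q.hL n) = ev Q.φ n := rfl

/-- All points of the cover. -/
def Z2 (g : G) : X → E := Q.K.el2 (Q.sec g) (Q.χh g)

lemma exists_Z2_eq (x : X) : ∃ k : G, ∀ g, Q.Z2 g x = Q.pt (g * k) x := by
  rcases Q.K.cover2 x with ⟨y, rfl⟩ | ⟨c, ζ, h, rfl⟩
  · simpa [Z2] using Q.exists_sec_eq y
  · obtain ⟨k, hk⟩ := Q.exists_sec_eq (Q.K.bl c 0)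
    obtain ⟨k', hk'⟩ := Q.path ℂ _ (cir 0) ζ (Q.K.χ_cont c)
    refine ⟨k * k', fun g => ?_⟩
    rw [Z2, Q.K.el2_χ _ _ c h, ← mul_assoc]
    refine hk' _ _ (Q.χh_cont g c) (Q.p_χh g c) ?_
    rw [Q.K.χ_cir, ← hk]
    exact (Q.exists_χh g c).choose_spec.2.2

lemma p_Z2 (g : G) (x : X) : Q.p (Q.Z2 g x) = x := by
  obtain ⟨k, hk⟩ := Q.exists_Z2_eq x
  rw [hk, Q.p_pt]

lemma Z2_inj {g g' : G} {x : X} (h : Q.Z2 g x = Q.Z2 g' x) : g = g' := by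
  obtain ⟨k, hk⟩ := Q.exists_Z2_eq x
  rw [hk, hk] at h
  exact mul_right_cancel (Q.pt_inj h)

lemma Z2_surj (e : E) : ∃ g, Q.Z2 g (Q.p e) = e := by
  obtain ⟨k, hk⟩ := Q.exists_Z2_eq (Q.p e)
  obtain ⟨g, hg, -⟩ := Q.uniq e
  exact ⟨g * k⁻¹, by rw [hk, inv_mul_cancel_right, hg]⟩

lemma Z2_vtx (g : G) (v : Q.K.V) : Q.Z2 g (Q.K.inc (Q.K.vtx v)) = Q.vh g v := by
  simp [Z2, sec]

lemma χh_inj {g g' : G} {c c' : Q.K.C} {ζ ζ' : ℂ} (h' : ‖ζ'‖ < 1)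
    (he : Q.χh g c ζ = Q.χh g' c' ζ') : g = g' ∧ c = c' ∧ ζ = ζ' := by
  have hp := congrArg Q.p he
  rw [p_χh, p_χh] at hp
  have h : ‖ζ‖ < 1 := by
    by_contra hh
    rw [Q.K.χ_bd c ζ (not_lt.1 hh)] at hp
    exact Q.K.χ_ne _ _ _ h' hp.symm
  obtain ⟨rfl, rfl⟩ := Q.K.χ_inj _ _ _ _ h h' hp
  refine ⟨Q.Z2_inj (x := Q.K.χ c ζ) ?_, rfl, rfl⟩
  rwa [Z2, Z2, Q.K.el2_χ _ _ c h, Q.K.el2_χ _ _ c h]

lemma sec_ne_χh (g g' : G) (y : X1) (c : Q.K.C) {ζ : ℂ} (h : ‖ζ‖ < 1) :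
    Q.sec g y ≠ Q.χh g' c ζ := by
  intro he
  have hp := congrArg Q.p he
  rw [p_χh, p_sec] at hp
  exact Q.K.χ_ne _ _ _ h hp.symm

variable [ContractibleSpace E]

/-- The cover trivialises the atlas, and the coordinate recovers the point. -/
lemma exists_nb : ∃ (nb : E → Q.K.Γ Q.hL) (h : G), (Q.K.A2 Q.hL).IsLift Q.p nb ∧
    ∀ e, Q.Z2 (h * Q.φb (nb e)) (Q.p e) = e := by
  obtain ⟨e₀⟩ : Nonempty E := inferInstance
  obtain ⟨nb, hnb, h0⟩ := Q.hL X _ E (Q.K.A2 Q.hL) Q.p e₀ 1 Q.cov.continuous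
  obtain ⟨h, hh⟩ := Q.Z2_surj e₀
  refine ⟨nb, h, hnb, fun e => ?_⟩
  have hc := Q.K.glue2 Q.hL (fun m => Q.sec (h * Q.φb m)) (fun m => Q.χh (h * Q.φb m))
    (fun m s => by
      simp only [map_mul, φb_mk, ← mul_assoc, sec_ε]; exact Q.εh_cont _ s)
    (fun m c => Q.χh_cont _ c)
    (fun m c ζ hζ => by rw [Q.χh_out _ c hζ]; simp [mul_assoc]) Q.cov.continuous hnb
  refine congrFun (Q.cov.eq_of_comp_eq hc continuous_id ?_ e₀ ?_) e
  · funext e; exact Q.p_Z2 _ _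
  · rw [h0, map_one, mul_one]; exact hh

/-- The cover has the weak topology for the lifted cells. -/
lemma weakE {Y : Type} [TopologicalSpace Y] (W : E → Y)
    (h1 : ∀ g s, Continuous fun τ => W (Q.εh g s τ))
    (h2 : ∀ g c, Continuous fun ζ => W (Q.χh g c ζ)) : Continuous W := by
  obtain ⟨nb, h, hnb, he⟩ := Q.exists_nb
  have hc := Q.K.glue2 Q.hL (fun m y => W (Q.sec (h * Q.φb m) y))
    (fun m c ζ => W (Q.χh (h * Q.φb m) c ζ))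
    (fun m s => by
      simp only [map_mul, φb_mk, ← mul_assoc, sec_ε]; exact h1 _ s)
    (fun m c => h2 _ c)
    (fun m c ζ hζ => by rw [Q.χh_out _ c hζ]; simp [mul_assoc]) Q.cov.continuous hnb
  convert hc using 2 with e
  conv_lhs => rw [← he e]
  rcases Q.K.cover2 (Q.p e) with ⟨y, hy⟩ | ⟨c, ζ, hζ, hy⟩
  · rw [hy]; simp [Z2]
  · rw [hy, Z2, Q.K.el2_χ _ _ c hζ, Q.K.el2_χ _ _ c hζ]

lemma exists_vtx : Nonempty Q.K.V := by
  obtain ⟨e₀⟩ : Nonempty E := inferInstance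
  rcases Q.K.cover2 (Q.p e₀) with ⟨y, -⟩ | ⟨c, -⟩
  · exact ⟨Q.K.base y⟩
  · exact ⟨Q.K.base (Q.K.bl c 0)⟩

/-- The lifted one-skeleton is connected. -/
lemma conn (v₀ v : Q.K.V) (g : G) : ∃ n, Q.K.IsPath v₀ v n ∧ ev Q.φ n = g := by
  classical
  let C : G → Q.K.V → Prop := fun g v => ∃ n, Q.K.IsPath v₀ v n ∧ ev Q.φ n = g
  have hC : ∀ {g u v n}, Q.K.IsPath u v n → (C (g * ev Q.φ n) v ↔ C g u) := by
    intro g u v n hn
    constructor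
    · rintro ⟨m, hm, hg⟩
      exact ⟨m * n⁻¹, hm.trans hn.symm, by simp [hg]⟩
    · rintro ⟨m, hm, rfl⟩
      exact ⟨m * n, hm.trans hn, by simp⟩
  obtain ⟨nb, h, hnb, he⟩ := Q.exists_nb
  have hc := Q.K.glue2 Q.hL (Y := Bool) (fun m y => decide (C (h * Q.φb m) (Q.K.base y)))
    (fun m c _ => decide (C (h * Q.φb m) (Q.K.base (Q.K.bl c 0))))
    (fun m s => by
      convert continuous_const (y := decide (C (h * Q.φb m) (Q.K.o s))) using 2 with τ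
      rw [decide_eq_decide, map_mul, φb_mk, ← mul_assoc]
      apply hC
      simpa [Q.K.a1_lt s one_pos, Q.K.ε_le s 0 le_rfl] using
        Cx2.isPath_lift (Q.K.ε_cont s) (Q.K.isLift_ε s) 0 τ)
    (fun m c => continuous_const)
    (fun m c ζ _ => by
      rw [decide_eq_decide, map_mul, φb_mk, ← mul_assoc]
      exact (hC (Q.K.isPath_N Q.hL c _)).symm) Q.cov.continuous hnb
  have hv : ∀ g v, h * Q.φb (nb (Q.vh g v)) = g := fun g v => by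
    have := he (Q.vh g v)
    rw [p_vh] at this
    exact Q.Z2_inj (this.trans (Q.Z2_vtx g v).symm)
  have := PreconnectedSpace.constant inferInstance hc (x := Q.vh 1 v₀) (y := Q.vh g v)
  simp only [p_vh, Cx2.el2_inc, hv, Cx2.base_vtx, decide_eq_decide] at this
  exact this.1 ⟨1, .refl, by simp⟩

/-- Closed edge paths that are trivial in `G` are consequences of the boundary words. -/
lemma mk_eq_one {v : Q.K.V} {n : FreeGroup Q.K.S} (hn : Q.K.IsPath v v n) (h1 : ev Q.φ n = 1) :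
    Q.K.mkΓ Q.hL n = 1 := by
  obtain ⟨nb, h, hnb, -⟩ := Q.exists_nb
  have hs : ∀ g s, nb (Q.vh (g * Q.φ s) (Q.K.t s)) =
      nb (Q.vh g (Q.K.o s)) * Q.K.mkΓ Q.hL (FreeGroup.of s) := by
    intro g s
    have h2 := hnb.comp (Q.εh_cont g s)
    simp only [p_εh] at h2
    have := (Q.K.isLift_ε2 Q.hL s).unique h2 0 1
    simpa [εh_one, εh_zero, Q.K.a1_lt s one_pos, Q.K.a1_ge s le_rfl] using this
  have key : ∀ {u n}, Q.K.IsPath v u n →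
      nb (Q.vh (ev Q.φ n) u) = nb (Q.vh 1 v) * Q.K.mkΓ Q.hL n := by
    intro u n hn
    induction hn with
    | refl => simp
    | fwd _ ih => rw [map_mul, ev_of, hs, ih, map_mul, mul_assoc]
    | @bwd n s _ ih =>
      have := hs (ev Q.φ n * (Q.φ s)⁻¹) s
      rw [inv_mul_cancel_right, ih] at this
      rw [map_mul, map_inv, ev_of, map_mul, map_inv, ← mul_assoc, this, mul_inv_cancel_right]
  have := key hn
  rw [h1] at this
  exact left_eq_mul.1 this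

end Env

end Crest.Agent.R197
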