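import Crest.Agent.R197.FinB

/-!
# R197 FIN: no small flat labelling with non-trivial holonomy
-/

set_option autoImplicit false

noncomputable section

namespace Crest.Agent.R197

open Function Quaternion Set FN

namespace FN

/-- Normalised interpolation between `1` and `r`. -/
def itp (r : ℍˣ) (s : ℝ) : ℍˣ := un ((‖1 + s • ((r : ℍ) - 1)‖⁻¹ : ℝ) • (1 + s • ((r : ℍ) - 1)))

lemma norm_itp_aux {r : ℍˣ} {ε s : ℝ} (hr : dv r ≤ ε) (hs : s ∈ Icc (0 : ℝ) 1) :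
    ‖s • ((r : ℍ) - 1)‖ ≤ ε := by
  rw [norm_smul, Real.norm_of_nonneg hs.1]
  exact (mul_le_of_le_one_left (norm_nonneg _) hs.2).trans hr

lemma itp_ne {r : ℍˣ} {ε s : ℝ} (hr : dv r ≤ ε) (hε : ε ≤ 1 / 2) (hs : s ∈ Icc (0 : ℝ) 1) :
    1 + s • ((r : ℍ) - 1) ≠ 0 := by
  intro h
  have h1 := norm_itp_aux hr hs
  rw [(neg_eq_of_add_eq_zero_right h).symm, norm_neg, norm_one] at h1
  linarith

lemma itp_val {r : ℍˣ} {ε s : ℝ} (hr : dv r ≤ ε) (hε : ε ≤ 1 / 2) (hs : s ∈ Icc (0 : ℝ) 1) :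
    (itp r s : ℍ) = (‖1 + s • ((r : ℍ) - 1)‖⁻¹ : ℝ) • (1 + s • ((r : ℍ) - 1)) :=
  un_val (smul_ne_zero (inv_ne_zero (norm_ne_zero_iff.2 (itp_ne hr hε hs))) (itp_ne hr hε hs))

lemma itp_mem {r : ℍˣ} {ε s : ℝ} (hr : dv r ≤ ε) (hε : ε ≤ 1 / 2) (hs : s ∈ Icc (0 : ℝ) 1) :
    itp r s ∈ Un := by
  rw [mem_Un, itp_val hr hε hs, norm_smul, norm_inv, norm_norm,
    inv_mul_cancel₀ (norm_ne_zero_iff.2 (itp_ne hr hε hs))]

lemma dv_itp {r : ℍˣ} {ε s : ℝ} (hr : dv r ≤ ε) (hε : ε ≤ 1 / 2) (hs : s ∈ Icc (0 : ℝ) 1) :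
    dv (itp r s) ≤ 2 * ε := by
  have h1 := norm_itp_aux hr hs
  have h0 := norm_ne_zero_iff.2 (itp_ne hr hε hs)
  rw [dv, itp_val hr hε hs]
  set y := s • ((r : ℍ) - 1)
  have h2 : (‖1 + y‖⁻¹ : ℝ) • (1 + y) - 1 = ((‖1 + y‖⁻¹ - 1 : ℝ)) • (1 + y) + y := by
    rw [sub_smul, one_smul]; abel
  have h3 : ‖((‖1 + y‖⁻¹ - 1 : ℝ)) • (1 + y)‖ = |‖(1 : ℍ)‖ - ‖1 + y‖| := by
    rw [norm_smul, Real.norm_eq_abs, ← abs_norm (1 + y), ← abs_mul, abs_norm, sub_mul,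
      inv_mul_cancel₀ h0, one_mul, norm_one]
  have h4 := abs_norm_sub_norm_le (1 : ℍ) (1 + y)
  rw [sub_add_cancel_left, norm_neg] at h4
  rw [h2]
  refine (norm_add_le _ _).trans ?_
  rw [h3]; linarith

lemma itp_zero (r : ℍˣ) : itp r 0 = 1 := by simp [itp, un_one]

lemma itp_one {r : ℍˣ} (hr : r ∈ Un) : itp r 1 = r := by
  refine Units.ext ?_
  simp [itp, mem_Un.1 hr, un_val r.ne_zero]

lemma itp_cont {r : ℍˣ} {ε : ℝ} (hr : dv r ≤ ε) (hε : ε ≤ 1 / 2) :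
    ContinuousOn (fun s => (itp r s : ℍ)) (Icc 0 1) := by
  refine ContinuousOn.congr ?_ fun s hs => itp_val hr hε hs
  have h : Continuous fun s : ℝ => 1 + s • ((r : ℍ) - 1) := by fun_prop
  exact (h.norm.continuousOn.inv₀ fun s hs => norm_ne_zero_iff.2 (itp_ne hr hε hs)).smul
    h.continuousOn

end FN

theorem fin (hD : DegStmt) : FinStmt := by
  classical
  intro G S₀ R₀ T R _ _ _ φ₀ w₀ φT a v hw hS hsm
  set φ : S₀ ⊕ T → G := Sum.elim φ₀ φT with hφ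
  let a' : R₀ → S₀ ⊕ T := fun e => .inr (a e)
  let w : R₀ → FreeGroup (S₀ ⊕ T) := fun e => FreeGroup.map Sum.inl (w₀ e)
  have hev : ∀ n, ev φ (FreeGroup.map Sum.inl n) = ev φ₀ n := fun n => ev_map φ Sum.inl n
  have hhol : ∀ (x : G → S₀ ⊕ T → ℍˣ) n g, hol φ x (FreeGroup.map Sum.inl n) g =
      hol φ₀ (fun g s => x g (.inl s)) n g := fun x n g => hol_rename φ x Sum.inl n g
  have h1 : (ev φ).ker ≤ Est φ a' v 1 := fun n hn =>
    est1 (φ := φ) (a := a') hS.a_one hS.v_one (hS.gen n hn)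
  obtain ⟨B₀, Rf₀, C, hC, hgap⟩ := gap (φ := φ) (a := a') (v := v) w (fun e => (hev _).trans (hw e))
    fun e => est2 hS.v_one h1 (hS.key e)
  have := Fintype.ofFinite R₀
  choose ℓ hℓ0 hℓ using fun e => exists_len φ₀ (w₀ e)
  set Λ := ∑ e, ℓ e
  have hΛ0 : 0 ≤ Λ := Finset.sum_nonneg fun e _ => hℓ0 e
  have hΛ : ∀ e, ℓ e ≤ Λ := fun e =>
    Finset.single_le_sum (fun e _ => hℓ0 e) (Finset.mem_univ e)
  set δ₀ : ℝ := 1 / (4 * (C + 1))
  have hδ : 0 < δ₀ := by positivity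
  have hCδ : C * δ₀ ≤ 1 / 4 := by
    rw [mul_one_div, div_le_div_iff₀ (by positivity) (by norm_num)]; linarith
  have hδ1 : δ₀ ≤ 1 := by
    rw [div_le_one (by positivity)]; linarith
  set ε : ℝ := δ₀ / (8 * (Λ + 1))
  have hε : 0 < ε := by positivity
  have hε2 : ε ≤ 1 / 2 := by
    rw [div_le_iff₀ (by positivity)]; linarith
  have hΛε : Λ * (2 * ε) ≤ δ₀ / 4 := by
    have : ε * (8 * (Λ + 1)) = δ₀ := div_mul_cancel₀ _ (by positivity)
    nlinarith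
  obtain ⟨ρ, hρu, hρε, hρw, q, hq1, hq⟩ := hsm ε hε
  obtain ⟨-, Bq, Rq, Cq, hCq, hq'⟩ := h1 ((hev q).trans hq1)
  have hd : 0 < dv (hol φ₀ ρ q 1) := by
    refine lt_of_le_of_ne (dv_nonneg _) fun h => hq (Units.ext ?_)
    exact sub_eq_zero.1 (norm_eq_zero.1 h.symm)
  obtain ⟨k, hk⟩ := exists_pow_lt_of_lt_one (div_pos hd (show 0 < Cq * δ₀ + 1 by positivity))
    (show (1 / 4 : ℝ) < 1 by norm_num)
  obtain ⟨B', hB'⟩ := decay w hδ.le hC hCδ hgap k Bq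
  choose A hA using fun e => exists_hol_congr φ₀ (w₀ e)
  obtain ⟨Aq, hAq⟩ := exists_hol_congr φ₀ q
  obtain ⟨Q, _, _, pr, hsurj, hinj⟩ :=
    exists_quot G (Finset.image₂ (· * ·) B' (Finset.univ.biUnion A) ∪ Aq)
  set Big := Finset.image₂ (· * ·) B' (Finset.univ.biUnion A) ∪ Aq
  let ρb : Q → S₀ → ℍˣ := fun g => if h : ∃ b ∈ Big, pr b = g then ρ h.choose else fun _ => 1
  have hρb : ∀ b ∈ Big, ρb (pr b) = ρ b := fun b hb => by
    have h : ∃ b' ∈ Big, pr b' = pr b := ⟨b, hb, rfl⟩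
    exact (dif_pos h).trans (congrArg ρ (hinj h.choose_spec.1 hb h.choose_spec.2))
  have hρb1 : ∀ g s, ρb g s ∈ Un ∧ dv (ρb g s) ≤ ε := fun g s => by
    by_cases h : ∃ b ∈ Big, pr b = g
    · rw [show ρb g = ρ h.choose from dif_pos h]; exact ⟨hρu _ _, hρε _ _⟩
    · rw [show ρb g = fun _ => 1 from dif_neg h]; exact ⟨one_mem _, by simpa using hε.le⟩
  obtain ⟨m, hm⟩ := hS.dual
  have := Fintype.ofFinite Q
  let J := Q × (Rf₀ ∪ Rq : Finset R)
  let c : J → Q → G × R → ℤ := fun j g p => if g * pr p.1 = j.1 ∧ p.2 = j.2 then 1 else 0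
  let Kb : J → Q → T → ℤ := fun j g t => Finsupp.linearCombination ℤ (c j g) (m t)
  let φb : S₀ ⊕ T → Q := fun s => pr (φ s)
  -- periodic labels
  let X : (Q → S₀ → ℍˣ) → (Q → T → ℍˣ) → G → S₀ ⊕ T → ℍˣ := fun r x g s =>
    Sum.elim (r (pr g)) (x (pr g)) s
  have hX : ∀ r x, (∀ j : J, hol φb (fun g => Sum.elim (r g) (x g)) (v j.2) j.1 = 1) →
      ∀ r' ∈ Rf₀ ∪ Rq, ∀ g, hol φ (X r x) (v r') g = 1 := fun r x h r' hr' g =>
    (hol_comp φ pr (fun g => Sum.elim (r g) (x g)) (v r') g).symm.trans (h (pr g, ⟨r', hr'⟩))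
  have hXu : ∀ r x, (∀ g s, r g s ∈ Un) → (∀ g t, x g t ∈ Un) → ∀ g s, X r x g s ∈ Un := by
    intro r x hr hx g s
    cases s with
    | inl s => exact hr _ s
    | inr t => exact hx _ t
  refine (solve φb Kb hD (fun j : J => v j.2) (fun j => j.1) ?_
    (fun s g t => itp (ρb g t) s) (fun s hs g t => itp_mem (hρb1 g t).2 hε2 hs)
    (fun g t => itp_cont (hρb1 g t).2 hε2) (fun g t => itp_zero _) a hδ ?_).elim ?_
  rotate_right
  · rintro x ⟨hxu, hxv, hxa⟩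
    have h1 : (fun g t => itp (ρb g t) 1) = ρb := funext fun g => funext fun t =>
      itp_one (hρb1 g t).1
    have hxv' := hX (fun g t => itp (ρb g t) 1) x hxv
    rw [h1] at hxv'
    have hu := hXu ρb x (fun g s => (hρb1 g s).1) hxu
    have h2 := hB' (X ρb x) hu (fun r hr => hxv' r (Finset.mem_union_left _ hr))
      (fun g e => hxa _ e) fun b hb e => by
        rw [hhol, ← hρw b e]
        refine hA e _ _ _ b fun b' hb' => hρb _ (Finset.mem_union_left _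
          (Finset.mem_image₂_of_mem hb (Finset.mem_biUnion.2 ⟨e, Finset.mem_univ e, hb'⟩)))
    have h3 := hq' (X ρb x) 1 (δ₀ * (1 / 4) ^ k) ⟨hu, by positivity,
      fun r hr => hxv' r (Finset.mem_union_right _ hr), fun b hb e => by
        rw [one_mul]; exact h2 b hb e⟩
    rw [hhol, hAq _ _ ρ 1 fun b hb => by
      rw [one_mul]; exact hρb b (Finset.mem_union_right _ hb)] at h3
    rw [lt_div_iff₀ (by positivity)] at hk
    have h4 : (0 : ℝ) < (1 / 4) ^ k := by positivity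
    nlinarith
  · rintro j ⟨g', r⟩
    obtain ⟨g, rfl⟩ := hsurj g'
    have h2 : ∀ h (z : G × R →₀ ℤ), Finsupp.linearCombination ℤ (c j 1) (tr h z) =
        Finsupp.linearCombination ℤ (c j (pr h)) z := by
      intro h z
      induction z using Finsupp.induction_linear with
      | zero => simp
      | add a b ha hb => simp [ha, hb]
      | single p k => simp [c]
    have h3 : ∀ z : G × (S₀ ⊕ T) →₀ ℤ, Finsupp.linearCombination ℤ
        (fun p : G × (S₀ ⊕ T) => Sum.elim (fun _ => 0) (Kb j (pr p.1)) p.2) z =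
        Finsupp.linearCombination ℤ (c j 1) (Finsupp.linearCombination ℤ
          (fun p : G × (S₀ ⊕ T) => Sum.elim (fun _ => 0) (fun t => tr p.1 (m t)) p.2) z) := by
      intro z
      induction z using Finsupp.induction_linear with
      | zero => simp
      | add a b ha hb => simp [ha, hb]
      | single p k => obtain ⟨h, s | t⟩ := p <;> simp [Kb, h2]
    have h4 := h3 (D φ (v r) g)
    rw [hm, lc_D] at h4
    rw [lc_D, hol_comp]
    refine h4.trans ?_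
    obtain ⟨j1, j2⟩ := j
    rw [Finsupp.linearCombination_single, one_smul]
    refine if_congr ?_ rfl rfl
    rw [one_mul]
    constructor
    · rintro ⟨h5, h6⟩; exact Prod.ext h5.symm (Subtype.ext h6.symm)
    · intro h5
      rw [h5]
      exact ⟨rfl, rfl⟩
  · intro s hs x hxu hxv hxa g' e
    obtain ⟨g, rfl⟩ := hsurj g'
    have hu := hXu (fun g t => itp (ρb g t) s) x (fun g t => itp_mem (hρb1 g t).2 hε2 hs) hxu
    have hv := hX (fun g t => itp (ρb g t) s) x hxv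
    have h2 := hgap _ g δ₀ ⟨hu, hδ.le, fun r hr => hv r (Finset.mem_union_left _ hr),
      fun b _ e => hxa _ e⟩ e
    have h3 := hℓ e (fun g t => itp (ρb (pr g) t) s) (2 * ε)
      (fun g t => itp_mem (hρb1 _ t).2 hε2 hs) (fun g t => dv_itp (hρb1 _ t).2 hε2 hs) g
    rw [hhol] at h2
    have h4 : ℓ e * (2 * ε) ≤ Λ * (2 * ε) := mul_le_mul_of_nonneg_right (hΛ e) (by positivity)
    have h5 : C * δ₀ ^ 2 ≤ 1 / 4 * δ₀ := by
      rw [sq, ← mul_assoc]; exact mul_le_mul_of_nonneg_right hCδ hδ.le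
    have h6 : dv (x (pr g) (a e)) ≤ _ := h2.trans (add_le_add h3 le_rfl)
    linarith

end Crest.Agent.R197
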