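import Crest.Agent.R197.Defs

/-!
# R197 FIN, part A: linear and quadratic estimates for holonomies in unit quaternions
-/

set_option autoImplicit false

noncomputable section

namespace Crest.Agent.R197.FN

open Function Quaternion Set

/-- Distance to one. -/
def dv (u : ℍˣ) : ℝ := ‖(u : ℍ) - 1‖

/-- Unit quaternions. -/
def Un : Subgroup ℍˣ where
  carrier := {u | ‖(u : ℍ)‖ = 1}
  mul_mem' {a b} ha hb := by
    simp only [mem_ofPred_eq] at *
    rw [Units.val_mul, norm_mul, ha, hb, one_mul]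
  one_mem' := by simp
  inv_mem' {a} ha := by
    simp only [mem_ofPred_eq] at *
    rw [Units.val_inv_eq_inv_val, norm_inv, ha, inv_one]

lemma mem_Un {u : ℍˣ} : u ∈ Un ↔ ‖(u : ℍ)‖ = 1 := Iff.rfl

lemma dv_nonneg (u : ℍˣ) : 0 ≤ dv u := norm_nonneg _
@[simp] lemma dv_one : dv 1 = 0 := by simp [dv]

lemma dv_mul {u : ℍˣ} (hu : u ∈ Un) (v : ℍˣ) : dv (u * v) ≤ dv u + dv v := by
  have : ((u * v : ℍˣ) : ℍ) - 1 = ((u : ℍ) - 1) + u * (v - 1) := by
    rw [Units.val_mul]; noncomm_ring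
  rw [dv, this]
  refine (norm_add_le _ _).trans ?_
  rw [norm_mul, mem_Un.1 hu, one_mul]; rfl

lemma dv_inv {u : ℍˣ} (hu : u ∈ Un) : dv u⁻¹ = dv u := by
  have : ((u⁻¹ : ℍˣ) : ℍ) - 1 = -(((u⁻¹ : ℍˣ) : ℍ) * (u - 1)) := by
    rw [mul_sub, Units.inv_mul]; noncomm_ring
  rw [dv, this, norm_neg, norm_mul, mem_Un.1 (Un.inv_mem hu), one_mul]; rfl

lemma dv_conj {c : ℍˣ} (hc : c ∈ Un) (u : ℍˣ) : dv (c * u * c⁻¹) = dv u := by
  have : ((c * u * c⁻¹ : ℍˣ) : ℍ) - 1 = c * (u - 1) * ((c⁻¹ : ℍˣ) : ℍ) := by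
    rw [mul_sub, sub_mul, mul_one, Units.mul_inv, Units.val_mul, Units.val_mul]
  rw [dv, this, norm_mul, norm_mul, mem_Un.1 hc, mem_Un.1 (Un.inv_mem hc), one_mul, mul_one]; rfl

lemma dv_comm {u v : ℍˣ} (hu : u ∈ Un) (hv : v ∈ Un) :
    dv (u * v * u⁻¹ * v⁻¹) ≤ 2 * dv u * dv v := by
  have : ((u * v * u⁻¹ * v⁻¹ : ℍˣ) : ℍ) - 1 =
      (((u : ℍ) - 1) * (v - 1) - (v - 1) * (u - 1)) * ((u⁻¹ * v⁻¹ : ℍˣ) : ℍ) := by
    have h : (((u : ℍ) - 1) * (v - 1) - (v - 1) * (u - 1)) = u * v - ((v * u : ℍˣ) : ℍ) := by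
      rw [Units.val_mul]; noncomm_ring
    rw [h, sub_mul, ← mul_inv_rev, Units.mul_inv, mul_inv_rev]
    simp only [Units.val_mul, mul_assoc]
  rw [dv, this, norm_mul, mem_Un.1 (Un.mul_mem (Un.inv_mem hu) (Un.inv_mem hv)), mul_one]
  refine (norm_sub_le _ _).trans ?_
  rw [norm_mul, norm_mul, dv, dv]; linarith

lemma hol_mem {G S U : Type} [Group G] [Group U] (φ : S → G) (H : Subgroup U) {x : G → S → U}
    (hx : ∀ g s, x g s ∈ H) (n : FreeGroup S) (g : G) : hol φ x n g ∈ H := by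
  induction n using FreeGroup.induction_on generalizing g with
  | C1 => simp
  | of s => simpa using hx g s
  | inv_of s ih => rw [hol_inv]; exact H.inv_mem (ih _)
  | mul a b iha ihb => rw [hol_mul]; exact H.mul_mem (iha _) (ihb _)

lemma exists_len {G S : Type} [Group G] (φ : S → G) (n : FreeGroup S) :
    ∃ C : ℝ, 0 ≤ C ∧ ∀ (x : G → S → ℍˣ) (ε : ℝ), (∀ g s, x g s ∈ Un) → (∀ g s, dv (x g s) ≤ ε) →
      ∀ g, dv (hol φ x n g) ≤ C * ε := by
  induction n using FreeGroup.induction_on with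
  | C1 => exact ⟨0, le_rfl, fun x ε _ _ g => by simp⟩
  | of s => exact ⟨1, zero_le_one, fun x ε _ h g => by simpa using h g s⟩
  | inv_of s ih =>
    obtain ⟨C, hC, h⟩ := ih
    exact ⟨C, hC, fun x ε hu hx g => by
      rw [hol_inv, dv_inv (hol_mem φ Un hu _ _)]; exact h x ε hu hx _⟩
  | mul a b iha ihb =>
    obtain ⟨C, hC, h⟩ := iha
    obtain ⟨C', hC', h'⟩ := ihb
    refine ⟨C + C', add_nonneg hC hC', fun x ε hu hx g => ?_⟩
    rw [hol_mul, add_mul]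
    exact (dv_mul (hol_mem φ Un hu _ _) _).trans (add_le_add (h x ε hu hx _) (h' x ε hu hx _))

section
variable {G S R R₀ : Type} [Group G] (φ : S → G) (a : R₀ → S) (v : R → FreeGroup S)

/-- Local hypotheses: the equations hold and the slack letters are small near `g`. -/
def Hyp (B : Finset G) (Rf : Finset R) (x : G → S → ℍˣ) (g : G) (δ : ℝ) : Prop :=
  (∀ g s, x g s ∈ Un) ∧ 0 ≤ δ ∧ (∀ r ∈ Rf, ∀ g, hol φ x (v r) g = 1) ∧
    ∀ b ∈ B, ∀ e, dv (x (g * b) (a e)) ≤ δ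

variable {φ a v} in
lemma Hyp.mono {B B' : Finset G} {Rf Rf' : Finset R} {x : G → S → ℍˣ} {g : G} {δ : ℝ}
    (h : Hyp φ a v B' Rf' x g δ) (hB : B ⊆ B') (hR : Rf ⊆ Rf') : Hyp φ a v B Rf x g δ :=
  ⟨h.1, h.2.1, fun r hr => h.2.2.1 r (hR hr), fun b hb => h.2.2.2 b (hB hb)⟩

/-- Closed words whose holonomy is `O(δ^k)`. -/
def Est (k : ℕ) : Subgroup (FreeGroup S) where
  carrier := {n | ev φ n = 1 ∧ ∃ (B : Finset G) (Rf : Finset R) (C : ℝ), 0 ≤ C ∧
    ∀ x g δ, Hyp φ a v B Rf x g δ → dv (hol φ x n g) ≤ C * δ ^ k}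
  one_mem' := ⟨map_one _, ∅, ∅, 0, le_rfl, fun x g δ _ => by simp⟩
  mul_mem' := by
    classical
    rintro n n' ⟨h1, B, Rf, C, hC, h⟩ ⟨h1', B', Rf', C', hC', h'⟩
    refine ⟨by simp [h1, h1'], B ∪ B', Rf ∪ Rf', C + C', add_nonneg hC hC', fun x g δ hx => ?_⟩
    rw [hol_mul, h1, mul_one, add_mul]
    exact (dv_mul (hol_mem φ Un hx.1 _ _) _).trans (add_le_add
      (h x g δ (hx.mono Finset.subset_union_left Finset.subset_union_left))
      (h' x g δ (hx.mono Finset.subset_union_right Finset.subset_union_right)))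
  inv_mem' := by
    rintro n ⟨h1, B, Rf, C, hC, h⟩
    refine ⟨by simp [h1], B, Rf, C, hC, fun x g δ hx => ?_⟩
    rw [hol_inv, h1, inv_one, mul_one, dv_inv (hol_mem φ Un hx.1 _ _)]
    exact h x g δ hx

instance (k : ℕ) : (Est φ a v k).Normal where
  conj_mem := by
    classical
    rintro n ⟨h1, B, Rf, C, hC, h⟩ u
    refine ⟨by simp [h1], B.image (ev φ u * ·), Rf, C, hC, fun x g δ hx => ?_⟩
    rw [hol_conj φ x u n h1, dv_conj (hol_mem φ Un hx.1 _ _)]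
    refine h x _ δ ⟨hx.1, hx.2.1, hx.2.2.1, fun b hb e => ?_⟩
    rw [mul_assoc]
    exact hx.2.2.2 _ (Finset.mem_image_of_mem _ hb) e

variable {φ a v}

lemma v_mem (hv : ∀ r, ev φ (v r) = 1) (k : ℕ) (r : R) : v r ∈ Est φ a v k :=
  ⟨hv r, ∅, {r}, 0, le_rfl, fun x g δ hx => by
    rw [hx.2.2.1 r (Finset.mem_singleton_self r)]; simp⟩

lemma est1 (ha : ∀ e, φ (a e) = 1) (hv : ∀ r, ev φ (v r) = 1) :
    Subgroup.normalClosure (range v ∪ range fun e => FreeGroup.of (a e)) ≤ Est φ a v 1 := by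
  refine Subgroup.normalClosure_le_normal ?_
  rintro _ (⟨r, rfl⟩ | ⟨e, rfl⟩)
  · exact v_mem hv 1 r
  · refine ⟨by simp [ha], {1}, ∅, 1, zero_le_one, fun x g δ hx => ?_⟩
    simpa using hx.2.2.2 1 (Finset.mem_singleton_self _) e

lemma est2 (hv : ∀ r, ev φ (v r) = 1) (h1 : (ev φ).ker ≤ Est φ a v 1) :
    Subgroup.normalClosure (range v) ⊔ ⁅(ev φ).ker, (ev φ).ker⁆ ≤ Est φ a v 2 := by
  classical
  refine sup_le (Subgroup.normalClosure_le_normal ?_) (Subgroup.commutator_le.2 ?_)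
  · rintro _ ⟨r, rfl⟩; exact v_mem hv 2 r
  · intro n hn n' hn'
    obtain ⟨e1, B, Rf, C, hC, h⟩ := h1 hn
    obtain ⟨e1', B', Rf', C', hC', h'⟩ := h1 hn'
    refine ⟨by simp [commutatorElement_def, e1, e1'], B ∪ B', Rf ∪ Rf', 2 * C * C',
      by positivity, fun x g δ hx => ?_⟩
    have h2 := h x g δ (hx.mono Finset.subset_union_left Finset.subset_union_left)
    have h3 := h' x g δ (hx.mono Finset.subset_union_right Finset.subset_union_right)
    simp only [commutatorElement_def, hol_mul, hol_inv, map_mul, map_inv, e1, e1', mul_one, inv_one]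
    refine (dv_comm (hol_mem φ Un hx.1 _ _) (hol_mem φ Un hx.1 _ _)).trans ?_
    have := mul_le_mul h2 h3 (dv_nonneg _) ((dv_nonneg _).trans h2)
    have h4 : 2 * C * C' * δ ^ 2 = 2 * (C * δ ^ 1 * (C' * δ ^ 1)) := by ring
    rw [h4, mul_assoc]; linarith

/-- The gap inequality. -/
lemma gap [Finite R₀] (w : R₀ → FreeGroup S) (hw : ∀ e, ev φ (w e) = 1)
    (h : ∀ e, w e * FreeGroup.of (a e) ∈ Est φ a v 2) :
    ∃ (B : Finset G) (Rf : Finset R) (C : ℝ), 0 ≤ C ∧ ∀ x g δ, Hyp φ a v B Rf x g δ →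
      ∀ e, dv (x g (a e)) ≤ dv (hol φ x (w e) g) + C * δ ^ 2 := by
  classical
  have := Fintype.ofFinite R₀
  choose B Rf C hC hh using fun e => (h e).2
  refine ⟨Finset.univ.biUnion B, Finset.univ.biUnion Rf, ∑ e, C e,
    Finset.sum_nonneg fun e _ => hC e, fun x g δ hx e => ?_⟩
  have h1 := hh e x g δ (hx.mono (Finset.subset_biUnion_of_mem B (Finset.mem_univ e))
    (Finset.subset_biUnion_of_mem Rf (Finset.mem_univ e)))
  rw [hol_mul, hw, mul_one, hol_of] at h1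
  have hu := hol_mem φ Un hx.1 (w e) g
  have h2 := dv_mul (Un.inv_mem hu) (hol φ x (w e) g * x g (a e))
  rw [inv_mul_cancel_left, dv_inv hu] at h2
  have h3 : C e * δ ^ 2 ≤ (∑ e, C e) * δ ^ 2 :=
    mul_le_mul_of_nonneg_right (Finset.single_le_sum (fun e _ => hC e) (Finset.mem_univ e))
      (sq_nonneg δ)
  linarith

/-- Geometric decay inside a flat region. -/
lemma decay (w : R₀ → FreeGroup S) {B₀ : Finset G} {Rf : Finset R} {C δ₀ : ℝ} (hδ : 0 ≤ δ₀)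
    (hC0 : 0 ≤ C) (hC : C * δ₀ ≤ 1 / 4)
    (h : ∀ x g δ, Hyp φ a v B₀ Rf x g δ → ∀ e, dv (x g (a e)) ≤ dv (hol φ x (w e) g) + C * δ ^ 2)
    (j : ℕ) (B : Finset G) : ∃ B' : Finset G, ∀ x : G → S → ℍˣ, (∀ g s, x g s ∈ Un) →
      (∀ r ∈ Rf, ∀ g, hol φ x (v r) g = 1) → (∀ g e, dv (x g (a e)) ≤ δ₀) →
      (∀ b ∈ B', ∀ e, hol φ x (w e) b = 1) → ∀ b ∈ B, ∀ e, dv (x b (a e)) ≤ δ₀ * (1 / 4) ^ j := by
  classical
  induction j generalizing B with
  | zero => exact ⟨∅, fun x _ _ h0 _ b _ e => by simpa using h0 b e⟩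
  | succ j ih =>
    obtain ⟨B', hB'⟩ := ih (Finset.image₂ (· * ·) B B₀)
    refine ⟨B ∪ B', fun x hu hv h0 hw b hb e => ?_⟩
    have h1 := hB' x hu hv h0 fun b hb => hw b (Finset.mem_union_right _ hb)
    have h2 := h x b (δ₀ * (1 / 4) ^ j) ⟨hu, by positivity, hv,
      fun b' hb' e => h1 _ (Finset.mem_image₂_of_mem hb hb') e⟩ e
    rw [hw b (Finset.mem_union_left _ hb), dv_one, zero_add] at h2
    refine h2.trans ?_
    have h3 : (1 / 4 : ℝ) ^ j ≤ 1 := pow_le_one₀ (by norm_num) (by norm_num)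
    have h4 : 0 ≤ δ₀ * (1 / 4 : ℝ) ^ j := by positivity
    have h5 : C * (δ₀ * (1 / 4 : ℝ) ^ j) ≤ 1 / 4 := by
      rw [← mul_assoc]
      exact (mul_le_of_le_one_right (mul_nonneg hC0 hδ) h3).trans hC
    calc C * (δ₀ * (1 / 4) ^ j) ^ 2 = C * (δ₀ * (1 / 4 : ℝ) ^ j) * (δ₀ * (1 / 4) ^ j) := by ring
      _ ≤ 1 / 4 * (δ₀ * (1 / 4) ^ j) := mul_le_mul_of_nonneg_right h5 h4
      _ = δ₀ * (1 / 4) ^ (j + 1) := by ring

end

/-- A finite quotient that is injective on a finite set. -/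
lemma exists_quot (G : Type) [Group G] [Group.ResiduallyFinite G] (B : Finset G) :
    ∃ (Q : Type) (_ : Group Q) (_ : Finite Q) (pr : G →* Q), Surjective pr ∧ InjOn pr B := by
  classical
  have h : ∀ p : B × B, ∃ H : Subgroup G, H.Normal ∧ H.FiniteIndex ∧
      ((p.1 : G)⁻¹ * p.2 ∈ H → (p.1 : G) = p.2) := by
    intro p
    by_cases hp : (p.1 : G)⁻¹ * p.2 = 1
    · exact ⟨⊤, inferInstance, inferInstance, fun _ => inv_mul_eq_one.1 hp⟩
    · obtain ⟨H, hH⟩ := Group.exists_finiteIndexNormalSubgroup_notMem _ hp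
      exact ⟨H.toSubgroup, inferInstance, inferInstance, fun h => absurd h hH⟩
  choose H hN hF hH using h
  have : (iInf H).Normal := Subgroup.normal_iInf_normal hN
  have : (iInf H).FiniteIndex := Subgroup.finiteIndex_iInf hF
  refine ⟨G ⧸ iInf H, inferInstance, inferInstance, QuotientGroup.mk' _,
    QuotientGroup.mk'_surjective _, fun b hb b' hb' h => ?_⟩
  exact hH (⟨b, hb⟩, ⟨b', hb'⟩) (Subgroup.mem_iInf.1 (QuotientGroup.eq.1 h) _)

end Crest.Agent.R197.FN
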