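import Crest.Agent.R197.FinA

/-!
# R197 FIN, part B: solving a unimodular system over a finite group by the parity principle
-/

set_option autoImplicit false

noncomputable section

namespace Crest.Agent.R197.FN

open Function Quaternion Set

/-- A non-zero quaternion as a unit. -/
def un (q : ℍ) : ℍˣ := by classical exact if h : q = 0 then 1 else Units.mk0 q h

lemma un_val {q : ℍ} (h : q ≠ 0) : (un q : ℍ) = q := by simp [un, h]

lemma un_one : un 1 = 1 := Units.ext (un_val one_ne_zero)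

/-- The quaternion `i`. -/
def qi : ℍ := ⟨0, 1, 0, 0⟩

@[simp] lemma qi_re : qi.re = 0 := rfl
@[simp] lemma qi_imI : qi.imI = 1 := rfl
@[simp] lemma qi_imJ : qi.imJ = 0 := rfl
@[simp] lemma qi_imK : qi.imK = 0 := rfl

lemma qi_mul : qi * -qi = 1 := by ext <;> simp
lemma mul_qi : -qi * qi = 1 := by ext <;> simp

/-- `i` as a unit. -/
def ui : ℍˣ := ⟨qi, -qi, qi_mul, mul_qi⟩

lemma ui_mem : ui ∈ Un := by
  rw [mem_Un]
  change ‖qi‖ = 1
  have : ‖qi‖ * ‖qi‖ = 1 := by rw [← Quaternion.normSq_eq_norm_mul_self]; simp [normSq_def']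
  nlinarith [norm_nonneg qi]

/-- Conjugation by `i`. -/
def cq : ℍ →L[ℝ] ℍ := ContinuousLinearMap.mulLeftRight ℝ ℍ qi (-qi)

lemma cq_apply (q : ℍ) : cq q = ⟨q.re, q.imI, -q.imJ, -q.imK⟩ := by
  change qi * q * -qi = _
  ext <;> simp

lemma cq_cq (q : ℍ) : cq (cq q) = q := by rw [cq_apply, cq_apply]; ext <;> simp

lemma cq_one : cq 1 = 1 := by rw [cq_apply]; ext <;> simp

lemma val_conj (u : ℍˣ) : ((MulAut.conj ui u : ℍˣ) : ℍ) = cq u := rfl

lemma norm_cq (q : ℍ) : ‖cq q‖ = ‖q‖ := by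
  have h : ‖qi‖ = 1 := ui_mem
  simp [cq, norm_mul, h]

lemma exists_complex {q : ℍ} (h : cq q = q) : ∃ w : ℂ, Quaternion.ofComplex w = q := by
  rw [cq_apply] at h
  have h1 := congrArg QuaternionAlgebra.imJ h
  have h2 := congrArg QuaternionAlgebra.imK h
  simp only at h1 h2
  refine ⟨⟨q.re, q.imI⟩, ?_⟩
  ext <;> simp [Quaternion.coe_ofComplex] <;> linarith

section fn
variable {W : Type}

/-- Continuous unit-valued functions. -/
def Ct [TopologicalSpace W] (A : Set W) : Subgroup (W → ℍˣ) where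
  carrier := {f | ContinuousOn (fun z => (f z : ℍ)) A}
  one_mem' := continuousOn_const
  mul_mem' ha hb := ContinuousOn.mul ha hb
  inv_mem' {f} hf := by
    simpa [Pi.inv_def] using ContinuousOn.inv₀ hf fun z _ => (f z).ne_zero

variable [NormedAddCommGroup W] [NormedSpace ℝ W]

/-- Smooth unit-valued functions. -/
def Sm (A : Set W) : Subgroup (W → ℍˣ) where
  carrier := {f | ContDiffOn ℝ 1 (fun z => (f z : ℍ)) A}
  one_mem' := contDiffOn_const
  mul_mem' ha hb := ContDiffOn.mul ha hb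
  inv_mem' {f} hf := by
    intro z hz
    have := (contDiffAt_ringInverse ℝ (n := 1) (f z)).comp_contDiffWithinAt z (hf z hz)
    simpa [Function.comp_def] using this

/-- Functions differentiable at `z₀` with value one. -/
def Dv (z₀ : W) : Subgroup (W → ℍˣ) where
  carrier := {f | f z₀ = 1 ∧ DifferentiableAt ℝ (fun z => (f z : ℍ)) z₀}
  one_mem' := ⟨rfl, differentiableAt_const _⟩
  mul_mem' {f g} hf hg := ⟨by simp [hf.1, hg.1], DifferentiableAt.mul hf.2 hg.2⟩
  inv_mem' {f} hf := ⟨by simp [hf.1], by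
    have := hf.2.inv (f z₀).ne_zero
    simp only [Pi.inv_apply, Units.val_inv_eq_inv_val]
    exact this⟩

/-- The derivative is additive on `Dv`. -/
def dvHom (z₀ : W) : Dv z₀ →* Multiplicative (W →L[ℝ] ℍ) :=
  MonoidHom.mk' (fun f => Multiplicative.ofAdd (fderiv ℝ (fun z => (f.1 z : ℍ)) z₀)) (by
    rintro ⟨f, hf⟩ ⟨g, hg⟩
    rw [← ofAdd_add]
    congr 1
    have := (hf.2.hasFDerivAt.mul' hg.2.hasFDerivAt).fderiv
    simp only [hf.1, hg.1, Units.val_one, one_smul, MulOpposite.op_one] at this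
    rw [add_comm]
    exact this)

end fn

lemma hol_apply {G S U W : Type} [Group G] [Group U] (φ : S → G) (x : G → S → W → U)
    (n : FreeGroup S) (g : G) (z : W) : hol φ x n g z = hol φ (fun g s => x g s z) n g :=
  hol_map φ x (Pi.evalMonoidHom (fun _ => U) z) n g

section
variable {Q S₀ T J R₀ : Type} [Group Q] [Fintype J] (φ : S₀ ⊕ T → Q) (Kb : J → Q → T → ℤ)

/-- The substitution. -/
def sub {U : Type} [Group U] (ζ : J → U) (g : Q) (t : T) : U :=
  ((Finset.univ : Finset J).toList.map fun j => ζ j ^ Kb j g t).prod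

/-- All labels. -/
def lab {U : Type} [Group U] (ρ : Q → S₀ → U) (ζ : J → U) (g : Q) : S₀ ⊕ T → U :=
  Sum.elim (ρ g) (sub Kb ζ g)

omit [Group Q] in
lemma sub_map {U U' : Type} [Group U] [Group U'] (F : U →* U') (ζ : J → U) (g : Q) (t : T) :
    F (sub Kb ζ g t) = sub Kb (fun j => F (ζ j)) g t := by
  simp [sub, map_list_prod, List.map_map, Function.comp_def]

omit [Group Q] in
lemma sub_mem {U : Type} [Group U] (H : Subgroup U) {ζ : J → U} (h : ∀ j, ζ j ∈ H) (g : Q)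
    (t : T) : sub Kb ζ g t ∈ H := by
  refine H.list_prod_mem fun x hx => ?_
  obtain ⟨j, -, rfl⟩ := List.mem_map.1 hx
  exact H.zpow_mem (h j) _

lemma hol_lab_map {U U' : Type} [Group U] [Group U'] (F : U →* U') (ρ : Q → S₀ → U) (ζ : J → U)
    (n : FreeGroup (S₀ ⊕ T)) (g : Q) :
    F (hol φ (lab Kb ρ ζ) n g) = hol φ (lab Kb (fun g s => F (ρ g s)) fun j => F (ζ j)) n g := by
  rw [hol_map]
  congr 1
  funext g s
  cases s with
  | inl s => rfl
  | inr t => exact sub_map Kb F ζ g t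

lemma hol_lab_mem {U : Type} [Group U] (H : Subgroup U) {ρ : Q → S₀ → U} {ζ : J → U}
    (hρ : ∀ g s, ρ g s ∈ H) (h : ∀ j, ζ j ∈ H) (n : FreeGroup (S₀ ⊕ T)) (g : Q) :
    hol φ (lab Kb ρ ζ) n g ∈ H := by
  refine hol_mem φ H (fun g s => ?_) n g
  cases s with
  | inl s => exact hρ g s
  | inr t => exact sub_mem Kb H h g t

lemma hol_lab_comm {U : Type} [CommGroup U] (ζ : J → U) (n : FreeGroup (S₀ ⊕ T)) (g : Q) :
    hol φ (lab Kb (fun _ _ => 1) ζ) n g = ∏ j, ζ j ^ Finsupp.linearCombination ℤ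
      (fun p : Q × (S₀ ⊕ T) => Sum.elim (fun _ => 0) (Kb j p.1) p.2) (D φ n g) := by
  induction n using FreeGroup.induction_on generalizing g with
  | C1 => simp
  | of s => cases s <;> simp [lab, sub]
  | inv_of s ih => rw [hol_inv, D_inv, ih]; simp
  | mul a b iha ihb => rw [hol_mul, D_mul, iha, ihb]; simp [zpow_add, Finset.prod_mul_distrib]

theorem solve (hD : DegStmt) [DecidableEq J] [Finite Q] [Finite R₀] (vj : J → FreeGroup (S₀ ⊕ T))
    (gj : J → Q)
    (hK : ∀ j j', Finsupp.linearCombination ℤ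
      (fun p : Q × (S₀ ⊕ T) => Sum.elim (fun _ => 0) (Kb j p.1) p.2) (D φ (vj j') (gj j')) =
        if j = j' then 1 else 0)
    (ρ : ℝ → Q → S₀ → ℍˣ) (hρu : ∀ s ∈ Icc (0 : ℝ) 1, ∀ g t, ρ s g t ∈ Un)
    (hρc : ∀ g t, ContinuousOn (fun s => (ρ s g t : ℍ)) (Icc 0 1)) (hρ0 : ∀ g t, ρ 0 g t = 1)
    (a : R₀ → T) {δ₀ : ℝ} (hδ : 0 < δ₀)
    (hgap : ∀ s ∈ Icc (0 : ℝ) 1, ∀ x : Q → T → ℍˣ, (∀ g t, x g t ∈ Un) →
      (∀ j, hol φ (fun g => Sum.elim (ρ s g) (x g)) (vj j) (gj j) = 1) →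
      (∀ g e, dv (x g (a e)) ≤ δ₀) → ∀ g e, dv (x g (a e)) < δ₀) :
    ∃ x : Q → T → ℍˣ, (∀ g t, x g t ∈ Un) ∧
      (∀ j, hol φ (fun g => Sum.elim (ρ 1 g) (x g)) (vj j) (gj j) = 1) ∧
      ∀ g e, dv (x g (a e)) ≤ δ₀ := by
  have hcomm : ∀ (U : Type) [CommGroup U] (ζ : J → U) (j : J),
      hol φ (lab Kb (fun _ _ => 1) ζ) (vj j) (gj j) = ζ j := by
    intro U _ ζ j
    rw [hol_lab_comm]
    simp [hK]
  let u : (J → ℍ) → J → ℍˣ := fun z j => un (z j)
  let H : ℝ → (J → ℍ) → J → ℍ := fun s z j =>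
    ((hol φ (lab Kb (ρ s) (u z)) (vj j) (gj j) : ℍˣ) : ℍ) - 1
  let τ : (J → ℍ) →L[ℝ] (J → ℍ) :=
    ContinuousLinearMap.pi fun j => cq.comp (ContinuousLinearMap.proj j)
  have hτ : ∀ z j, τ z j = cq (z j) := fun z j => rfl
  let O : Set (J → ℍ) := {z | ∀ j, z j ≠ 0}
  let K₀ : Set (J → ℍ) := {z | ∀ j, 1 / 2 ≤ ‖z j‖ ∧ ‖z j‖ ≤ 2}
  let Ω₀ : Set (J → ℍ) := {z | ∀ j, 1 / 2 < ‖z j‖ ∧ ‖z j‖ < 2}
  let K : Set (J → ℍ) := K₀ ∩ {z | ∀ g e, dv (sub Kb (u z) g (a e)) ≤ δ₀}
  let Ω : Set (J → ℍ) := Ω₀ ∩ {z | ∀ g e, dv (sub Kb (u z) g (a e)) < δ₀}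
  have hO : IsOpen O := by
    simp only [O, ofPred_forall]
    exact isOpen_iInter_of_finite fun j => isOpen_ne.preimage (continuous_apply j)
  have hK₀O : K₀ ⊆ O := fun z hz j h => by have := (hz j).1; rw [h, norm_zero] at this; linarith
  have hΩ₀K : Ω₀ ⊆ K₀ := fun z hz j => ⟨(hz j).1.le, (hz j).2.le⟩
  have hK₀c : IsClosed K₀ := by
    simp only [K₀, ofPred_forall]
    exact isClosed_iInter fun j => (isClosed_le continuous_const (continuous_apply j).norm).inter
      (isClosed_le (continuous_apply j).norm continuous_const)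
  have hK₀ : IsCompact K₀ := (isCompact_closedBall (0 : J → ℍ) 2).of_isClosed_subset hK₀c
    fun z hz => mem_closedBall_zero_iff.2 ((pi_norm_le_iff_of_nonneg (by norm_num)).2
      fun j => (hz j).2)
  have hΩ₀ : IsOpen Ω₀ := by
    simp only [Ω₀, ofPred_forall]
    exact isOpen_iInter_of_finite fun j =>
      (isOpen_lt continuous_const (continuous_apply j).norm).inter
      (isOpen_lt (continuous_apply j).norm continuous_const)
  have huC : ∀ j, (fun z => u z j) ∈ Ct O := fun j =>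
    (continuous_apply j).continuousOn.congr fun z hz => un_val (hz j)
  have hsubC : ∀ g t, ContinuousOn (fun z => dv (sub Kb (u z) g t)) O := by
    intro g t
    have h : sub Kb (fun j z => u z j) g t ∈ Ct O := sub_mem Kb _ huC g t
    have h2 : ContinuousOn (fun z => ((sub Kb (u z) g t : ℍˣ) : ℍ)) O :=
      ContinuousOn.congr h fun z _ => congrArg Units.val
        (sub_map Kb (Pi.evalMonoidHom (fun _ => ℍˣ) z) (fun j z => u z j) g t).symm
    exact (h2.sub continuousOn_const).norm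
  have hKc : IsCompact K := by
    refine hK₀.of_isClosed_subset ?_ inter_subset_left
    have : K = K₀ ∩ ⋂ g, ⋂ e, K₀ ∩ (fun z => dv (sub Kb (u z) g (a e))) ⁻¹' Iic δ₀ := by
      ext z
      simp only [K, mem_inter_iff, mem_ofPred_eq, mem_iInter, mem_preimage, mem_Iic]
      exact and_congr_right fun h => by simp [h]
    rw [this]
    exact hK₀c.inter (isClosed_iInter fun g => isClosed_iInter fun e =>
      ((hsubC g (a e)).mono hK₀O).preimage_isClosed_of_isClosed hK₀c isClosed_Iic)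
  have hΩ : IsOpen Ω := by
    have : Ω = Ω₀ ∩ ⋂ g, ⋂ e, Ω₀ ∩ (fun z => dv (sub Kb (u z) g (a e))) ⁻¹' Iio δ₀ := by
      ext z
      simp only [Ω, mem_inter_iff, mem_ofPred_eq, mem_iInter, mem_preimage, mem_Iio]
      exact and_congr_right fun h => by simp [h]
    rw [this]
    exact hΩ₀.inter (isOpen_iInter_of_finite fun g => isOpen_iInter_of_finite fun e =>
      ((hsubC g (a e)).mono (hΩ₀K.trans hK₀O)).isOpen_inter_preimage hΩ₀ isOpen_Iio)
  have hΩK : Ω ⊆ K := fun z hz => ⟨hΩ₀K hz.1, fun g e => (hz.2 g e).le⟩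
  -- zeros have unit coordinates
  have hzero : ∀ s ∈ Icc (0 : ℝ) 1, ∀ z ∈ O, H s z = 0 →
      (∀ j, hol φ (lab Kb (ρ s) (u z)) (vj j) (gj j) = 1) ∧ ∀ j, ‖z j‖ = 1 := by
    intro s hs z hz h
    have h1 : ∀ j, hol φ (lab Kb (ρ s) (u z)) (vj j) (gj j) = 1 := fun j =>
      Units.ext (sub_eq_zero.1 (congrFun h j))
    refine ⟨h1, fun j => ?_⟩
    let F : ℍˣ →* ℝˣ := Units.map (normHom (α := ℍ)).toMonoidHom
    have h2 := hol_lab_map φ Kb F (ρ s) (u z) (vj j) (gj j)
    have h3 : (fun g t => F (ρ s g t)) = fun _ _ => 1 := by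
      funext g t
      exact Units.ext (hρu s hs g t)
    rw [h1, map_one, h3, hcomm] at h2
    have h4 : ‖(un (z j) : ℍ)‖ = 1 := (congrArg Units.val h2).symm
    rwa [un_val (hz j)] at h4
  have hunit : ∀ z ∈ O, (∀ j, ‖z j‖ = 1) → ∀ g t, sub Kb (u z) g t ∈ Un := fun z hz h g t =>
    sub_mem Kb _ (fun j => by rw [mem_Un, un_val (hz j), h j]) g t
  have hρ0' : ρ 0 = fun _ _ => 1 := funext fun g => funext fun t => hρ0 g t
  have huτ : ∀ z ∈ O, u (τ z) = fun j => MulAut.conj ui (u z j) := by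
    intro z hz
    funext j
    refine Units.ext ?_
    rw [val_conj, un_val (hz j), un_val, hτ]
    rw [hτ, ← norm_ne_zero_iff, norm_cq, norm_ne_zero_iff]
    exact hz j
  suffices main : ∃ z ∈ Ω, H 1 z = 0 by
    obtain ⟨z, hz, h⟩ := main
    have hzO := hK₀O (hΩK hz).1
    obtain ⟨h1, h2⟩ := hzero 1 ⟨zero_le_one, le_rfl⟩ z hzO h
    exact ⟨sub Kb (u z), hunit z hzO h2, h1, (hΩK hz).2⟩
  refine hD (J → ℍ) τ O K Ω H 1 (fun z => funext fun j => cq_cq (z j)) hO hKc hΩ hΩK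
    (inter_subset_left.trans hK₀O) ?_ ?_ ?_ ?_ ?_ ?_ ?_ (funext fun j => cq_one) ?_
  · intro s _
    refine contDiffOn_pi.2 fun j => ContDiffOn.sub ?_ contDiffOn_const
    have := hol_lab_mem φ Kb (Sm O) (ρ := fun g t _ => ρ s g t) (ζ := fun j z => u z j)
      (fun g t => contDiffOn_const)
      (fun j => (contDiff_apply ℝ ℍ j).contDiffOn.congr fun z hz => un_val (hz j)) (vj j) (gj j)
    exact ContDiffOn.congr this fun z _ => congrArg Units.val
      (hol_lab_map φ Kb (Pi.evalMonoidHom (fun _ => ℍˣ) z) (fun g t _ => ρ s g t)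
        (fun j z => u z j) _ _).symm
  · refine continuousOn_pi.2 fun j => ContinuousOn.sub ?_ continuousOn_const
    have := hol_lab_mem φ Kb (Ct (Icc (0 : ℝ) 1 ×ˢ K)) (ρ := fun g t p => ρ p.1 g t)
      (ζ := fun j p => u p.2 j)
      (fun g t => (hρc g t).comp continuousOn_fst fun p hp => hp.1)
      (fun j => ContinuousOn.comp (g := fun z => ((u z j : ℍˣ) : ℍ)) (huC j) continuousOn_snd
        fun p hp => hK₀O hp.2.1) (vj j) (gj j)
    exact ContinuousOn.congr this fun z _ => congrArg Units.val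
      (hol_lab_map φ Kb (Pi.evalMonoidHom (fun _ => ℍˣ) z) (fun g t p => ρ p.1 g t)
        (fun j p => u p.2 j) _ _).symm
  · intro s hs z hz h
    obtain ⟨h1, h2⟩ := hzero s hs z (hK₀O hz.1) h
    refine ⟨fun j => by rw [h2 j]; norm_num, ?_⟩
    exact hgap s hs _ (hunit z (hK₀O hz.1) h2) h1 hz.2
  · intro z hz
    have hzO := hK₀O (hΩK hz).1
    refine ⟨fun j => by rw [hτ, norm_cq]; exact hz.1 j, fun g e => ?_⟩
    rw [huτ z hzO]
    exact (congrArg dv (sub_map Kb (MulAut.conj ui).toMonoidHom (u z) g (a e)).symm).trans_lt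
      ((dv_conj ui_mem _).trans_lt (hz.2 g e))
  · intro z hz
    have hzO := hK₀O (hΩK hz).1
    funext j
    have := hol_lab_map φ Kb (MulAut.conj ui).toMonoidHom (fun _ _ => 1) (u z) (vj j) (gj j)
    simp only [map_one, MulEquiv.coe_toMonoidHom] at this
    simp only [H, hτ, map_sub, cq_one, hρ0', huτ z hzO, ← this, val_conj]
  · refine ⟨fun j => by norm_num, fun g e => ?_⟩
    have : sub Kb (u 1) g (a e) ∈ (⊥ : Subgroup ℍˣ) := sub_mem Kb _ (fun j => un_one) _ _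
    rw [Subgroup.mem_bot.1 this, dv_one]; exact hδ
  · intro z hz hfix
    have hzO := hK₀O (hΩK hz).1
    have hfix' : ∀ j, cq (z j) = z j := fun j => (hτ z j).symm.trans (congrFun hfix j)
    choose w hw using fun j => exists_complex (hfix' j)
    have hw0 : ∀ j, w j ≠ 0 := fun j h => hzO j (by rw [← hw, h, map_zero])
    let F : ℂˣ →* ℍˣ := Units.map (Quaternion.ofComplex : ℂ →ₐ[ℝ] ℍ).toRingHom.toMonoidHom
    have hu : u z = fun j => F (Units.mk0 (w j) (hw0 j)) := by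
      funext j
      exact Units.ext ((un_val (hzO j)).trans (hw j).symm)
    have hH : H 0 z = z - 1 := by
      funext j
      have := hol_lab_map φ Kb F (fun _ _ => 1) (fun j => Units.mk0 (w j) (hw0 j)) (vj j) (gj j)
      simp only [map_one, hcomm] at this
      simp only [H, hρ0', hu, ← this, Pi.sub_apply, Pi.one_apply, ← hw j]
      rfl
    rw [hH, sub_eq_zero]
  · refine hasFDerivAt_pi'' fun j => ?_
    have h1 : ∀ j, HasFDerivAt (fun z => ((u z j : ℍˣ) : ℍ))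
        (ContinuousLinearMap.proj (R := ℝ) (φ := fun _ : J => ℍ) j) 1 := fun j =>
      (ContinuousLinearMap.proj (R := ℝ) (φ := fun _ : J => ℍ) j).hasFDerivAt.congr_of_eventuallyEq
        (Filter.mem_of_superset (hO.mem_nhds fun _ => one_ne_zero) fun z hz => un_val (hz j))
    let ζ : J → Dv (1 : J → ℍ) := fun j => ⟨fun z => u z j, un_one, (h1 j).differentiableAt⟩
    have h2 := hol_lab_map φ Kb (dvHom 1) (fun _ _ => 1) ζ (vj j) (gj j)
    simp only [map_one, hcomm] at h2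
    have h3 := (hol φ (lab Kb (fun _ _ => 1) ζ) (vj j) (gj j)).2.2.hasFDerivAt
    have h4 : fderiv ℝ (fun z => (((hol φ (lab Kb (fun _ _ => 1) ζ) (vj j) (gj j)).1 z : ℍˣ) : ℍ))
        1 = ContinuousLinearMap.proj (R := ℝ) (φ := fun _ : J => ℍ) j :=
      (Multiplicative.ofAdd.injective h2).trans (h1 j).fderiv
    rw [h4] at h3
    have h5 : ∀ z, (hol φ (lab Kb (fun _ _ => 1) ζ) (vj j) (gj j)).1 z =
        hol φ (lab Kb (ρ 0) (u z)) (vj j) (gj j) := fun z => by
      rw [hρ0']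
      exact hol_lab_map φ Kb ((Pi.evalMonoidHom (fun _ => ℍˣ) z).comp (Dv (1 : J → ℍ)).subtype)
        _ _ _ _
    simp only [h5] at h3
    exact h3.sub_const 1

end

end Crest.Agent.R197.FN
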