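import Crest.Agent.R197.LDataA

/-! An acyclic flag 2-complex with a non-trivial quaternion labelling. -/

set_option autoImplicit false

noncomputable section

namespace Crest.Agent.R197

open Quaternion

namespace LD

/-- the graph -/
def L : SimpleGraph (Fin 21) where
  Adj u v := adj u v = true
  symm := ⟨adj_symm⟩
  loopless := ⟨adj_irrefl⟩

theorem dim2 : Dim2 L := fun σ hσ => by
  have := Finset.card_le_card_of_injOn (s := σ) (t := Finset.univ) rk (fun _ _ => by simp)
    fun u hu v hv h => by_contra fun hne => adj_rk u v (hσ hu hv hne) h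
  simpa using this

theorem near {σ : Finset (Fin 21)} (hσ : L.IsClique (σ : Set (Fin 21))) {u v : Fin 21}
    (hu : u ∈ σ) (hv : v ∈ σ) : u = v ∨ adj u v = true :=
  (em (u = v)).imp id fun h => hσ hu hv h

theorem dec_or (u v t : Fin 21) : dec (2 ^ u.1 ||| 2 ^ v.1 ||| 2 ^ t.1) = {u, v, t} := by
  ext i
  simp [dec, Nat.testBit_two_pow, Fin.val_inj, @eq_comm _ i, or_assoc]

theorem exists_code {σ : Finset (Fin 21)} (hσ : L.IsClique (σ : Set (Fin 21))) :
    ∃ k ∈ codes, σ = dec k := by
  have key : ∀ u v t, σ = {u, v, t} → ∃ k ∈ codes, σ = dec k := fun u v t h =>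
    ⟨_, mem_codes u v (near hσ (by simp [h]) (by simp [h])) t (near hσ (by simp [h]) (by simp [h]))
      (near hσ (by simp [h]) (by simp [h])), by rw [dec_or, h]⟩
  have h3 := dim2 σ hσ
  obtain h | h | h | h : σ.card = 0 ∨ σ.card = 1 ∨ σ.card = 2 ∨ σ.card = 3 := by omega
  · exact ⟨0, zero_mem, by rw [Finset.card_eq_zero.1 h]; simp [dec]⟩
  · obtain ⟨u, h⟩ := Finset.card_eq_one.1 h
    exact key u u u (by simp [h])
  · obtain ⟨u, v, -, h⟩ := Finset.card_eq_two.1 h
    exact key u v v (by simp [h])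
  · obtain ⟨u, v, t, -, -, -, h⟩ := Finset.card_eq_three.1 h
    exact key u v t h

/-- the chain of a list -/
def ev (l : List (ℕ × ℤ)) : Finset (Fin 21) →₀ ℤ :=
  (l.map fun p => p.2 • Finsupp.single (dec p.1) 1).sum

theorem ev_nil : ev [] = 0 := rfl

theorem ev_cons (p : ℕ × ℤ) (l : List (ℕ × ℤ)) :
    ev (p :: l) = p.2 • Finsupp.single (dec p.1) 1 + ev l := by simp [ev]

theorem ev_append (l l' : List (ℕ × ℤ)) : ev (l ++ l') = ev l + ev l' := by simp [ev]

theorem ev_ins (k : ℕ) (c : ℤ) (l : List (ℕ × ℤ)) : ev (ins k c l) = ev ((k, c) :: l) := by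
  induction l with
  | nil => rfl
  | cons p l ih =>
    rw [ins]
    split_ifs with h1 h2
    · rw [ev_cons, ev_cons, ← add_assoc, ← h1, ← add_smul, h2, zero_smul, zero_add]
    · rw [ev_cons, ev_cons, ev_cons, ← add_assoc, ← h1, ← add_smul]
    · rw [ev_cons, ih, ev_cons, ev_cons, ev_cons, add_left_comm]

theorem ev_nf (l : List (ℕ × ℤ)) : ev (nf l) = ev l := by
  induction l with
  | nil => rfl
  | cons p l ih => rw [nf, List.foldr_cons, ev_ins, ev_cons, ev_cons, ← ih]; rfl

theorem ev_scale (c : ℤ) (l : List (ℕ × ℤ)) : ev (l.map fun q => (q.1, c * q.2)) = c • ev l := by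
  induction l with
  | nil => simp [ev]
  | cons p l ih => rw [List.map_cons, ev_cons, ev_cons, ih, smul_add, smul_smul]

theorem map_ev (f : (Finset (Fin 21) →₀ ℤ) →ₗ[ℤ] (Finset (Fin 21) →₀ ℤ))
    (g : ℕ → List (ℕ × ℤ)) (h : ∀ k ∈ codes, f (Finsupp.single (dec k) 1) = ev (g k))
    (l : List (ℕ × ℤ)) (hl : ∀ p ∈ l, p.1 ∈ codes) : f (ev l) = ev (ext g l) := by
  induction l with
  | nil => simp [ev, ext]
  | cons p l ih =>
    rw [ev_cons, map_add, map_smul, h _ (hl p List.mem_cons_self),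
      ih fun q hq => hl q (List.mem_cons_of_mem _ hq), ext, ext, List.flatMap_cons, ev_append,
      ev_scale]

theorem bd_ev (k : ℕ) (hk : k ∈ codes) : bdL (Finsupp.single (dec k) 1) = ev (bdc k) := by
  have := congrArg (fun m : Multiset (Finset (Fin 21) × ℤ) =>
    (m.map fun p => p.2 • Finsupp.single p.1 (1 : ℤ)).sum) (bd_dec k hk)
  simp only [Multiset.map_map, Multiset.map_coe, Multiset.sum_coe, List.map_map] at this
  rw [bdL, Finsupp.linearCombination_single, one_smul]
  exact this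

theorem acyc : LAcyc L := by
  refine ⟨fun σ => ev (Hc (enc σ)), fun σ hσ => ?_⟩
  obtain ⟨k, hk, rfl⟩ := exists_code hσ
  simp only [enc_dec k hk]
  constructor
  · refine list_sum_mem fun x hx => ?_
    obtain ⟨p, hp, rfl⟩ := List.mem_map.1 hx
    obtain ⟨h1, h2⟩ := Hc_mem k hk p hp
    refine Submodule.smul_mem _ _ (Finsupp.single_mem_supported _ _ ⟨fun u hu v hv => ?_, ?_⟩)
    · exact clique_dec _ h1 u (by simpa [dec] using hu) v (by simpa [dec] using hv)
    · rw [card_dec _ h1, card_dec _ hk, h2]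
  · have := congrArg ev (main k hk)
    rw [ev_nf, ev_cons, ev_append, ev_nil, neg_smul, one_smul, neg_add_eq_zero] at this
    rw [bd_ev k hk, map_ev _ bdc bd_ev _ (fun p hp => (Hc_mem k hk p hp).1),
      map_ev _ Hc (fun k hk => by rw [Finsupp.linearCombination_single, one_smul, enc_dec k hk]) _
        (bdc_mem k hk), ← this]

/-- real value -/
def rv (x : Z5) : ℝ := (x.1 + x.2 * √5) / 4

/-- quaternion value -/
def qv (p : Q5) : ℍ := ⟨rv p.1, rv p.2.1, rv p.2.2.1, rv p.2.2.2⟩

theorem rv_mul (x y : Z5) : rv x * rv y = rv (zm x y) / 4 := by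
  have : √5 * √5 = 5 := Real.mul_self_sqrt (by norm_num)
  simp only [rv, zm]
  push_cast
  linear_combination (x.2 * y.2 / 16 : ℝ) * this

theorem rv_add (x y : Z5) : rv (x + y) = rv x + rv y := by simp [rv]; ring

theorem rv_sub (x y : Z5) : rv (x - y) = rv x - rv y := by simp [rv]; ring

theorem rv_four (x : Z5) : rv (4 • x) = 4 * rv x := by simp [rv]; ring

theorem qv_mul {p q r : Q5} (h : qm p q = 4 • r) : qv p * qv q = qv r := by
  have h1 := congrArg (fun x : Q5 => rv x.1) h
  have h2 := congrArg (fun x : Q5 => rv x.2.1) h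
  have h3 := congrArg (fun x : Q5 => rv x.2.2.1) h
  have h4 := congrArg (fun x : Q5 => rv x.2.2.2) h
  simp only [qm, Prod.smul_fst, Prod.smul_snd, rv_add, rv_sub, rv_four] at h1 h2 h3 h4
  ext <;> simp only [qv, re_mul, imI_mul, imJ_mul, imK_mul, rv_mul] <;> linarith

theorem qv_norm {p : Q5} (h : qn p = (16, 0)) : ‖qv p‖ = 1 := by
  have h1 := congrArg rv h
  simp only [qn, rv_add] at h1
  have h2 : normSq (qv p) = 1 := by
    simp only [normSq_def', qv, sq, rv_mul]
    have : rv (16, 0) = 4 := by simp [rv]; norm_num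
    linarith
  rw [normSq_eq_norm_mul_self] at h2
  nlinarith [norm_nonneg (qv p)]

theorem rep : LRep L := by
  refine ⟨fun u v => qv (bt u v), fun u v h => qv_norm (bt_norm u v h),
    fun u v t h1 h2 h3 => qv_mul (bt_mul u v h1 t h2 h3), ?_⟩
  rintro ⟨γ, h0, h⟩
  have one : ∀ u v, adj u v = true → bt u v = ((4, 0), 0, 0, 0) → γ v = γ u := fun u v h1 h2 => by
    have e : qv ((4, 0), 0, 0, 0) = 1 := by ext <;> simp [qv, rv]
    have := h u v h1
    simp only [h2, e, one_mul] at this
    exact this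
  have e1 := one 0 5 (by decide +kernel) (by decide +kernel)
  have e2 := one 5 1 (by decide +kernel) (by decide +kernel)
  have e3 := one 1 9 (by decide +kernel) (by decide +kernel)
  have e4 := one 0 6 (by decide +kernel) (by decide +kernel)
  have e5 := one 6 2 (by decide +kernel) (by decide +kernel)
  have e6 := h 9 2 (by change adj 9 2 = true; decide +kernel)
  rw [e3, e2, e1, ← e4, ← e5] at e6
  have e7 := congrArg (fun x : ℍ => x.imI) (mul_right_cancel₀ (h0 2) (e6.trans (one_mul _).symm))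
  have e8 : (bt 9 2).2.1 = (-2, 0) := by decide +kernel
  simp [qv, e8, rv] at e7

end LD

theorem ldata : LDataStmt :=
  ⟨21, LD.L, LD.dim2, LD.acyc, LD.rep,
    ⟨⟨(0, 5, 15), by change (_ ∧ LD.adj _ _ = true) ∧ (_ ∧ LD.adj _ _ = true) ∧ LD.adj _ _ = true
                     decide +kernel⟩⟩⟩

end Crest.Agent.R197
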