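import Crest.Agent.R197.Cube

/-! # R197: the level set is acyclic -/

set_option autoImplicit false
set_option linter.unusedSectionVars false

noncomputable section

namespace Crest.Agent.R197

namespace MO
open Finsupp Classical CU

variable {V : Type} [LinearOrder V] (L : SimpleGraph V)

/-- chains above height `m` -/
def Uh (m : ℤ) : Submodule ℤ (RA L × Finset V →₀ ℤ) :=
  supported ℤ ℤ {c | L.IsClique (c.2 : Set V) ∧ m ≤ ht L c.1}

/-- chains below height zero -/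
def Wh : Submodule ℤ (RA L × Finset V →₀ ℤ) :=
  supported ℤ ℤ {c | L.IsClique (c.2 : Set V) ∧ ht L c.1 + c.2.card ≤ 0}

/-- upper part of the boundary -/
def bdP : (RA L × Finset V →₀ ℤ) →ₗ[ℤ] (RA L × Finset V →₀ ℤ) :=
  linearCombination ℤ fun p => ∑ v ∈ p.2, sgn v p.2 • single (p.1 * gen L v, p.2.erase v) 1

/-- simplices at a vertex -/
def em (g : RA L) : (Finset V →₀ ℤ) →ₗ[ℤ] (RA L × Finset V →₀ ℤ) := lmapDomain ℤ ℤ fun τ => (g, τ)

/-- `1 ⊗ H` -/
def HH (H : Finset V → Finset V →₀ ℤ) : (RA L × Finset V →₀ ℤ) →ₗ[ℤ] (RA L × Finset V →₀ ℤ) :=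
  linearCombination ℤ fun p => em L p.1 (H p.2)

variable {L}

@[simp] theorem em_single (g : RA L) (τ : Finset V) (k : ℤ) :
    em L g (single τ k) = single (g, τ) k := by simp [em]

theorem bd_em (g : RA L) (x : Finset V →₀ ℤ) :
    bd L (em L g x) = bdP L (em L g x) - em L g (bdL x) := by
  induction x using Finsupp.induction_linear with
  | zero => simp
  | add a b ha hb => simp only [map_add, ha, hb]; abel
  | single τ k =>
    simp only [em_single, bd, bdP, bdL, linearCombination_single, map_smul, map_sum, smul_sub,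
      Finset.sum_sub_distrib]

theorem HH_em (H : Finset V → Finset V →₀ ℤ) (g : RA L) (x : Finset V →₀ ℤ) :
    HH L H (em L g x) = em L g (linearCombination ℤ H x) := by
  induction x using Finsupp.induction_linear with
  | zero => simp
  | add a b ha hb => simp only [map_add, ha, hb]
  | single τ k => simp [HH]

theorem Uh_mono {m m' : ℤ} (h : m ≤ m') : Uh L m' ≤ Uh L m :=
  supported_mono fun _ hc => ⟨hc.1, h.trans hc.2⟩

theorem bdP_mem {m : ℤ} {z} (hz : z ∈ Uh L m) : bdP L z ∈ Uh L (m + 1) := by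
  refine map_mem _ ?_ hz
  rintro ⟨g, σ⟩ ⟨h1, h2⟩
  rw [bdP, linearCombination_single, one_smul]
  exact Submodule.sum_mem _ fun v _ => Submodule.smul_mem _ _
    (single_mem ⟨clique_erase h1 v, by simpa using h2⟩)

theorem bd_U {z} (hz : z ∈ Uh L 0) : bd L z ∈ Uh L 0 := by
  refine map_mem _ ?_ hz
  rintro ⟨g, σ⟩ ⟨h1, h2⟩
  rw [bd_single]
  refine Submodule.sum_mem _ fun v _ => Submodule.smul_mem _ _ (Submodule.sub_mem _
    (single_mem ⟨clique_erase h1 v, ?_⟩) (single_mem ⟨clique_erase h1 v, h2⟩))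
  simp only [ht_mul, ht_gen] at h2 ⊢; omega

theorem bd_W {z} (hz : z ∈ Wh L) : bd L z ∈ Wh L := by
  refine map_mem _ ?_ hz
  rintro ⟨g, σ⟩ ⟨h1, h2⟩
  rw [bd_single]
  refine Submodule.sum_mem _ fun v hv => Submodule.smul_mem _ _ (Submodule.sub_mem _
    (single_mem ⟨clique_erase h1 v, ?_⟩) (single_mem ⟨clique_erase h1 v, ?_⟩)) <;>
  · have := Finset.card_erase_add_one hv
    simp only [ht_mul, ht_gen] at h2 ⊢; omega

theorem relU (hA : LAcyc L) {k : ℕ} {z} (hz : z ∈ ChK L k) (hb : bd L z ∈ Uh L 0) :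
    ∃ y ∈ ChK L (k + 1), z - bd L y ∈ Uh L 0 := by
  obtain ⟨H, hH⟩ := hA
  have h1 : ∀ {k : ℕ} {z}, z ∈ ChK L k → HH L H z ∈ ChK L (k + 1) := fun {k z} hz => by
    refine map_mem _ ?_ hz
    rintro ⟨g, σ⟩ ⟨h1, h2⟩
    rw [HH, linearCombination_single, one_smul]
    refine map_mem _ ?_ (hH σ h1).1
    rintro τ ⟨h3, h4⟩
    rw [em_single]
    exact single_mem ⟨h3, by rw [← h2]; exact h4⟩
  have h2 : ∀ {m : ℤ} {z}, z ∈ Uh L m → HH L H z ∈ Uh L m := fun {m z} hz => by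
    refine map_mem _ ?_ hz
    rintro ⟨g, σ⟩ ⟨h1, h2⟩
    rw [HH, linearCombination_single, one_smul]
    refine map_mem _ ?_ (hH σ h1).1
    rintro τ ⟨h3, -⟩
    rw [em_single]
    exact single_mem ⟨h3, h2⟩
  have h3 : ∀ {m : ℤ} {z}, z ∈ Uh L m → z + bd L (HH L H z) + HH L H (bd L z) ∈ Uh L (m + 1) :=
    fun {m z} hz => by
      refine map_mem (LinearMap.id + bd L ∘ₗ HH L H + HH L H ∘ₗ bd L) ?_ hz
      rintro ⟨g, σ⟩ ⟨h4, h5⟩
      have hs : single (g, σ) (1 : ℤ) ∈ Uh L m := single_mem ⟨h4, h5⟩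
      have e := congrArg (em L g) (hH σ h4).2
      have e1 : HH L H (single (g, σ) 1) = em L g (H σ) := by simp [HH]
      have e2 := bd_em g (single σ 1)
      rw [em_single] at e e2
      simp only [LinearMap.add_apply, LinearMap.id_apply, LinearMap.comp_apply]
      rw [e2, map_sub, HH_em, e1, bd_em, ← e1]
      rw [map_add] at e
      convert Submodule.add_mem _ (bdP_mem (h2 hs)) (h2 (bdP_mem hs)) using 1
      rw [← e]; abel
  have key : ∀ (n : ℕ) z, z ∈ ChK L k → z ∈ Uh L (-n) → bd L z ∈ Uh L 0 →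
      ∃ y ∈ ChK L (k + 1), z - bd L y ∈ Uh L 0 := by
    intro n
    induction n with
    | zero => exact fun z _ h _ => ⟨0, Submodule.zero_mem _, by simpa using h⟩
    | succ n ih =>
      intro z hz hU hb
      obtain ⟨y, hy, hy'⟩ := ih (z + bd L (HH L H z)) (Submodule.add_mem _ hz (bd_mem _ _ (h1 hz)))
        (by
          have := Submodule.sub_mem _ (h3 hU) (Uh_mono (by push_cast; omega) (h2 hb))
          rwa [add_sub_cancel_right, show -((n + 1 : ℕ) : ℤ) + 1 = -n by push_cast; ring] at this)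
        (by rwa [map_add, bd_bd _ _ (h1 hz), add_zero])
      exact ⟨y - HH L H z, Submodule.sub_mem _ hy (h1 hz), by
        convert hy' using 1; rw [map_sub]; abel⟩
  refine key (z.support.sup fun c => (-ht L c.1).toNat) z hz (fun c hc => ⟨(hz hc).1, ?_⟩) hb
  have := Finset.le_sup (f := fun c : RA L × Finset V => (-ht L c.1).toNat) hc
  omega

/-! ### the reflection -/

variable (L) in
/-- inversion of the generators -/
def th : RA L →* RA L := raLift L (fun v => (gen L v)⁻¹) fun _ _ h => (gen_comm L h).inv_inv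

@[simp] theorem th_gen (v : V) : th L (gen L v) = (gen L v)⁻¹ := by simp [th]

theorem th_th (g : RA L) : th L (th L g) = g := by
  have : (th L).comp (th L) = MonoidHom.id _ := PresentedGroup.ext fun v => by
    show th L (th L (gen L v)) = gen L v
    simp
  exact DFunLike.congr_fun this g

theorem ht_th (g : RA L) : ht L (th L g) = -ht L g := by
  have : (htM L).comp (th L) = (htM L)⁻¹ := PresentedGroup.ext fun v => by
    show htM L (th L (gen L v)) = (htM L (gen L v))⁻¹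
    simp
  have := DFunLike.congr_fun this g
  simp only [MonoidHom.comp_apply, MonoidHom.inv_apply] at this
  simp [ht, this]

variable (L) in
/-- product of the generators of a clique -/
def pi (σ : Finset V) : RA L :=
  if h : L.IsClique (σ : Set V) then σ.noncommProd (gen L) fun _ ha _ hb hab => gen_comm L (h ha hb hab)
  else 1

theorem pi_erase {σ : Finset V} (h : L.IsClique (σ : Set V)) {v : V} (hv : v ∈ σ) :
    gen L v * pi L (σ.erase v) = pi L σ ∧ pi L (σ.erase v) * gen L v = pi L σ := by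
  simp only [pi, dif_pos h, dif_pos (clique_erase h v)]
  exact ⟨Finset.mul_noncommProd_erase _ hv _ _, Finset.noncommProd_erase_mul _ hv _ _⟩

theorem pi_prop (σ : Finset V) (h : L.IsClique (σ : Set V)) :
    ht L (pi L σ) = σ.card ∧ th L (pi L σ) = (pi L σ)⁻¹ := by
  induction σ using Finset.induction_on with
  | empty => simp [pi]
  | insert v σ hv ih =>
    obtain ⟨h1, h2⟩ := pi_erase h (Finset.mem_insert_self v σ)
    rw [Finset.erase_insert hv] at h1 h2
    obtain ⟨h3, h4⟩ := ih (h.subset (by simp))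
    constructor
    · rw [← h1, ht_mul, ht_gen, h3, Finset.card_insert_of_notMem hv]; push_cast; ring
    · conv_lhs => rw [← h1]
      rw [← h2, map_mul, th_gen, h4, mul_inv_rev]

variable (L) in
/-- the reflection on chains -/
def Th : (RA L × Finset V →₀ ℤ) →ₗ[ℤ] (RA L × Finset V →₀ ℤ) :=
  lmapDomain ℤ ℤ fun p => (th L (p.1 * pi L p.2), p.2)

@[simp] theorem Th_single (g : RA L) (σ : Finset V) (k : ℤ) :
    Th L (single (g, σ) k) = single (th L (g * pi L σ), σ) k := by simp [Th]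

theorem Th_mem {k : ℕ} {z} (hz : z ∈ ChK L k) : Th L z ∈ ChK L k := by
  refine map_mem _ ?_ hz
  rintro ⟨g, σ⟩ h
  rw [Th_single]; exact single_mem h

theorem Th_U {z} (hz : z ∈ Uh L 0) : Th L z ∈ Wh L := by
  refine map_mem _ ?_ hz
  rintro ⟨g, σ⟩ ⟨h1, h2⟩
  rw [Th_single]
  refine single_mem ⟨h1, ?_⟩
  simp only [ht_th, ht_mul, (pi_prop σ h1).1] at h2 ⊢; omega

theorem Th_W {z} (hz : z ∈ Wh L) : Th L z ∈ Uh L 0 := by
  refine map_mem _ ?_ hz
  rintro ⟨g, σ⟩ ⟨h1, h2⟩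
  rw [Th_single]
  refine single_mem ⟨h1, ?_⟩
  simp only [ht_th, ht_mul, (pi_prop σ h1).1] at h2 ⊢; omega

theorem Th_Th {k : ℕ} {z} (hz : z ∈ ChK L k) : Th L (Th L z) = z := by
  refine sub_eq_zero.1 ((Submodule.mem_bot ℤ).1 (map_mem (Th L ∘ₗ Th L - LinearMap.id) ?_ hz))
  rintro ⟨g, σ⟩ ⟨h1, -⟩
  simp [th_th, (pi_prop σ h1).2]

theorem Th_bd {k : ℕ} {z} (hz : z ∈ ChK L k) : Th L (bd L z) = -bd L (Th L z) := by
  refine eq_neg_iff_add_eq_zero.2 ((Submodule.mem_bot ℤ).1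
    (map_mem (Th L ∘ₗ bd L + bd L ∘ₗ Th L) ?_ hz))
  rintro ⟨g, σ⟩ ⟨h1, -⟩
  simp only [LinearMap.add_apply, LinearMap.comp_apply, Th_single, bd_single, map_sum, map_smul,
    map_sub, Submodule.mem_bot, ← Finset.sum_add_distrib]
  refine Finset.sum_eq_zero fun v hv => ?_
  obtain ⟨h2, h3⟩ := pi_erase h1 hv
  rw [mul_assoc, h2, show th L (g * pi L (σ.erase v)) = th L (g * pi L σ) * gen L v by
    rw [← h3, ← mul_assoc, map_mul _ _ (gen L v), th_gen, inv_mul_cancel_right]]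
  module

theorem relW (hA : LAcyc L) {k : ℕ} {z} (hz : z ∈ ChK L k) (hb : bd L z ∈ Wh L) :
    ∃ y ∈ ChK L (k + 1), z - bd L y ∈ Wh L := by
  obtain ⟨y, hy, h⟩ := relU hA (Th_mem hz) (by
    have := Submodule.neg_mem _ (Th_W hb)
    rwa [Th_bd hz, neg_neg] at this)
  refine ⟨-Th L y, Submodule.neg_mem _ (Th_mem hy), ?_⟩
  have := Th_U h
  rwa [map_sub, Th_Th hz, Th_bd hy, ← map_neg] at this

theorem fillU (hA : LAcyc L) {k : ℕ} {y} (hy : y ∈ ChK L k) (hb : bd L y ∈ Uh L 0) :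
    ∃ u ∈ ChK L k, u ∈ Uh L 0 ∧ bd L u = bd L y := by
  obtain ⟨y', h1, h2⟩ := relU hA hy hb
  exact ⟨_, Submodule.sub_mem _ hy (bd_mem _ _ h1), h2, by rw [map_sub, bd_bd _ _ h1, sub_zero]⟩

theorem fillW (hA : LAcyc L) {k : ℕ} {y} (hy : y ∈ ChK L k) (hb : bd L y ∈ Wh L) :
    ∃ u ∈ ChK L k, u ∈ Wh L ∧ bd L u = bd L y := by
  obtain ⟨y', h1, h2⟩ := relW hA hy hb
  exact ⟨_, Submodule.sub_mem _ hy (bd_mem _ _ h1), h2, by rw [map_sub, bd_bd _ _ h1, sub_zero]⟩

theorem UW_zero {k : ℕ} {z} (hz : z ∈ ChK L (k + 1)) (h1 : z ∈ Uh L 0) (h2 : z ∈ Wh L) : z = 0 :=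
  support_eq_empty.1 (Finset.eq_empty_of_forall_notMem fun c hc => by
    have := (hz hc).2
    have := (h1 hc).2
    have := (h2 hc).2
    omega)

/-! ### lifting the cells of the level set -/

variable (L) in
/-- vertices -/
def lift0 : (BB L →₀ ℤ) →ₗ[ℤ] (RA L × Finset V →₀ ℤ) := lmapDomain ℤ ℤ fun g => (g.1, ∅)

/-- the square of an edge -/
def j1 (p : BB L × Edge L) : RA L × Finset V :=
  (p.1.1 * (gen L p.2.1.2)⁻¹, {p.2.1.1, p.2.1.2})

variable (L) in
/-- edges -/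
def lift1 : (BB L × Edge L →₀ ℤ) →ₗ[ℤ] (RA L × Finset V →₀ ℤ) := lmapDomain ℤ ℤ j1

/-- the cube of a triangle -/
def j2 (p : BB L × (Tri L × Bool)) : RA L × Finset V :=
  (if p.2.2 then p.1.1 * (gen L p.2.1.1.2.2)⁻¹ * (gen L p.2.1.1.2.1)⁻¹
    else p.1.1 * (gen L p.2.1.1.2.2)⁻¹, {p.2.1.1.1, p.2.1.1.2.1, p.2.1.1.2.2})

variable (L) in
/-- triangles -/
def lift2 : (BB L × (Tri L × Bool) →₀ ℤ) →ₗ[ℤ] (RA L × Finset V →₀ ℤ) :=
  linearCombination ℤ fun p => (if p.2.2 then 1 else -1 : ℤ) • single (j2 p) 1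

theorem ht_BB (g : BB L) : ht L g.1 = 0 := (mem_BB L).1 g.2

theorem clique2 {u v : V} (h : L.Adj u v) : L.IsClique (({u, v} : Finset V) : Set V) := by
  simp [h.ne, h]

theorem clique3 {u v s : V} (h1 : L.Adj u v) (h2 : L.Adj v s) (h3 : L.Adj u s) :
    L.IsClique (({u, v, s} : Finset V) : Set V) :=
  (SimpleGraph.is3Clique_triple_iff.2 ⟨h1, h3, h2⟩).1

theorem card3 {u v s : V} (h1 : u < v) (h2 : v < s) : ({u, v, s} : Finset V).card = 3 :=
  Finset.card_eq_three.2 ⟨u, v, s, h1.ne, (h1.trans h2).ne, h2.ne, rfl⟩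

theorem j1_inj : Function.Injective (j1 (L := L)) := by
  rintro ⟨g, ⟨u, v⟩, h⟩ ⟨g', ⟨u', v'⟩, h'⟩ e
  simp only [j1, Prod.mk.injEq] at e
  have h1 := h.1
  have h2 := h'.1
  have e2 := Finset.ext_iff.1 e.2
  have a1 := e2 u
  have a2 := e2 v
  have a3 := e2 u'
  have a4 := e2 v'
  simp only [Finset.mem_insert, Finset.mem_singleton, true_or, or_true, true_iff, iff_true]
    at a1 a2 a3 a4 h1 h2
  obtain ⟨rfl, rfl⟩ : u = u' ∧ v = v' := by grind
  obtain rfl : g = g' := Subtype.ext (mul_right_cancel e.1)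
  rfl

theorem j2_inj : Function.Injective (j2 (L := L)) := by
  rintro ⟨g, ⟨⟨u, v, s⟩, h⟩, b⟩ ⟨g', ⟨⟨u', v', s'⟩, h'⟩, b'⟩ e
  simp only [j2, Prod.mk.injEq] at e
  have h1 := h.1.1
  have h2 := h'.1.1
  have h3 := h.2.1.1
  have h4 := h'.2.1.1
  have e2 := Finset.ext_iff.1 e.2
  have a1 := e2 u
  have a2 := e2 v
  have a3 := e2 s
  have a4 := e2 u'
  have a5 := e2 v'
  have a6 := e2 s'
  simp only [Finset.mem_insert, Finset.mem_singleton, true_or, or_true, true_iff, iff_true]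
    at a1 a2 a3 a4 a5 a6 h1 h2 h3 h4
  obtain ⟨rfl, rfl, rfl⟩ : u = u' ∧ v = v' ∧ s = s' := by grind
  have e1 := e.1
  have e3 := congrArg (ht L) e1
  cases b <;> cases b' <;> simp [ht_BB] at e1 e3 <;> rw [e1]

theorem cross_zero {z} (hz : z ∈ Uh L 0 ⊔ Wh L) {c : RA L × Finset V} (h1 : ht L c.1 < 0)
    (h2 : 0 < ht L c.1 + c.2.card) : z c = 0 := by
  obtain ⟨u, hu, w, hw, rfl⟩ := Submodule.mem_sup.1 hz
  rw [Finsupp.add_apply, notMem_support_iff.1 fun h => absurd (hu h).2 (by omega),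
    notMem_support_iff.1 fun h => absurd (hw h).2 (by omega), add_zero]

theorem lift1_inj {x} (h : lift1 L x ∈ Uh L 0 ⊔ Wh L) : x = 0 := by
  ext p
  have := cross_zero h (c := j1 p) (by simp [j1, ht_BB])
    (by simp [j1, ht_BB, Finset.card_pair p.2.2.1.ne])
  rwa [lift1, lmapDomain_apply, mapDomain_apply j1_inj] at this

theorem lift2_apply (x) (p : BB L × (Tri L × Bool)) :
    lift2 L x (j2 p) = (if p.2.2 then 1 else -1 : ℤ) * x p := by
  induction x using Finsupp.induction_linear with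
  | zero => simp
  | add a b ha hb => simp only [map_add, Finsupp.add_apply, ha, hb, mul_add]
  | single q k =>
    simp only [lift2, linearCombination_single, Finsupp.smul_apply, single_apply,
      j2_inj.eq_iff, smul_eq_mul]
    by_cases e : q = p
    · subst e; simp [mul_comm]
    · simp [e]

theorem lift2_inj {x} (h : lift2 L x ∈ Uh L 0 ⊔ Wh L) : x = 0 := by
  ext p
  have := cross_zero h (c := j2 p) (by unfold j2; split_ifs <;> simp [ht_BB])
    (by unfold j2; split_ifs <;> simp [ht_BB, card3 p.2.1.2.1.1 p.2.1.2.2.1.1])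
  rw [lift2_apply] at this
  split_ifs at this <;> simpa using this

theorem lift1_mem (x) : lift1 L x ∈ ChK L 2 := by
  refine map_mem (s := Set.univ) _ (fun p _ => ?_) (by simp)
  rw [lift1, lmapDomain_apply, mapDomain_single]
  exact single_mem ⟨clique2 p.2.2.2, Finset.card_pair p.2.2.1.ne⟩

theorem lift2_mem (x) : lift2 L x ∈ ChK L 3 := by
  refine map_mem (s := Set.univ) _ (fun p _ => ?_) (by simp)
  rw [lift2, linearCombination_single, one_smul]
  exact Submodule.smul_mem _ _ (single_mem ⟨clique3 p.2.1.2.1.2 p.2.1.2.2.1.2 p.2.1.2.2.2,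
    card3 p.2.1.2.1.1 p.2.1.2.2.1.1⟩)

theorem dec2 {z} (hz : z ∈ ChK L 2) : z ∈ (Uh L 0 ⊓ ChK L 2 ⊔ Wh L ⊓ ChK L 2) ⊔ (lift1 L).range := by
  refine map_mem LinearMap.id ?_ hz
  rintro ⟨g, σ⟩ ⟨h1, h2⟩
  have hs : single (g, σ) (1 : ℤ) ∈ ChK L 2 := single_mem ⟨h1, h2⟩
  dsimp only at h1 h2
  rw [LinearMap.id_apply]
  rcases lt_trichotomy (ht L g) (-1) with h | h | h
  · exact Submodule.mem_sup_left (Submodule.mem_sup_right
      ⟨single_mem ⟨h1, by dsimp only; omega⟩, hs⟩)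
  · obtain ⟨u, v, huv, rfl⟩ : ∃ u v, u < v ∧ σ = {u, v} := by
      obtain ⟨u, v, h3, rfl⟩ := Finset.card_eq_two.1 h2
      rcases lt_or_gt_of_ne h3 with h4 | h4
      · exact ⟨u, v, h4, rfl⟩
      · exact ⟨v, u, h4, Finset.pair_comm _ _⟩
    refine Submodule.mem_sup_right ⟨single (⟨g * gen L v, by simp [mem_BB, h]⟩,
      ⟨(u, v), huv, h1 (by simp) (by simp) huv.ne⟩) 1, ?_⟩
    simp [lift1, j1]
  · exact Submodule.mem_sup_left (Submodule.mem_sup_left
      ⟨single_mem ⟨h1, by dsimp only; omega⟩, hs⟩)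

theorem dec3 {z} (hz : z ∈ ChK L 3) : z ∈ (Uh L 0 ⊔ Wh L) ⊔ (lift2 L).range := by
  refine map_mem LinearMap.id ?_ hz
  rintro ⟨g, σ⟩ ⟨h1, h2⟩
  dsimp only at h1 h2
  rw [LinearMap.id_apply]
  by_cases h : 0 ≤ ht L g
  · exact Submodule.mem_sup_left (Submodule.mem_sup_left (single_mem ⟨h1, h⟩))
  by_cases h' : ht L g ≤ -3
  · exact Submodule.mem_sup_left (Submodule.mem_sup_right (single_mem ⟨h1, by dsimp only; omega⟩))
  obtain ⟨u, v, s, huv, hvs, rfl⟩ : ∃ u v s, u < v ∧ v < s ∧ σ = {u, v, s} := by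
    refine ⟨σ.orderEmbOfFin h2 0, σ.orderEmbOfFin h2 1, σ.orderEmbOfFin h2 2,
      (σ.orderEmbOfFin h2).strictMono (by decide), (σ.orderEmbOfFin h2).strictMono (by decide), ?_⟩
    conv_lhs => rw [← Finset.image_orderEmbOfFin_univ σ h2]
    simp [Fin.univ_succ]
  let t : Tri L := ⟨(u, v, s), ⟨huv, h1 (by simp) (by simp) huv.ne⟩,
    ⟨hvs, h1 (by simp) (by simp) hvs.ne⟩, h1 (by simp) (by simp) (huv.trans hvs).ne⟩
  refine Submodule.mem_sup_right ?_
  rcases (by omega : ht L g = -1 ∨ ht L g = -2) with h3 | h3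
  · exact ⟨-single (⟨g * gen L s, by simp [mem_BB, h3]⟩, t, false) 1, by simp [lift2, j2, t]⟩
  · exact ⟨single (⟨g * gen L v * gen L s, by simp [mem_BB, h3]⟩, t, true) 1,
      by simp [lift2, j2, t]⟩

theorem bd_one (g : RA L) (u : V) :
    bd L (single (g, {u}) 1) = single (g * gen L u, ∅) 1 - single (g, ∅) 1 := by
  simp [bd_single, sgn, Finset.filter_singleton]

theorem bd_two (g : RA L) {u v : V} (h : u < v) : bd L (single (g, {u, v}) 1) =
    (single (g * gen L u, {v}) 1 - single (g * gen L v, {u}) 1) +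
      (single (g, {u}) 1 - single (g, {v}) 1) := by
  have e1 : ({u, v} : Finset V).erase u = {v} := Finset.erase_insert (by simp [h.ne])
  have e2 : ({u, v} : Finset V).erase v = {u} := by
    rw [Finset.pair_comm]; exact Finset.erase_insert (by simp [h.ne'])
  rw [bd_single, Finset.sum_pair h.ne, e1, e2]
  simp only [sgn, Finset.filter_insert, Finset.filter_singleton, lt_irrefl, h, h.not_gt, if_true,
    if_false]
  simp; abel

theorem bd_three (g : RA L) {u v s : V} (h : u < v) (h' : v < s) :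
    bd L (single (g, {u, v, s}) 1) =
    (single (g * gen L u, {v, s}) 1 - single (g * gen L v, {u, s}) 1 +
      single (g * gen L s, {u, v}) 1) -
      (single (g, {v, s}) 1 - single (g, {u, s}) 1 + single (g, {u, v}) 1) := by
  have h'' := h.trans h'
  have e1 : ({u, v, s} : Finset V).erase u = {v, s} := Finset.erase_insert (by simp [h.ne, h''.ne])
  have e2 : ({u, v, s} : Finset V).erase v = {u, s} := by
    rw [Finset.insert_comm]; exact Finset.erase_insert (by simp [h.ne', h'.ne])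
  have e3 : ({u, v, s} : Finset V).erase s = {u, v} := by
    rw [Finset.pair_comm v, Finset.insert_comm]; exact Finset.erase_insert (by simp [h'.ne', h''.ne'])
  rw [bd_single, Finset.sum_insert (by simp [h.ne, h''.ne]), Finset.sum_pair h'.ne, e1, e2, e3]
  simp only [sgn, Finset.filter_insert, Finset.filter_singleton, lt_irrefl, h, h', h'', h.not_gt,
    h'.not_gt, h''.not_gt, if_true, if_false]
  simp [Finset.card_pair h.ne]; abel

theorem bd_lift1 (x) : ∃ a ∈ Uh L 0, ∃ b ∈ Wh L, a ∈ ChK L 1 ∧ b ∈ ChK L 1 ∧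
    bd L (lift1 L x) = a + b ∧ bd L b = lift0 L (d1 (phi0 L) x) := by
  induction x using Finsupp.induction_linear with
  | zero => exact ⟨0, zero_mem _, 0, zero_mem _, zero_mem _, zero_mem _, by simp, by simp⟩
  | add x y hx hy =>
    obtain ⟨a, h1, b, h2, h3, h4, h5, h6⟩ := hx
    obtain ⟨a', h1', b', h2', h3', h4', h5', h6'⟩ := hy
    exact ⟨a + a', add_mem h1 h1', b + b', add_mem h2 h2', add_mem h3 h3', add_mem h4 h4',
      by rw [map_add, map_add, h5, h5']; abel, by simp only [map_add, h6, h6']⟩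
  | single p k =>
    obtain ⟨g, ⟨u, v⟩, h1, h2⟩ := p
    refine ⟨k • (single (g.1 * (gen L v)⁻¹ * gen L u, {v}) 1 -
        single (g.1 * (gen L v)⁻¹ * gen L v, {u}) 1), ?_,
      k • (single (g.1 * (gen L v)⁻¹, {u}) 1 - single (g.1 * (gen L v)⁻¹, {v}) 1), ?_, ?_, ?_, ?_, ?_⟩
    iterate 4
      exact Submodule.smul_mem _ _ (Submodule.sub_mem _ (single_mem ⟨by simp, by simp [ht_BB]⟩)
        (single_mem ⟨by simp, by simp [ht_BB]⟩))
    · rw [← smul_add, ← bd_two _ h1, ← map_smul]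
      simp [lift1, j1]
    · have : g.1 * (gen L v)⁻¹ * gen L u = g.1 * (gen L u * (gen L v)⁻¹) := by
        rw [mul_assoc, (gen_comm L h2).inv_right.eq]
      simp only [map_smul, map_sub, bd_one, d1_single, lift0, lmapDomain_apply, mapDomain_single,
        phi0, this, Subgroup.coe_mul, inv_mul_cancel_right, sub_sub_sub_cancel_right]

theorem rel (r : Tri L × Bool) : ev (phi0 L) (w0 L r) = 1 := by
  obtain ⟨⟨⟨u, v, s⟩, h1, h2, h3⟩, b⟩ := r
  have c1 := gen_comm L h1.2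
  have c2 := gen_comm L h3
  cases b <;> apply Subtype.ext <;> simp [w0, phi0, Tri.e01, Tri.e12, Tri.e02]
  rw [mul_assoc (gen L v), ← mul_assoc (gen L s)⁻¹, ← c2.inv_right.eq, ← mul_assoc, ← mul_assoc,
    ← mul_assoc, ← c1.eq]
  have c3 := (gen_comm L h2.2).inv_inv
  rw [mul_assoc _ (gen L s)⁻¹, ← c3.eq]
  group

theorem bd_lift2 (y) : bd L (lift2 L y) - lift1 L (d2 (phi0 L) (w0 L) y) ∈
    Uh L 0 ⊓ ChK L 2 ⊔ Wh L ⊓ ChK L 2 := by
  refine map_mem (s := Set.univ) (bd L ∘ₗ lift2 L - lift1 L ∘ₗ d2 (phi0 L) (w0 L))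
    (fun p _ => ?_) (by simp)
  have hr := rel p.2
  obtain ⟨g, ⟨⟨u, v, s⟩, h1, h2, h3⟩, b⟩ := p
  have c1 := gen_comm L h1.2
  have c2 := gen_comm L h3
  have c3 := gen_comm L h2.2
  have k1 := Finset.card_pair h1.1.ne
  have k2 := Finset.card_pair h2.1.ne
  have k3 := Finset.card_pair (h1.1.trans h2.1).ne
  dsimp only at c1 c2 c3 k1 k2 k3
  simp only [LinearMap.sub_apply, LinearMap.comp_apply, lift2, linearCombination_single, one_smul,
    d2_single, map_smul, j2]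
  rw [bd_three _ h1.1 h2.1]
  cases b
  · simp only [w0, Bool.false_eq_true, if_false, map_mul, map_inv, ev_of] at hr ⊢
    simp only [D_mul, D_inv, D_of, map_mul, ev_of, mul_assoc g, hr, mul_one]
    simp only [map_add, map_neg, lift1,
      lmapDomain_apply, mapDomain_single, j1, phi0, Tri.e01, Tri.e12, Tri.e02, Subgroup.coe_mul]
    rw [show g.1 * (gen L v * (gen L s)⁻¹) * (gen L v)⁻¹ = g.1 * (gen L s)⁻¹ by
      rw [c3.inv_right.eq]; group]
    refine Submodule.mem_sup_left ?_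
    convert Submodule.neg_mem (Uh L 0 ⊓ ChK L 2) (x := single (g.1 * (gen L s)⁻¹ * gen L u, {v, s}) 1 -
      single (g.1 * (gen L s)⁻¹ * gen L v, {u, s}) 1 + single (g.1 * (gen L s)⁻¹ * gen L s, {u, v}) 1)
      (Submodule.add_mem _ (Submodule.sub_mem _ ?_ ?_) ?_) using 1
    · module
    · exact ⟨single_mem ⟨clique2 h2.2, by simp [ht_BB]⟩, single_mem ⟨clique2 h2.2, k2⟩⟩
    · exact ⟨single_mem ⟨clique2 h3, by simp [ht_BB]⟩, single_mem ⟨clique2 h3, k3⟩⟩
    · exact ⟨single_mem ⟨clique2 h1.2, by simp [ht_BB]⟩, single_mem ⟨clique2 h1.2, k1⟩⟩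
  · simp only [w0, if_true, map_mul, map_inv, ev_of] at hr ⊢
    simp only [D_mul, D_inv, D_of, map_mul, ev_of, mul_assoc g, hr, mul_one]
    simp only [map_add, map_neg, lift1,
      lmapDomain_apply, mapDomain_single, j1, phi0, Tri.e01, Tri.e12, Tri.e02, Subgroup.coe_mul]
    rw [show g.1 * (gen L s)⁻¹ * (gen L v)⁻¹ * gen L u =
        g.1 * (gen L u * (gen L v)⁻¹) * (gen L s)⁻¹ by
      rw [mul_assoc _ _ (gen L u), ← c1.inv_right.eq, mul_assoc, mul_assoc,
        (c2.inv_right.mul_left c3.inv_inv).eq],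
      show g.1 * (gen L s)⁻¹ * (gen L v)⁻¹ * gen L s = g.1 * (gen L v)⁻¹ by
        rw [mul_assoc _ _ (gen L s), c3.inv_left.eq]; group, inv_mul_cancel_right]
    refine Submodule.mem_sup_right ?_
    convert Submodule.neg_mem (Wh L ⊓ ChK L 2)
      (x := single (g.1 * (gen L s)⁻¹ * (gen L v)⁻¹, {v, s}) 1 -
      single (g.1 * (gen L s)⁻¹ * (gen L v)⁻¹, {u, s}) 1 +
      single (g.1 * (gen L s)⁻¹ * (gen L v)⁻¹, {u, v}) 1)
      (Submodule.add_mem _ (Submodule.sub_mem _ ?_ ?_) ?_) using 1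
    · module
    · exact ⟨single_mem ⟨clique2 h2.2, by simp [ht_BB, k2]⟩, single_mem ⟨clique2 h2.2, k2⟩⟩
    · exact ⟨single_mem ⟨clique2 h3, by simp [ht_BB, k3]⟩, single_mem ⟨clique2 h3, k3⟩⟩
    · exact ⟨single_mem ⟨clique2 h1.2, by simp [ht_BB, k1]⟩, single_mem ⟨clique2 h1.2, k1⟩⟩

theorem lift0_mem (x) : lift0 L x ∈ ChK L 0 ⊓ (Uh L 0 ⊓ Wh L) := by
  refine map_mem (s := Set.univ) _ (fun p _ => ?_) (by simp)
  rw [lift0, lmapDomain_apply, mapDomain_single]
  exact ⟨single_mem ⟨by simp, by simp⟩, single_mem ⟨by simp, by simp [ht_BB]⟩,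
    single_mem ⟨by simp, by simp [ht_BB]⟩⟩

theorem aug_lift0 (x) : aug _ (lift0 L x) = aug _ x := by
  induction x using Finsupp.induction_linear with
  | zero => simp
  | add a b ha hb => simp only [map_add, ha, hb]
  | single p k => simp [lift0]

theorem lift0_inj : Function.Injective (lift0 L) :=
  mapDomain_injective fun _ _ h => Subtype.ext (congrArg Prod.fst h)

theorem sup_le2 : Uh L 0 ⊓ ChK L 2 ⊔ Wh L ⊓ ChK L 2 ≤ Uh L 0 ⊔ Wh L :=
  sup_le_sup inf_le_left inf_le_left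

end MO
open MO CU

theorem morse : MorseStmt := fun V _ _ L hC hD hA =>
  { rel := rel
    inj := by
      rw [injective_iff_map_eq_zero]
      intro y hy
      have h := bd_lift2 y
      rw [hy, map_zero, sub_zero] at h
      obtain ⟨u, ⟨hu, hu'⟩, l, ⟨hl, hl'⟩, e⟩ := Submodule.mem_sup.1 h
      have e1 : bd L u = -bd L l := by
        rw [eq_neg_iff_add_eq_zero, ← map_add, e, bd_bd _ _ (lift2_mem y)]
      have e2 : bd L u = 0 := UW_zero (bd_mem _ _ hu') (bd_U hu) (e1 ▸ neg_mem (bd_W hl))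
      have e3 : bd L l = 0 := by rwa [e1, neg_eq_zero] at e2
      obtain ⟨y1, h1, rfl⟩ := hC.ex _ u hu' e2
      obtain ⟨y2, h2, rfl⟩ := hC.ex _ l hl' e3
      obtain ⟨u', h3, h4, h5⟩ := fillU hA h1 hu
      obtain ⟨l', h6, h7, h8⟩ := fillW hA h2 hl
      obtain ⟨y4, h9, h10⟩ := hC.ex 2 (lift2 L y - u' - l')
        (sub_mem (sub_mem (lift2_mem y) h3) h6) (by rw [map_sub, map_sub, h5, h8, ← e]; abel)
      obtain rfl : y4 = 0 := Finsupp.support_eq_empty.1 (Finset.eq_empty_of_forall_notMem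
        fun c hc => by have := hD _ (h9 hc).1; have := (h9 hc).2; omega)
      rw [map_zero, sub_sub, eq_comm, sub_eq_zero] at h10
      exact lift2_inj (h10 ▸ Submodule.add_mem_sup h4 h7)
    ex1 := fun z hz => by
      obtain ⟨a, h1, b, h2, h3, h4, h5, h6⟩ := bd_lift1 z
      rw [hz, map_zero] at h6
      have h7 : bd L a = 0 := by
        have := bd_bd _ _ (lift1_mem z)
        rwa [h5, map_add, h6, add_zero] at this
      obtain ⟨y1, g1, rfl⟩ := hC.ex _ a h3 h7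
      obtain ⟨y2, g2, rfl⟩ := hC.ex _ b h4 h6
      obtain ⟨u', g3, g4, g5⟩ := fillU hA g1 h1
      obtain ⟨l', g6, g7, g8⟩ := fillW hA g2 h2
      obtain ⟨y, g9, g10⟩ := hC.ex 1 (lift1 L z - u' - l')
        (sub_mem (sub_mem (lift1_mem z) g3) g6) (by rw [map_sub, map_sub, g5, g8, h5]; abel)
      obtain ⟨s, hs, _, ⟨x, rfl⟩, rfl⟩ := Submodule.mem_sup.1 (dec3 g9)
      obtain ⟨u, hu, l, hl, rfl⟩ := Submodule.mem_sup.1 hs
      refine ⟨x, (sub_eq_zero.1 (lift1_inj ?_)).symm⟩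
      have e : lift1 L (z - d2 (phi0 L) (w0 L) x) = (u' + l') + (bd L u + bd L l) +
          (bd L (lift2 L x) - lift1 L (d2 (phi0 L) (w0 L) x)) := by
        rw [map_add, map_add, sub_sub, eq_sub_iff_add_eq] at g10
        rw [map_sub, ← g10]; abel
      rw [e]
      exact add_mem (add_mem (Submodule.add_mem_sup g4 g7)
        (Submodule.add_mem_sup (bd_U hu) (bd_W hl))) (sup_le2 (bd_lift2 x))
    ex0 := fun z hz => by
      obtain ⟨h1, h2, h3⟩ := lift0_mem z
      obtain ⟨y1, g1, e1⟩ := hC.ex0 _ h1 (by rw [aug_lift0, hz])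
      obtain ⟨u, g3, g4, g5⟩ := fillU hA g1 (e1 ▸ h2)
      obtain ⟨l, g6, g7, g8⟩ := fillW hA g1 (e1 ▸ h3)
      obtain ⟨y, g9, g10⟩ := hC.ex 0 (u - l) (sub_mem g3 g6) (by rw [map_sub, g5, g8, sub_self])
      obtain ⟨s, hs, _, ⟨x, rfl⟩, rfl⟩ := Submodule.mem_sup.1 (dec2 g9)
      obtain ⟨u', ⟨hu, hu'⟩, l', ⟨hl, hl'⟩, rfl⟩ := Submodule.mem_sup.1 hs
      obtain ⟨a, k1, b, k2, k3, k4, k5, k6⟩ := bd_lift1 x
      rw [map_add, map_add, k5] at g10
      have e : l + bd L l' + b = u - bd L u' - a := by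
        rw [← sub_eq_zero] at g10 ⊢
        rw [← g10]; abel
      have e2 : l + bd L l' + b = 0 := UW_zero (add_mem (add_mem g6 (bd_mem _ _ hl')) k4)
        (e ▸ sub_mem (sub_mem g4 (bd_U hu)) k1) (add_mem (add_mem g7 (bd_W hl)) k2)
      have e3 := congrArg (bd L) e2
      rw [map_add, map_add, bd_bd _ _ hl', add_zero, g8, e1, k6, map_zero, ← map_add,
        map_eq_zero_iff _ lift0_inj] at e3
      exact ⟨-x, by rw [map_neg, eq_neg_of_add_eq_zero_left e3]⟩ }

end Crest.Agent.R197
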