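import Crest.Agent.R197.Defs

/-! 197-NF: normal form in right-angled Artin groups by a linear model. -/

set_option autoImplicit false

noncomputable section

namespace Crest.Agent.R197

namespace NFa

variable {V : Type} (L : SimpleGraph V) {R : Type} [CommRing R]

open Classical in
/-- Action of a letter on the coordinates. -/
def act (l : V × Bool) (x : V × Bool → R) : V × Bool → R := fun m =>
  if m.1 = l.1 then (if m.2 = l.2 then x (l.1, !l.2) + 2 * x l else -x l)
  else if L.Adj l.1 m.1 then x m else x m + 2 * x l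

lemma act_self (l : V × Bool) (x : V × Bool → R) : act L l x l = x (l.1, !l.2) + 2 * x l := by
  simp [act]

lemma act_bar (l : V × Bool) (x : V × Bool → R) : act L l x (l.1, !l.2) = -x l := by
  simp [act]

lemma act_adj {l m : V × Bool} (h : L.Adj l.1 m.1) (x : V × Bool → R) : act L l x m = x m := by
  simp [act, h, h.ne']

lemma act_far {l m : V × Bool} (h : m.1 ≠ l.1) (h' : ¬L.Adj l.1 m.1) (x : V × Bool → R) :
    act L l x m = x m + 2 * x l := by
  simp [act, h, h']

lemma cases4 (l m : V × Bool) :
    m = l ∨ m = (l.1, !l.2) ∨ L.Adj l.1 m.1 ∨ (m.1 ≠ l.1 ∧ ¬L.Adj l.1 m.1) := by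
  obtain ⟨u, b⟩ := l
  obtain ⟨v, c⟩ := m
  by_cases h : v = u
  · subst h; cases b <;> cases c <;> simp
  · by_cases h' : L.Adj u v <;> simp [h, h']

lemma act_act (l : V × Bool) (x : V × Bool → R) : act L (l.1, !l.2) (act L l x) = x := by
  funext m
  rcases cases4 L l m with rfl | rfl | h | ⟨h, h'⟩
  · have := act_bar L (m.1, !m.2) (act L m x)
    rw [Bool.not_not, act_bar, neg_neg] at this
    exact this
  · rw [act_self, act_bar, Bool.not_not, act_self]; ring
  · rw [act_adj L (l := (l.1, !l.2)) h, act_adj L h]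
  · rw [act_far L (l := (l.1, !l.2)) h h', act_far L h h', act_bar]; ring

lemma act_comm {l l' : V × Bool} (h : L.Adj l.1 l'.1) (x : V × Bool → R) :
    act L l (act L l' x) = act L l' (act L l x) := by
  funext m
  have h1 : ∀ b, act L l' x (l.1, b) = x (l.1, b) := fun b => act_adj L (m := (l.1, b)) h.symm x
  have h2 : ∀ b, act L l x (l'.1, b) = x (l'.1, b) := fun b => act_adj L (m := (l'.1, b)) h x
  have h3 : act L l' x l = x l := h1 l.2
  have h4 : act L l x l' = x l' := h2 l'.2
  rcases cases4 L l m with rfl | rfl | k | ⟨k, k'⟩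
  · rw [act_adj L h.symm (act L m x), act_self, act_self, h1, h3]
  · rw [act_adj L (m := (l.1, !l.2)) h.symm (act L l x), act_bar, act_bar, h3]
  · rw [act_adj L k]
    rcases cases4 L l' m with rfl | rfl | j | ⟨j, j'⟩
    · rw [act_self, act_self, h2, h4]
    · rw [act_bar, act_bar, h4]
    · rw [act_adj L j, act_adj L j, act_adj L k]
    · rw [act_far L j j', act_far L j j', act_adj L k, h4]
  · rw [act_far L k k', h3]
    rcases cases4 L l' m with rfl | rfl | j | ⟨j, j'⟩
    · exact absurd h k'
    · exact absurd h k'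
    · rw [act_adj L j, act_adj L j, act_far L k k']
    · rw [act_far L j j', act_far L j j', act_far L k k', h4]; ring

variable (R) in
/-- The permutation of a generator (inverse action). -/
def perm (v : V) : Equiv.Perm (V × Bool → R) :=
  ⟨act L (v, false), act L (v, true), act_act L (v, false), act_act L (v, true)⟩

variable (R) in
/-- The representation. -/
def rho : RA L →* Equiv.Perm (V × Bool → R) :=
  raLift L (perm L R) fun _ _ h => Equiv.ext fun x => act_comm L (l := (_, false)) (l' := (_, false)) h x

variable (R) in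
/-- Coordinates of a group element. -/
def xc (g : RA L) : V × Bool → R := rho L R g⁻¹ 1

lemma xc_one : xc L R 1 = 1 := by simp [xc]

lemma xc_mul (g : RA L) (l : V × Bool) : xc L R (g * lt L l) = act L l (xc L R g) := by
  obtain ⟨v, _ | _⟩ := l
  · simp only [xc, rho, mul_inv_rev, map_mul, lt_false, inv_inv, raLift_gen]; rfl
  · simp only [xc, rho, mul_inv_rev, map_mul, lt_true, map_inv, raLift_gen]; rfl

lemma ind {p : RA L → Prop} (h1 : p 1) (hs : ∀ g l, p g → p (g * lt L l)) (g : RA L) : p g := by
  obtain ⟨w, -, rfl⟩ := exists_list L g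
  induction w using List.reverseRecOn with
  | nil => exact h1
  | append_singleton w l ih => simpa using hs _ l ih

lemma xc_cast (g : RA L) : ∀ m, xc L R g m = (xc L ℤ g m : R) := by
  induction g using ind L with
  | h1 => simp [xc_one]
  | hs g l ih =>
    intro m
    simp only [xc_mul, act, ih]
    split_ifs <;> push_cast <;> rfl

lemma xc_ne (g : RA L) (m : V × Bool) : xc L ℤ g m ≠ 0 := by
  have : ∀ m, Odd (xc L ℤ g m) := by
    induction g using ind L with
    | h1 => simp [xc_one]
    | hs g l ih =>
      intro m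
      simp only [xc_mul, act]
      split_ifs <;> simp [parity_simps, ih]
  intro h
  have := this m
  rw [h] at this
  simp at this

/-- Products of up-steps. -/
inductive Up : ℕ → RA L → Prop
  | one : Up 0 1
  | step {n g l} : Up n g → 0 < xc L ℤ g l → Up (n + 1) (g * lt L l)

variable {L}

lemma Up.inv {n : ℕ} {g : RA L} (h : Up L n g) :
    ∀ a b, a ≠ b → ¬L.Adj a.1 b.1 → 0 < xc L ℤ g a + xc L ℤ g b := by
  induction h with
  | one => simp [xc_one]
  | @step n g l _ hl ih =>
    have key : ∀ b, b ≠ (l.1, !l.2) → ¬L.Adj l.1 b.1 →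
        0 < act L l (xc L ℤ g) (l.1, !l.2) + act L l (xc L ℤ g) b := by
      intro b hb hb'
      rw [act_bar]
      rcases cases4 L l b with rfl | rfl | k | ⟨k, k'⟩
      · have := ih b (b.1, !b.2) hb (L.irrefl)
        rw [act_self]; linarith
      · exact absurd rfl hb
      · exact absurd k hb'
      · have := ih l b (fun e => k (by rw [e])) k'
        rw [act_far L k k']; linarith
    have key2 : ∀ b, b ≠ l → ¬L.Adj l.1 b.1 →
        0 < act L l (xc L ℤ g) l + act L l (xc L ℤ g) b := by
      intro b hb hb'
      rcases cases4 L l b with rfl | rfl | k | ⟨k, k'⟩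
      · exact absurd rfl hb
      · rw [add_comm]; exact key l hb.symm L.irrefl
      · exact absurd k hb'
      · have := ih (l.1, !l.2) b (fun e => k (by rw [← e])) k'
        rw [act_self, act_far L k k']; linarith
    have key3 : ∀ b, b.1 ≠ l.1 → xc L ℤ g b ≤ act L l (xc L ℤ g) b := by
      intro b hb
      by_cases k : L.Adj l.1 b.1
      · rw [act_adj L k]
      · rw [act_far L hb k]; linarith
    intro a b hab hadj
    rw [xc_mul]
    have c3 : ∀ a : V × Bool, a = l ∨ a = (l.1, !l.2) ∨ a.1 ≠ l.1 := fun a => by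
      rcases cases4 L l a with h | h | h | h
      exacts [Or.inl h, Or.inr (Or.inl h), Or.inr (Or.inr h.ne'), Or.inr (Or.inr h.1)]
    rcases c3 a with rfl | rfl | ha
    · exact key2 b hab.symm hadj
    · exact key b hab.symm hadj
    · rcases c3 b with rfl | rfl | hb
      · rw [add_comm]; exact key2 a hab fun h => hadj h.symm
      · rw [add_comm]; exact key a hab fun h => hadj h.symm
      · linarith [ih a b hab hadj, key3 a ha, key3 b hb]

lemma Up.pos {g : RA L} (h : Up L 0 g) (m : V × Bool) : 0 < xc L ℤ g m := by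
  cases h; simp [xc_one]

lemma Up.neg {n : ℕ} {g : RA L} (h : Up L (n + 1) g) : ∃ m, xc L ℤ g m < 0 := by
  cases h with
  | @step _ g l _ hl => exact ⟨(l.1, !l.2), by rw [xc_mul, act_bar]; linarith⟩

lemma Up.down {n : ℕ} : ∀ {g : RA L} {m : V × Bool}, Up L n g → xc L ℤ g m < 0 →
    ∃ k, n = k + 1 ∧ Up L k (g * lt L m) := by
  induction n with
  | zero => intro g m h hm; exact absurd (h.pos m) (by omega)
  | succ n ih =>
    intro g m h hm
    refine ⟨n, rfl, ?_⟩
    have hi := h.inv
    cases h with
    | @step _ g l hg hl =>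
      by_cases e : m = (l.1, !l.2)
      · rw [e, lt_not, mul_inv_cancel_right]; exact hg
      · have hadj : L.Adj l.1 m.1 := by
          by_contra hc
          have := hi (l.1, !l.2) m (Ne.symm e) hc
          rw [xc_mul, act_bar] at this
          rw [xc_mul] at hm
          linarith
        rw [xc_mul, act_adj L hadj] at hm
        obtain ⟨k, rfl, hk⟩ := ih hg hm
        rw [mul_assoc, (lt_comm L hadj).eq, ← mul_assoc]
        exact hk.step (by rw [xc_mul, act_adj L hadj.symm]; exact hl)

lemma Up.uniq {n : ℕ} : ∀ {n' : ℕ} {g : RA L}, Up L n g → Up L n' g → n = n' := by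
  induction n with
  | zero =>
    intro n' g h h'
    cases n' with
    | zero => rfl
    | succ n' => obtain ⟨m, hm⟩ := h'.neg; exact absurd (h.pos m) (by omega)
  | succ n ih =>
    intro n' g h h'
    obtain ⟨m, hm⟩ := h.neg
    obtain ⟨k, e, hk⟩ := h.down hm
    obtain ⟨k', rfl, hk'⟩ := h'.down hm
    obtain rfl : n = k := by omega
    rw [ih hk hk']

lemma Up.len_le {n : ℕ} {g : RA L} (h : Up L n g) : len L g ≤ n := by
  induction h with
  | one => simp
  | @step n g l _ _ ih => linarith [len_mul_le L g (lt L l), len_lt_le L l]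

lemma up_len (g : RA L) : Up L (len L g) g := by
  have : ∀ w : List (V × Bool), ∃ n ≤ w.length, Up L n (w.map (lt L)).prod := fun w => by
    induction w using List.reverseRecOn with
    | nil => exact ⟨0, le_rfl, Up.one⟩
    | append_singleton w l ih =>
      obtain ⟨n, hn, h⟩ := ih
      simp only [List.map_append, List.prod_append, List.map_cons, List.map_nil, List.prod_cons,
        List.prod_nil, mul_one, List.length_append, List.length_cons, List.length_nil]
      rcases lt_or_gt_of_ne (xc_ne L (w.map (lt L)).prod l) with k | k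
      · obtain ⟨j, rfl, hj⟩ := h.down k
        exact ⟨j, by omega, hj⟩
      · exact ⟨n + 1, by omega, h.step k⟩
  obtain ⟨w, hw, rfl⟩ := exists_list L g
  obtain ⟨n, hn, h⟩ := this w
  obtain rfl : n = len L (w.map (lt L)).prod := le_antisymm (hw ▸ hn) h.len_le
  exact h

lemma len_up {g : RA L} {l : V × Bool} (h : 0 < xc L ℤ g l) : len L (g * lt L l) = len L g + 1 :=
  (up_len _).uniq ((up_len g).step h)

lemma len_down {g : RA L} {l : V × Bool} (h : xc L ℤ g l < 0) :
    len L (g * lt L l) + 1 = len L g := by
  obtain ⟨k, e, hk⟩ := (up_len g).down h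
  rw [e, (up_len _).uniq hk]

lemma down_iff {g : RA L} {l : V × Bool} : Down L g l ↔ xc L ℤ g l < 0 := by
  unfold Down
  rcases lt_or_gt_of_ne (xc_ne L g l) with k | k
  · have := len_down k
    exact iff_of_true (by omega) k
  · have := len_up k
    exact iff_of_false (by omega) (by omega)

end NFa

open NFa

theorem nf : NFStmt := by
  intro V _ L
  refine ⟨fun g l => ?_, fun g l m hl hm hlm => ?_, fun g l m h => ?_, ?_⟩
  · rcases lt_or_gt_of_ne (xc_ne L g l) with k | k
    exacts [Or.inr (len_down k), Or.inl (len_up k)]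
  · by_contra hc
    have := (up_len g).inv l m hlm hc
    rw [down_iff] at hl hm
    omega
  · rw [down_iff, down_iff, xc_mul, act_adj L h]
  · refine Group.residuallyFinite_of_forall_exists_finite_monoidHom fun g hg => ?_
    obtain ⟨m, hm⟩ := exists_down L (inv_ne_one.2 hg)
    rw [down_iff] at hm
    obtain ⟨N, hN⟩ : ∃ N : ℕ, xc L ℤ g⁻¹ m = -(N + 1) := ⟨(-xc L ℤ g⁻¹ m - 1).toNat, by omega⟩
    refine ⟨Equiv.Perm (V × Bool → ZMod (N + 3)), inferInstance, inferInstance,
      rho L (ZMod (N + 3)), fun h => ?_⟩
    have h1 := xc_cast L (R := ZMod (N + 3)) g⁻¹ m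
    rw [hN, xc, inv_inv, h] at h1
    have h2 : ((N + 2 : ℕ) : ZMod (N + 3)) = 0 := by
      simp only [Equiv.Perm.coe_one, id_eq, Pi.one_apply] at h1
      push_cast at h1 ⊢
      linear_combination h1
    rw [ZMod.natCast_eq_zero_iff] at h2
    exact absurd (Nat.le_of_dvd (by omega) h2) (by omega)

end Crest.Agent.R197
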