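import Crest.Agent.R197.Defs

/-! R197, sub-task SYS: the system of equations attached to an aspherical presentation. -/

set_option autoImplicit false

noncomputable section

namespace Crest.Agent.R197

open Function Set

namespace Sy

variable {G S S' R : Type} [Group G]

lemma ev_lift' {φ : S → G} {φ' : S' → G} {τ : S → FreeGroup S'} (h : ∀ s, ev φ' (τ s) = φ s)
    (n : FreeGroup S) : ev φ' (FreeGroup.lift τ n) = ev φ n := by
  rw [ev_lift, funext h]

lemma D_lift {φ : S → G} {φ' : S' → G} {τ : S → FreeGroup S'} (h : ∀ s, ev φ' (τ s) = φ s)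
    (n : FreeGroup S) (g : G) : D φ' (FreeGroup.lift τ n) g = d2 φ' τ (D φ n g) := by
  induction n using FreeGroup.induction_on generalizing g with
  | C1 => simp
  | of s => simp
  | inv_of s ih => simp [D_inv, h]
  | mul a b iha ihb => simp [D_mul, iha, ihb, ev_lift' h]

lemma D_eq_tr (φ : S → G) (n : FreeGroup S) (g : G) : D φ n g = tr g (D φ n 1) := by
  rw [← D_transl, mul_one]

/-- Magnus: a closed word with zero chain lies in the commutator subgroup of the kernel. -/
lemma magnus {φ : S → G} (hs : Surjective (ev φ)) {n : FreeGroup S} (hn : ev φ n = 1)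
    (h0 : D φ n 1 = 0) : n ∈ ⁅(ev φ).ker, (ev φ).ker⁆ := by
  classical
  obtain ⟨σ, hσ, h1⟩ : ∃ σ : G → FreeGroup S, (∀ g, ev φ (σ g) = g) ∧ σ 1 = 1 := by
    choose σ hσ using hs
    refine ⟨update σ 1 1, fun g => ?_, update_self _ _ _⟩
    by_cases e : g = 1
    · subst e; simp
    · rw [update_of_ne e, hσ]
  let c : G → FreeGroup S → (ev φ).ker := fun g n =>
    ⟨σ g * n * (σ (g * ev φ n))⁻¹, by simp [MonoidHom.mem_ker, hσ]⟩
  have hmul : ∀ g a b, c g (a * b) = c g a * c (g * ev φ a) b := fun g a b =>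
    Subtype.ext (by simp [c, mul_assoc])
  have hone : ∀ g, c g 1 = 1 := fun g => Subtype.ext (by simp [c])
  have key : ∀ n g, hol φ (fun g s => Abelianization.of (c g (FreeGroup.of s))) n g =
      Abelianization.of (c g n) := by
    intro n
    induction n using FreeGroup.induction_on with
    | C1 => intro g; simp [hone]
    | of s => intro g; simp
    | inv_of s ih =>
      intro g
      rw [hol_inv, ih, inv_eq_iff_mul_eq_one, mul_comm, ← map_mul, ← map_inv (ev φ), ← hmul,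
        inv_mul_cancel, hone, map_one]
    | mul a b iha ihb => intro g; rw [hol_mul, iha, ihb, hmul, map_mul]
  have h2 := key n 1
  rw [hol_comm, h0, map_zero, toMul_zero, eq_comm, ← MonoidHom.mem_ker, Abelianization.ker_of] at h2
  rw [← Subgroup.map_subtype_commutator]
  exact ⟨_, h2, by simp [c, hn, h1]⟩

lemma ev_of_mem {φ : S → G} {w : R → FreeGroup S} (hw : ∀ r, ev φ (w r) = 1) {n : FreeGroup S}
    (hn : n ∈ Subgroup.normalClosure (range w)) : ev φ n = 1 :=
  Subgroup.normalClosure_le_normal (N := (ev φ).ker) (by rintro _ ⟨r, rfl⟩; exact hw r) hn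

lemma exists_word {φ : S → G} (hs : Surjective (ev φ)) {w : R → FreeGroup S}
    (hw : ∀ r, ev φ (w r) = 1) (z : G × R →₀ ℤ) :
    ∃ y ∈ Subgroup.normalClosure (range w), D φ y 1 = d2 φ w z := by
  let K : AddSubgroup (G × R →₀ ℤ) :=
    { carrier := {z | ∃ y ∈ Subgroup.normalClosure (range w), D φ y 1 = d2 φ w z}
      zero_mem' := ⟨1, one_mem _, by simp⟩
      add_mem' := by
        rintro a b ⟨x, hx, h1⟩ ⟨y, hy, h2⟩
        exact ⟨x * y, mul_mem hx hy, by rw [D_mul, ev_of_mem hw hx, mul_one, h1, h2, map_add]⟩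
      neg_mem' := by
        rintro a ⟨x, hx, h1⟩
        exact ⟨x⁻¹, inv_mem hx, by rw [D_inv, ev_of_mem hw hx, inv_one, mul_one, h1, map_neg]⟩ }
  change z ∈ K
  induction z using Finsupp.induction_linear with
  | zero => exact zero_mem _
  | add a b ha hb => exact add_mem ha hb
  | single p k =>
    rw [← Finsupp.smul_single_one]
    refine zsmul_mem ?_ k
    obtain ⟨u, hu⟩ := hs p.1
    exact ⟨u * w p.2 * u⁻¹, Subgroup.normalClosure_normal.conj_mem _
      (Subgroup.subset_normalClosure (mem_range_self _)) u, by simp [D_conj _ _ _ (hw _), hu]⟩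

lemma exists_chain {φ : S → G} {w : R → FreeGroup S} (hw : ∀ r, ev φ (w r) = 1)
    {n : FreeGroup S} (hn : n ∈ Subgroup.normalClosure (range w)) :
    ∃ z, d2 φ w z = D φ n 1 := by
  let K : Subgroup (FreeGroup S) :=
    { carrier := {n | ev φ n = 1 ∧ ∃ z, d2 φ w z = D φ n 1}
      one_mem' := ⟨map_one _, 0, by simp⟩
      mul_mem' := by
        rintro a b ⟨ha, x, h1⟩ ⟨hb, y, h2⟩
        exact ⟨by simp [ha, hb], x + y, by rw [D_mul, ha, mul_one, map_add, h1, h2]⟩
      inv_mem' := by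
        rintro a ⟨ha, x, h1⟩
        exact ⟨by simp [ha], -x, by rw [D_inv, ha, inv_one, mul_one, map_neg, h1]⟩ }
  have : K.Normal := ⟨by
    rintro a ⟨ha, x, h1⟩ u
    exact ⟨by simp [ha], tr (ev φ u) x, by
      rw [D_conj _ _ _ ha, one_mul, d2_tr, h1, ← D_eq_tr]⟩⟩
  exact (Subgroup.normalClosure_le_normal (N := K)
    (by rintro _ ⟨r, rfl⟩; exact ⟨hw r, Finsupp.single (1, r) 1, by simp⟩) hn).2

lemma mem_of_retract (M : Subgroup (FreeGroup S')) [M.Normal] (θ : FreeGroup S' →* FreeGroup S)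
    (j : FreeGroup S →* FreeGroup S') {w : R → FreeGroup S}
    (h1 : ∀ s, (FreeGroup.of s)⁻¹ * j (θ (FreeGroup.of s)) ∈ M) (h2 : ∀ r, j (w r) ∈ M)
    {n : FreeGroup S'} (hn : θ n ∈ Subgroup.normalClosure (range w)) : n ∈ M := by
  have e : QuotientGroup.mk' M = (QuotientGroup.mk' M).comp (j.comp θ) :=
    FreeGroup.ext_hom _ _ fun s => QuotientGroup.eq.2 (h1 s)
  have h3 : j (θ n) ∈ M := Subgroup.normalClosure_le_normal (N := M.comap j)
    (by rintro _ ⟨r, rfl⟩; exact h2 r) hn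
  rw [← QuotientGroup.eq_one_iff] at h3 ⊢
  exact (DFunLike.congr_fun e n).trans h3

lemma tietze {S₀ : Type} (φ₀ : S₀ → G) {φ : S → G} {w : R → FreeGroup S} (h : Asph φ w) :
    ∃ (R' : Type) (w' : R' → FreeGroup (S₀ ⊕ S)), Asph (Sum.elim φ₀ φ) w' := by
  choose σ hσ using fun s => h.surj (φ₀ s)
  let jw : S → FreeGroup (S₀ ⊕ S) := fun s => FreeGroup.of (.inr s)
  let θw : S₀ ⊕ S → FreeGroup S := Sum.elim σ FreeGroup.of
  have hj : ∀ s, ev (Sum.elim φ₀ φ) (jw s) = φ s := fun s => by simp [jw]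
  have hθ : ∀ s, ev φ (θw s) = Sum.elim φ₀ φ s := by rintro (s | s) <;> simp [θw, hσ]
  have hθj : ∀ n, FreeGroup.lift θw (FreeGroup.lift jw n) = n := fun n =>
    DFunLike.congr_fun (FreeGroup.ext_hom ((FreeGroup.lift θw).comp (FreeGroup.lift jw))
      (MonoidHom.id _) fun s => by simp [jw, θw]) n
  let w' : R ⊕ S₀ → FreeGroup (S₀ ⊕ S) := Sum.elim (fun r => FreeGroup.lift jw (w r))
    (fun s => FreeGroup.of (.inl s) * (FreeGroup.lift jw (σ s))⁻¹)
  refine ⟨R ⊕ S₀, w', fun g => ?_, ?_, fun n hn => ?_, ?_⟩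
  · obtain ⟨n, rfl⟩ := h.surj g
    exact ⟨_, ev_lift' hj n⟩
  · rintro (r | s) <;> simp [w', ev_lift' hj, h.rel, hσ]
  · refine mem_of_retract _ (FreeGroup.lift θw) (FreeGroup.lift jw) ?_
      (fun r => Subgroup.subset_normalClosure (mem_range_self (f := w') (.inl r))) (h.ker _ (by rw [ev_lift' hθ, hn]))
    rintro (s | s)
    · have := inv_mem (Subgroup.subset_normalClosure (mem_range_self (f := w') (.inr s)))
      simp only [w', Sum.elim_inr, mul_inv_rev, inv_inv] at this
      simpa [θw, w'] using Subgroup.normalClosure_normal.mem_comm this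
    · simp [θw, jw]
  · let P₁ : (G × (R ⊕ S₀) →₀ ℤ) →ₗ[ℤ] (G × R →₀ ℤ) := Finsupp.linearCombination ℤ
      fun p => Sum.elim (fun r => Finsupp.single (p.1, r) 1) (fun _ => 0) p.2
    let P₂ : (G × (R ⊕ S₀) →₀ ℤ) →ₗ[ℤ] (G × S₀ →₀ ℤ) := Finsupp.linearCombination ℤ
      fun p => Sum.elim (fun _ => 0) (fun s => Finsupp.single (p.1, s) 1) p.2
    let pr : (G × (S₀ ⊕ S) →₀ ℤ) →ₗ[ℤ] (G × S₀ →₀ ℤ) := Finsupp.linearCombination ℤ
      fun p => Sum.elim (fun s => Finsupp.single (p.1, s) 1) (fun _ => 0) p.2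
    have h0 : ∀ z, pr (d2 (Sum.elim φ₀ φ) jw z) = 0 := fun z => by
      induction z using Finsupp.induction_linear with
      | zero => simp
      | add a b ha hb => simp [ha, hb]
      | single p k => simp [jw, pr]
    have h1 : ∀ y, d2 φ θw (d2 (Sum.elim φ₀ φ) w' y) = d2 φ w (P₁ y) := fun y => by
      induction y using Finsupp.induction_linear with
      | zero => simp
      | add a b ha hb => simp [ha, hb]
      | single p k =>
        obtain ⟨g, r | s⟩ := p
        · simp [← D_lift hθ, w', hθj, P₁]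
        · simp [← D_lift hθ, w', hθj, P₁, θw]
    have h2 : ∀ y, pr (d2 (Sum.elim φ₀ φ) w' y) = P₂ y := fun y => by
      induction y using Finsupp.induction_linear with
      | zero => simp
      | add a b ha hb => simp [ha, hb]
      | single p k =>
        obtain ⟨g, r | s⟩ := p
        · simp [w', D_lift hj, h0, P₂]
        · simp only [d2_single, w', Sum.elim_inr, D_mul, D_inv, D_lift hj, map_smul, map_add,
            map_neg, h0]
          simp [pr, P₂]
    have h3 : ∀ y, y = Finsupp.mapDomain (Prod.map id Sum.inl) (P₁ y) +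
        Finsupp.mapDomain (Prod.map id Sum.inr) (P₂ y) := fun y => by
      induction y using Finsupp.induction_linear with
      | zero => simp
      | add a b ha hb =>
        rw [map_add, map_add, Finsupp.mapDomain_add, Finsupp.mapDomain_add, add_add_add_comm,
          ← ha, ← hb]
      | single p k => obtain ⟨g, r | s⟩ := p <;> simp [P₁, P₂]
    rw [injective_iff_map_eq_zero]
    intro y hy
    have a1 : P₁ y = 0 := h.inj (by rw [← h1, hy, map_zero, map_zero])
    have a2 : P₂ y = 0 := by rw [← h2, hy, map_zero]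
    rw [h3 y, a1, a2]; simp

lemma main {S₀ R₀ T₀ : Type} {φ₀ : S₀ → G} {w₀ : R₀ → FreeGroup S₀} {φ₁ : T₀ → G}
    {w : R → FreeGroup (S₀ ⊕ T₀)} (h₀ : Acyc φ₀ w₀) (h : Asph (Sum.elim φ₀ φ₁) w) :
    ∃ v : R → FreeGroup (S₀ ⊕ (T₀ ⊕ R₀)), Sys φ₀ w₀ (Sum.elim φ₁ fun _ => 1) Sum.inr v := by
  set φ := Sum.elim φ₀ φ₁ with hφ
  set Φ : S₀ ⊕ (T₀ ⊕ R₀) → G := Sum.elim φ₀ (Sum.elim φ₁ fun _ => 1) with hΦ
  choose τ hτ using fun t => h₀.surj (φ₁ t)
  let ψw : S₀ ⊕ T₀ → FreeGroup S₀ := Sum.elim FreeGroup.of τ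
  let iw : S₀ → FreeGroup (S₀ ⊕ T₀) := fun s => FreeGroup.of (.inl s)
  let jw : S₀ ⊕ T₀ → FreeGroup (S₀ ⊕ (T₀ ⊕ R₀)) := fun s => FreeGroup.of (s.map id .inl)
  let aw : R₀ → FreeGroup (S₀ ⊕ (T₀ ⊕ R₀)) := fun e => FreeGroup.of (.inr (.inr e))
  let θw : S₀ ⊕ (T₀ ⊕ R₀) → FreeGroup (S₀ ⊕ T₀) :=
    Sum.elim iw (Sum.elim (fun t => FreeGroup.of (.inr t)) fun _ => 1)
  have hψ : ∀ s, ev φ₀ (ψw s) = φ s := by rintro (s | s) <;> simp [ψw, hτ, hφ]
  have hi : ∀ s, ev φ (iw s) = φ₀ s := fun s => by simp [iw, hφ]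
  have hj : ∀ s, ev Φ (jw s) = φ s := by rintro (s | s) <;> simp [jw, hφ, hΦ]
  have ha : ∀ e, ev Φ (aw e) = 1 := fun e => by simp [aw, hΦ]
  have hθ : ∀ s, ev φ (θw s) = Φ s := by rintro (s | s | s) <;> simp [θw, iw, hφ, hΦ]
  have hψi : ∀ n, FreeGroup.lift ψw (FreeGroup.lift iw n) = n := fun n =>
    DFunLike.congr_fun (FreeGroup.ext_hom ((FreeGroup.lift ψw).comp (FreeGroup.lift iw))
      (MonoidHom.id _) fun s => by simp [iw, ψw]) n
  have hji : ∀ n, FreeGroup.lift jw (FreeGroup.lift iw n) = FreeGroup.map Sum.inl n := fun n =>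
    DFunLike.congr_fun (FreeGroup.ext_hom ((FreeGroup.lift jw).comp (FreeGroup.lift iw))
      (FreeGroup.map Sum.inl) fun s => by simp [iw, jw]) n
  have hsurj : Surjective (ev Φ) := fun g => by
    obtain ⟨n, rfl⟩ := h.surj g
    exact ⟨_, ev_lift' hj n⟩
  choose π hπ using fun r => h₀.ex1 (D φ₀ (FreeGroup.lift ψw (w r)) 1)
    (by rw [d1_D, ev_lift' hψ, h.rel, mul_one, sub_self])
  choose A hA hA' using fun r => exists_word hsurj ha (π r)
  choose me hme using fun e => exists_chain h.rel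
    (h.ker (FreeGroup.lift iw (w₀ e)) (by rw [ev_lift' hi, h₀.rel]))
  choose mt hmt using fun t => exists_chain h.rel
    (h.ker (FreeGroup.of (.inr t) * (FreeGroup.lift iw (τ t))⁻¹) (by
      rw [map_mul, map_inv, ev_lift' hi, hτ, ev_of]; exact mul_inv_cancel _))
  let v : R → FreeGroup (S₀ ⊕ (T₀ ⊕ R₀)) := fun r => FreeGroup.lift jw (w r) * A r
  have hv : ∀ r, ev Φ (v r) = 1 := fun r => by
    simp [v, ev_lift' hj, h.rel, ev_of_mem ha (hA r)]
  let Pi : (G × R →₀ ℤ) →ₗ[ℤ] (G × R₀ →₀ ℤ) :=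
    Finsupp.linearCombination ℤ fun p => tr p.1 (π p.2)
  have e1 : ∀ z, d2 Φ v z = d2 Φ jw (d2 φ w z) + d2 Φ aw (Pi z) := fun z => by
    induction z using Finsupp.induction_linear with
    | zero => simp
    | add a b ha hb => simp only [map_add, ha, hb]; abel
    | single p k =>
      simp only [d2_single, v, D_mul, D_lift hj, ev_lift' hj, h.rel, mul_one, Pi,
        Finsupp.linearCombination_single, map_smul, smul_add, d2_tr, ← hA', ← D_eq_tr]
  have e2 : ∀ z, d2 φ₀ w₀ (Pi z) = d2 φ₀ ψw (d2 φ w z) := fun z => by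
    induction z using Finsupp.induction_linear with
    | zero => simp
    | add a b ha hb => simp only [map_add, ha, hb]
    | single p k =>
      simp only [d2_single, Pi, Finsupp.linearCombination_single, map_smul, d2_tr, hπ, ← D_eq_tr]
      rw [D_lift hψ]
  refine ⟨v, fun _ => rfl, hv, fun n hn => ?_, fun e => ?_, Sum.elim mt me, fun g r => ?_⟩
  · refine mem_of_retract _ (FreeGroup.lift θw) (FreeGroup.lift jw) ?_ (fun r => ?_)
      (h.ker _ (by rw [ev_lift' hθ, hn]))
    · rintro (s | s | s)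
      · simp [θw, iw, jw]
      · simp [θw, jw]
      · simp only [θw, FreeGroup.lift_apply_of, Sum.elim_inr, map_one, mul_one, inv_mem_iff]
        exact Subgroup.subset_normalClosure (Or.inr ⟨s, rfl⟩)
    · rw [← mul_inv_cancel_right (FreeGroup.lift jw (w r)) (A r)]
      exact mul_mem (Subgroup.subset_normalClosure (Or.inl ⟨r, rfl⟩))
        (inv_mem (Subgroup.normalClosure_mono subset_union_right (hA r)))
  · have a1 : Pi (me e) = Finsupp.single (1, e) 1 := h₀.inj (by
      rw [e2, hme, ← D_lift hψ, hψi, d2_single, one_smul])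
    have a0 : ev Φ (FreeGroup.map Sum.inl (w₀ e)) = 1 := by
      rw [← hji, ev_lift' hj, ev_lift' hi, h₀.rel]
    obtain ⟨y, hy, hy'⟩ := exists_word hsurj hv (me e)
    rw [e1, hme, a1, ← D_lift hj, hji, d2_single, one_smul] at hy'
    have a2 := magnus hsurj (n := y⁻¹ * (FreeGroup.map Sum.inl (w₀ e) * aw e))
      (by simp [ev_of_mem hv hy, a0, ha])
      (by simp [D_mul, D_inv, ev_of_mem hv hy, a0, hy'])
    rw [← mul_inv_cancel_left y (FreeGroup.map Sum.inl (w₀ e) * _)]
    exact Subgroup.mul_mem_sup hy a2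
  · set Λ := Finsupp.linearCombination ℤ (fun p : G × (S₀ ⊕ (T₀ ⊕ R₀)) =>
      Sum.elim (fun _ => 0) (fun t => tr p.1 (Sum.elim mt me t)) p.2) with hΛ
    have e3 : ∀ z, d2 φ w (Λ (d2 Φ jw z)) = z - d2 φ iw (d2 φ₀ ψw z) := fun z => by
      induction z using Finsupp.induction_linear with
      | zero => simp
      | add a b ha hb => simp only [map_add, ha, hb]; abel
      | single p k =>
        obtain ⟨g, s | t⟩ := p
        · simp [hΛ, jw, iw, ψw]
        · simp only [d2_single, jw, Sum.map_inr, D_of, hΛ, map_smul,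
            Finsupp.linearCombination_single, one_smul, Sum.elim_inr, Sum.elim_inl, d2_tr, hmt,
            ← D_eq_tr, ψw]
          rw [D_mul, D_inv, D_lift hi, ev_lift' hi, hτ]
          simp [hφ, sub_eq_add_neg]
    have e4 : ∀ z, d2 φ w (Λ (d2 Φ aw z)) = d2 φ iw (d2 φ₀ w₀ z) := fun z => by
      induction z using Finsupp.induction_linear with
      | zero => simp
      | add a b ha hb => simp only [map_add, ha, hb]
      | single p k =>
        simp only [d2_single, aw, D_of, hΛ, map_smul, Finsupp.linearCombination_single, one_smul,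
          Sum.elim_inr, d2_tr, hme, ← D_eq_tr]
        rw [D_lift hi]
    apply h.inj
    have := e1 (Finsupp.single (g, r) 1)
    rw [d2_single, one_smul] at this
    rw [this, map_add, map_add, e3, e4, e2, sub_add_cancel]

end Sy

theorem sys : SysStmt := by
  intro G S₀ R₀ S R _ φ₀ w₀ φ w h₀ h
  obtain ⟨R', w', h'⟩ := Sy.tietze φ₀ h
  obtain ⟨v, hv⟩ := Sy.main h₀ h'
  exact ⟨_, _, _, _, v, hv⟩

end Crest.Agent.R197
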