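import Crest.Agent.R197.Top3B

/-!
# R197, TOP3: a three-dimensional classifying complex for the Bestvina-Brady group
-/

set_option autoImplicit false

namespace Crest.Agent.R197

open T3 in
theorem top3 : Top3Stmt := by
  intro V _ _ L nf h2 _
  have hY : ContractibleSpace (E L) := contractible nf
  have hq := isQuotientCoveringMap (L := L)
  refine ⟨Sp (htM L), inferInstance, cw _, inferInstance, fun n hn => ⟨fun c => ?_⟩,
    ⟨E L, inferInstance, _, hY, hq.isCoveringMap, hq.surjective⟩,
    _, ⟨(hq.fundamentalGroupEquiv ⟨ψ nf 1 0, rfl⟩).trans (MulEquiv.inv' (BB L)).symm⟩⟩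
  have h1 := h2 _ (show cell (htM L) n from c).2.1
  have h3 := (show cell (htM L) n from c).2.2
  omega

end Crest.Agent.R197
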