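import Crest.Agent.R197.Defs

/-!
# R197, TOP3 (a), (b): the cube complex of a right-angled Artin group and its quotients
-/

set_option autoImplicit false
set_option linter.unusedSectionVars false

noncomputable section

namespace Crest.Agent.R197.T3

open Set Metric _root_.Topology
open scoped unitInterval

variable {V : Type} [Fintype V] [LinearOrder V] {L : SimpleGraph V}

/-! ### Products over cliques -/

variable (L) in
/-- Cliques. -/
abbrev Cq (τ : Finset V) : Prop := L.IsClique (τ : Set V)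

lemma Cq.mono {τ τ' : Finset V} (h : Cq L τ) (h' : τ' ⊆ τ) : Cq L τ' :=
  SimpleGraph.IsClique.subset (Finset.coe_subset.2 h') h

lemma Cq.adj {τ : Finset V} (h : Cq L τ) {u v : V} (hu : u ∈ τ) (hv : v ∈ τ) (huv : u ≠ v) :
    L.Adj u v := h (Finset.mem_coe.2 hu) (Finset.mem_coe.2 hv) huv

variable (L) in
open Classical in
/-- Product of the generators of a clique. -/
def pr (τ : Finset V) : RA L :=
  if h : Cq L τ then τ.noncommProd (gen L) (fun _ hu _ hv huv => gen_comm L (h hu hv huv)) else 1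

@[simp] lemma pr_empty : pr L ∅ = 1 := by
  unfold pr; split_ifs <;> simp

lemma pr_union {τ τ' : Finset V} (hd : Disjoint τ τ') (h : Cq L (τ ∪ τ')) :
    pr L (τ ∪ τ') = pr L τ * pr L τ' := by
  unfold pr
  rw [dif_pos h, dif_pos (h.mono Finset.subset_union_left),
    dif_pos (h.mono Finset.subset_union_right), Finset.noncommProd_union_of_disjoint hd]

lemma pr_single (v : V) : pr L {v} = gen L v := by
  unfold pr
  rw [dif_pos (by simp [Cq])]; simp

lemma pr_sdiff {τ τ' : Finset V} (h : Cq L τ) (h' : τ' ⊆ τ) :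
    pr L τ = pr L (τ \ τ') * pr L τ' := by
  rw [← pr_union Finset.sdiff_disjoint (by rwa [Finset.sdiff_union_of_subset h']),
    Finset.sdiff_union_of_subset h']

lemma pr_erase {τ : Finset V} (h : Cq L τ) {v : V} (hv : v ∈ τ) :
    pr L τ = pr L (τ.erase v) * gen L v := by
  rw [pr_sdiff h (Finset.singleton_subset_iff.2 hv), pr_single, Finset.sdiff_singleton_eq_erase]

lemma pr_comm {τ τ' : Finset V} (hd : Disjoint τ τ') (h : Cq L (τ ∪ τ')) :
    pr L τ * pr L τ' = pr L τ' * pr L τ := by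
  rw [← pr_union hd h, Finset.union_comm, pr_union hd.symm (by rwa [Finset.union_comm])]

lemma ht_pr {τ : Finset V} (h : Cq L τ) : ht L (pr L τ) = τ.card := by
  induction τ using Finset.induction_on with
  | empty => simp
  | insert v τ hv ih =>
    rw [pr_erase h (Finset.mem_insert_self _ _), Finset.erase_insert hv, ht_mul, ht_gen,
      ih (h.mono (Finset.subset_insert _ _)), Finset.card_insert_of_notMem hv]
    push_cast; rfl

/-! ### The space -/

open Classical in
/-- Non-zero coordinates. -/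
def supp (y : V → I) : Finset V := Finset.univ.filter fun v => y v ≠ 0

open Classical in
/-- Coordinates equal to one. -/
def ones (y : V → I) : Finset V := Finset.univ.filter fun v => y v = 1

@[simp] lemma mem_supp {y : V → I} {v : V} : v ∈ supp y ↔ y v ≠ 0 := by simp [supp]
@[simp] lemma mem_ones {y : V → I} {v : V} : v ∈ ones y ↔ y v = 1 := by simp [ones]

lemma ones_subset (y : V → I) : ones y ⊆ supp y := fun v hv => by
  rw [mem_supp, mem_ones.1 hv]; exact one_ne_zero

variable {Γ Γ' : Type} [Group Γ] [Group Γ']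

/-- Points of the cube complex, in normal form. -/
@[ext] structure Sp (π : RA L →* Γ) : Type where
  /-- base vertex -/
  g : Γ
  /-- coordinates -/
  y : V → I
  ne_one : ∀ v, y v ≠ 1
  clq : Cq L (supp y)

variable {π : RA L →* Γ} {π' : RA L →* Γ'}

open Classical in
/-- Normal form. -/
def mk (π : RA L →* Γ) (g : Γ) (y : V → I) (h : Cq L (supp y)) : Sp π where
  g := g * π (pr L (ones y))
  y v := if y v = 1 then 0 else y v
  ne_one v := by split_ifs with h1; exacts [zero_ne_one, h1]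
  clq := h.mono fun v hv => by
    rw [mem_supp] at hv ⊢
    intro h0; simp [h0] at hv

lemma mk_g (g : Γ) (y : V → I) (h : Cq L (supp y)) : (mk π g y h).g = g * π (pr L (ones y)) := rfl

lemma mk_y_one {g : Γ} {y : V → I} {h : Cq L (supp y)} {v : V} (hv : y v = 1) :
    (mk π g y h).y v = 0 := if_pos hv

lemma mk_y_ne {g : Γ} {y : V → I} {h : Cq L (supp y)} {v : V} (hv : y v ≠ 1) :
    (mk π g y h).y v = y v := if_neg hv

lemma mk_eq_mk {g g' : Γ} {y y' : V → I} {h : Cq L (supp y)} {h' : Cq L (supp y')} (τ : Finset V)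
    (h1 : ∀ v ∈ τ, y v = 1) (h2 : ∀ v ∈ τ, y' v = 0) (h3 : ∀ v ∉ τ, y' v = y v)
    (hg : g' = g * π (pr L τ)) : mk π g y h = mk π g' y' h' := by
  have hτ : τ ⊆ ones y := fun v hv => mem_ones.2 (h1 v hv)
  have e : ones y' = ones y \ τ := by
    ext v
    by_cases hv : v ∈ τ
    · simp [hv, h2 v hv]
    · simp [hv, h3 v hv]
  have hc : Cq L (ones y) := h.mono (ones_subset y)
  refine Sp.ext ?_ (funext fun v => ?_)
  · rw [mk_g, mk_g, hg, e, mul_assoc, ← map_mul,
      ← pr_union Finset.disjoint_sdiff (by rwa [Finset.union_sdiff_of_subset hτ]),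
      Finset.union_sdiff_of_subset hτ]
  · by_cases hv : v ∈ τ
    · rw [mk_y_one (h1 v hv), mk_y_ne (by rw [h2 v hv]; exact zero_ne_one), h2 v hv]
    · simp only [mk, h3 v hv]

lemma mk_congr {g g' : Γ} {y y' : V → I} {h : Cq L (supp y)} {h' : Cq L (supp y')}
    (hg : g = g') (hy : ∀ v, y v = y' v) : mk π g y h = mk π g' y' h' := by
  obtain rfl : y = y' := funext hy
  rw [hg]

lemma mk_self (x : Sp π) : mk π x.g x.y x.clq = x := by
  have : ones x.y = ∅ := Finset.eq_empty_of_forall_notMem fun v hv => x.ne_one v (mem_ones.1 hv)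
  exact Sp.ext (by rw [mk_g, this]; simp) (funext fun v => mk_y_ne (x.ne_one v))

/-- Restriction of coordinates. -/
def res (κ : Finset V) (z : V → I) : V → I := fun v => if v ∈ κ then z v else 0

lemma res_mem {κ : Finset V} {v : V} (h : v ∈ κ) (z : V → I) : res κ z v = z v := if_pos h
lemma res_not {κ : Finset V} {v : V} (h : v ∉ κ) (z : V → I) : res κ z v = 0 := if_neg h

lemma supp_res (κ : Finset V) (z : V → I) : supp (res κ z) ⊆ κ := fun v hv => by
  by_contra h; exact mem_supp.1 hv (res_not h z)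

lemma continuous_res (κ : Finset V) : Continuous (res κ) :=
  continuous_pi fun v => by
    unfold res; split_ifs
    exacts [continuous_apply v, continuous_const]

/-- Cube maps. -/
def χ (π : RA L →* Γ) (g : Γ) (κ : Finset V) (h : Cq L κ) (z : V → I) : Sp π :=
  mk π g (res κ z) (h.mono (supp_res κ z))

lemma χ_self (x : Sp π) : χ π x.g (supp x.y) x.clq x.y = x := by
  refine Eq.trans (mk_congr rfl fun v => ?_) (mk_self x)
  by_cases hv : v ∈ supp x.y
  · exact res_mem hv _
  · rw [res_not hv]; exact (not_not.1 (mt mem_supp.2 hv)).symm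

instance : TopologicalSpace (Sp π) :=
  ⨆ c : Γ × {κ : Finset V // Cq L κ}, .coinduced (χ π c.1 c.2.1 c.2.2) inferInstance

lemma continuous_iff {Z : Type*} [TopologicalSpace Z] (F : Sp π → Z) :
    Continuous F ↔ ∀ g κ h, Continuous fun z => F (χ π g κ h z) := by
  refine continuous_iSup_dom.trans ⟨fun H g κ h => ?_, fun H c => ?_⟩
  · exact continuous_coinduced_dom.1 (H (g, ⟨κ, h⟩))
  · exact continuous_coinduced_dom.2 (H _ _ _)

lemma continuous_χ (g : Γ) (κ : Finset V) (h : Cq L κ) : Continuous (χ π g κ h) :=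
  (continuous_iff id).1 continuous_id g κ h

lemma isOpen_iff (U : Set (Sp π)) : IsOpen U ↔ ∀ g κ h, IsOpen (χ π g κ h ⁻¹' U) := by
  refine isOpen_iSup_iff.trans ⟨fun H g κ h => ?_, fun H c => ?_⟩
  · exact isOpen_coinduced.1 (H (g, ⟨κ, h⟩))
  · exact isOpen_coinduced.2 (H _ _ _)

/-- A function of the coordinate that does not distinguish `0` and `1` is continuous. -/
lemma continuous_coord (f : ℝ → ℝ) (hf : Continuous f) (h01 : f 0 = f 1) (v : V) :
    Continuous fun x : Sp π => f (x.y v) := by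
  rw [continuous_iff]
  intro g κ h
  have : (fun z => f ((χ π g κ h z).y v)) = fun z => f (res κ z v) := by
    funext z
    by_cases h1 : res κ z v = 1
    · rw [χ, mk_y_one h1, h1]; exact h01
    · rw [χ, mk_y_ne h1]
  rw [this]
  exact hf.comp (continuous_subtype_val.comp ((continuous_apply v).comp (continuous_res κ)))

/-- First coordinate function. -/
def f1 (v : V) (x : Sp π) : ℝ := x.y v * (1 - x.y v)
/-- Second coordinate function. -/
def f2 (v : V) (x : Sp π) : ℝ := x.y v * (x.y v * (1 - x.y v))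

lemma continuous_f1 (v : V) : Continuous (f1 v : Sp π → ℝ) :=
  continuous_coord (fun r => r * (1 - r)) (by fun_prop) (by simp) v

lemma continuous_f2 (v : V) : Continuous (f2 v : Sp π → ℝ) :=
  continuous_coord (fun r => r * (r * (1 - r))) (by fun_prop) (by simp) v

lemma f1_eq_zero {v : V} {x : Sp π} : f1 v x = 0 ↔ x.y v = 0 := by
  have : (1 : ℝ) - x.y v ≠ 0 := fun h => x.ne_one v (Subtype.ext (sub_eq_zero.1 h).symm)
  simp [f1, this]

lemma f2_div (v : V) (x : Sp π) : f2 v x / f1 v x = x.y v := by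
  by_cases h : f1 v x = 0
  · rw [h, div_zero, f1_eq_zero.1 h]; rfl
  · exact mul_div_cancel_right₀ _ h

/-- Height. -/
def hgt (x : Sp (htM L)) : ℝ := (Multiplicative.toAdd x.g : ℤ) + ∑ v, (x.y v : ℝ)

lemma continuous_hgt : Continuous (hgt : Sp (htM L) → ℝ) := by
  rw [continuous_iff]
  intro g κ h
  have : (fun z => hgt (χ (htM L) g κ h z)) =
      fun z => ((Multiplicative.toAdd g : ℤ) : ℝ) + ∑ v, (res κ z v : ℝ) := by
    funext z
    have h1 := ht_pr ((h.mono (supp_res κ z)).mono (ones_subset _))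
    have h2 : ∑ v, (res κ z v : ℝ) =
        ∑ v, ((if v ∈ ones (res κ z) then 1 else 0) + ((χ (htM L) g κ h z).y v : ℝ)) := by
      refine Finset.sum_congr rfl fun v _ => ?_
      by_cases h1 : res κ z v = 1
      · rw [χ, mk_y_one h1, if_pos (mem_ones.2 h1), h1]; simp
      · rw [χ, mk_y_ne h1, if_neg (mt mem_ones.1 h1), zero_add]
    rw [h2, Finset.sum_add_distrib, hgt, ← add_assoc]
    congr 1
    rw [χ, mk_g, toAdd_mul]
    rw [ht] at h1
    simp only [h1, Finset.sum_ite_mem, Finset.univ_inter, Finset.sum_const, nsmul_eq_mul, mul_one,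
      Int.cast_add, Int.cast_natCast]
  rw [this]
  have := continuous_res κ
  fun_prop

instance : T2Space (Sp (htM L)) := by
  refine ⟨fun x x' hne => ?_⟩
  by_contra hcon
  have hy : x.y = x'.y := funext fun v => Subtype.ext (by
    have h1 : f1 v x = f1 v x' := by
      by_contra h; exact hcon (separated_by_continuous (continuous_f1 v) h)
    have h2 : f2 v x = f2 v x' := by
      by_contra h; exact hcon (separated_by_continuous (continuous_f2 v) h)
    rw [← f2_div, ← f2_div, h1, h2])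
  have h3 : hgt x = hgt x' := by
    by_contra h; exact hcon (separated_by_continuous continuous_hgt h)
  rw [hgt, hgt, hy, add_left_inj, Int.cast_inj] at h3
  exact hne (Sp.ext (Multiplicative.toAdd.injective h3) hy)

/-! ### The CW structure -/

/-- A partial equivalence from a map with a left inverse on `s`. -/
def mkPE {α β : Type} (f : α → β) (g : β → α) (s : Set α) (h : ∀ x ∈ s, g (f x) = x) :
    PartialEquiv α β where
  toFun := f
  invFun := g
  source := s
  target := f '' s
  map_source' := fun _ hx => mem_image_of_mem f hx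
  map_target' := by rintro _ ⟨x, hx, rfl⟩; rwa [h x hx]
  left_inv' := h
  right_inv' := by rintro _ ⟨x, hx, rfl⟩; rw [h x hx]

/-- Rescaling `[-1,1]` to `[0,1]`. -/
def sc (r : ℝ) : I := projIcc 0 1 zero_le_one ((r + 1) / 2)

lemma continuous_sc : Continuous sc := continuous_projIcc.comp (by fun_prop)

lemma sc_coe {r : ℝ} (h : |r| ≤ 1) : (sc r : ℝ) = (r + 1) / 2 := by
  have := abs_le.1 h
  rw [sc, projIcc_of_mem _ ⟨by linarith, by linarith⟩]

lemma sc_ne_zero {r : ℝ} (h : |r| < 1) : sc r ≠ 0 := by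
  intro h'
  have h1 := sc_coe h.le
  have := abs_lt.1 h
  rw [h'] at h1
  simp at h1; linarith

lemma sc_ne_one {r : ℝ} (h : |r| < 1) : sc r ≠ 1 := by
  intro h'
  have h1 := sc_coe h.le
  have := abs_lt.1 h
  rw [h'] at h1
  simp at h1; linarith

lemma sc_of_abs {r : ℝ} (h : |r| = 1) : sc r = 0 ∨ sc r = 1 := by
  have h1 := sc_coe h.le
  rcases abs_eq (zero_le_one) |>.1 h with h' | h'
  · right; apply Subtype.ext; rw [h1, h']; simp
  · left; apply Subtype.ext; rw [h1, h']; simp

lemma sc_inv (s : I) : sc (2 * s - 1) = s := by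
  apply Subtype.ext
  rw [sc_coe (abs_le.2 ⟨by linarith [s.2.1], by linarith [s.2.2]⟩)]; ring

lemma mem_ball_iff {n : ℕ} (z : Fin n → ℝ) : z ∈ ball (0 : Fin n → ℝ) 1 ↔ ∀ i, |z i| < 1 := by
  rw [mem_ball_zero_iff, pi_norm_lt_iff one_pos]; rfl

lemma mem_closedBall_iff {n : ℕ} (z : Fin n → ℝ) :
    z ∈ closedBall (0 : Fin n → ℝ) 1 ↔ ∀ i, |z i| ≤ 1 := by
  rw [mem_closedBall_zero_iff, pi_norm_le_iff_of_nonneg zero_le_one]; rfl

lemma exists_of_mem_sphere {n : ℕ} {z : Fin n → ℝ} (h : z ∈ sphere (0 : Fin n → ℝ) 1) :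
    ∃ i, |z i| = 1 := by
  have h1 := (mem_closedBall_iff z).1 (sphere_subset_closedBall h)
  by_contra hcon
  push Not at hcon
  have h2 := (mem_ball_iff z).2 fun i => lt_of_le_of_ne (h1 i) (hcon i)
  rw [mem_ball] at h2
  rw [mem_sphere] at h
  linarith

/-- The cells. -/
def cell (_π : RA L →* Γ) (n : ℕ) : Type := {c : Γ × Finset V // Cq L c.2 ∧ c.2.card = n}

/-- Numbering of the directions of a cell. -/
def cell.e {n : ℕ} (c : cell π n) : c.1.2 ≃ Fin n := Finset.equivFinOfCardEq c.2.2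

/-- Coordinates on a cell. -/
def cell.co {n : ℕ} (c : cell π n) (w : Fin n → ℝ) : V → I :=
  fun v => if h : v ∈ c.1.2 then sc (w (c.e ⟨v, h⟩)) else 0

lemma cell.continuous_co {n : ℕ} (c : cell π n) : Continuous c.co :=
  continuous_pi fun v => by
    unfold cell.co; split_ifs
    exacts [continuous_sc.comp (continuous_apply _), continuous_const]

lemma cell.co_symm {n : ℕ} (c : cell π n) (w : Fin n → ℝ) (i : Fin n) :
    c.co w (c.e.symm i) = sc (w i) := by
  rw [cell.co, dif_pos (c.e.symm i).2]; simp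

lemma cell.res_co {n : ℕ} (c : cell π n) (w : Fin n → ℝ) : res c.1.2 (c.co w) = c.co w := by
  funext v
  by_cases h : v ∈ c.1.2
  · exact res_mem h _
  · rw [res_not h, cell.co, dif_neg h]

lemma cell.co_ne_one {n : ℕ} (c : cell π n) {w : Fin n → ℝ} (hw : w ∈ ball (0 : Fin n → ℝ) 1)
    (v : V) : c.co w v ≠ 1 := by
  unfold cell.co; split_ifs
  exacts [sc_ne_one ((mem_ball_iff w).1 hw _), zero_ne_one]

lemma cell.χ_y {n : ℕ} (c : cell π n) {w : Fin n → ℝ} (hw : w ∈ ball (0 : Fin n → ℝ) 1) :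
    (χ π c.1.1 c.1.2 c.2.1 (c.co w)).y = c.co w := by
  funext v
  rw [χ, mk_y_ne (by rw [c.res_co]; exact c.co_ne_one hw v), c.res_co]

lemma cell.χ_g {n : ℕ} (c : cell π n) {w : Fin n → ℝ} (hw : w ∈ ball (0 : Fin n → ℝ) 1) :
    (χ π c.1.1 c.1.2 c.2.1 (c.co w)).g = c.1.1 := by
  have : ones (c.co w) = ∅ :=
    Finset.eq_empty_of_forall_notMem fun v hv => c.co_ne_one hw v (mem_ones.1 hv)
  rw [χ, mk_g, c.res_co, this]; simp

lemma cell.supp_co {n : ℕ} (c : cell π n) {w : Fin n → ℝ} (hw : w ∈ ball (0 : Fin n → ℝ) 1) :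
    supp (c.co w) = c.1.2 := by
  ext v
  rw [mem_supp, cell.co]
  split_ifs with h
  · simp [h, sc_ne_zero ((mem_ball_iff w).1 hw _)]
  · simp [h]

/-- Characteristic maps. -/
def cmap (n : ℕ) (c : cell π n) : PartialEquiv (Fin n → ℝ) (Sp π) :=
  mkPE (fun w => χ π c.1.1 c.1.2 c.2.1 (c.co w))
    (fun x i => 2 * (f2 (c.e.symm i).1 x / f1 (c.e.symm i).1 x) - 1) (ball 0 1) fun w hw => by
      funext i
      rw [f2_div, c.χ_y hw, c.co_symm, sc_coe ((mem_ball_iff w).1 hw i).le]; ring

lemma χ_mem (g : Γ) (κ : Finset V) (h : Cq L κ) {n : ℕ} (hn : κ.card = n) (z : V → I) :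
    χ π g κ h z ∈ cmap n ⟨(g, κ), h, hn⟩ '' closedBall 0 1 := by
  let c : cell π n := ⟨(g, κ), h, hn⟩
  refine ⟨fun i => 2 * z (c.e.symm i) - 1, (mem_closedBall_iff _).2 fun i =>
    abs_le.2 ⟨by linarith [(z (c.e.symm i)).2.1], by linarith [(z (c.e.symm i)).2.2]⟩, ?_⟩
  change χ π g κ h (c.co _) = _
  refine mk_congr rfl fun v => ?_
  by_cases hv : v ∈ κ
  · rw [res_mem hv, res_mem hv, cell.co, dif_pos hv, Equiv.symm_apply_apply, sc_inv]
  · rw [res_not hv, res_not hv]

lemma χ_face0 {g : Γ} {κ : Finset V} (h : Cq L κ) {v : V} {z : V → I} (hz : z v = 0) :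
    χ π g κ h z = χ π g (κ.erase v) (h.mono (Finset.erase_subset _ _)) z := by
  refine mk_congr rfl fun u => ?_
  by_cases huv : u = v
  · subst huv; simp [res, hz]
  · simp [res, huv]

lemma χ_face1 {g : Γ} {κ : Finset V} (h : Cq L κ) {v : V} (hv : v ∈ κ) {z : V → I} (hz : z v = 1) :
    χ π g κ h z = χ π (g * π (gen L v)) (κ.erase v) (h.mono (Finset.erase_subset _ _)) z := by
  refine mk_eq_mk {v} (fun u hu => ?_) (fun u hu => ?_) (fun u hu => ?_) (by rw [pr_single])
  · rw [Finset.mem_singleton.1 hu, res_mem hv, hz]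
  · rw [Finset.mem_singleton.1 hu, res_not (Finset.notMem_erase _ _)]
  · simp [res, Finset.notMem_singleton.1 hu]

/-- The CW structure. -/
@[reducible] def cw (π : RA L →* Γ) : CWComplex (univ : Set (Sp π)) where
  cell := cell π
  map := cmap
  source_eq _ _ := rfl
  continuousOn _ c := ((continuous_χ _ _ c.2.1).comp c.continuous_co).continuousOn
  continuousOn_symm n c := by
    refine continuousOn_pi.2 fun i => ?_
    refine (continuousOn_const.mul ((continuous_f2 _).continuousOn.div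
      (continuous_f1 _).continuousOn ?_)).sub continuousOn_const
    rintro _ ⟨w, hw, rfl⟩
    rw [Ne, f1_eq_zero, c.χ_y hw, c.co_symm]
    exact sc_ne_zero ((mem_ball_iff w).1 hw i)
  pairwiseDisjoint' := by
    rintro ⟨n, c⟩ _ ⟨n', c'⟩ _ hab
    rw [Function.onFun, Set.disjoint_left]
    rintro _ ⟨w, hw, rfl⟩ ⟨w', hw', h⟩
    have h1 : c'.1.1 = c.1.1 := by rw [← c.χ_g hw, ← c'.χ_g hw']; exact congrArg Sp.g h
    have h2 : c'.1.2 = c.1.2 := by
      rw [← c.supp_co hw, ← c'.supp_co hw', ← c.χ_y hw, ← c'.χ_y hw']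
      exact congrArg (fun x : Sp π => supp x.y) h
    obtain rfl : n = n' := by rw [← c.2.2, ← c'.2.2, h2]
    exact hab (by rw [show c = c' from Subtype.ext (Prod.ext h1.symm h2.symm)])
  mapsTo' n c := by
    have hfin : ∀ m, {d : cell π m |
        d.1.1 ∈ insert c.1.1 (range fun v => c.1.1 * π (gen L v))}.Finite := fun m =>
      Finite.of_finite_image (f := Subtype.val)
        ((((finite_range _).insert _).prod (finite_univ (α := Finset V))).subset (by
          rintro _ ⟨d, hd, rfl⟩; exact ⟨hd, mem_univ _⟩)) Subtype.val_injective.injOn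
    refine ⟨fun m => (hfin m).toFinset, fun w hw => ?_⟩
    obtain ⟨i, hi⟩ := exists_of_mem_sphere hw
    have hv := (c.e.symm i).2
    have hlt : (c.1.2.erase (c.e.symm i)).card < n :=
      (Finset.card_erase_lt_of_mem hv).trans_eq c.2.2
    simp only [mem_iUnion]
    change ∃ m, ∃ (_ : m < n), ∃ j, ∃ _, χ π c.1.1 c.1.2 c.2.1 (c.co w) ∈ _
    rcases sc_of_abs hi with h | h <;> rw [← c.co_symm] at h
    · rw [χ_face0 c.2.1 h]
      exact ⟨_, hlt, _, (Finite.mem_toFinset _).2 (mem_insert _ _), χ_mem _ _ _ rfl _⟩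
    · rw [χ_face1 c.2.1 hv h]
      exact ⟨_, hlt, _, (Finite.mem_toFinset _).2 (mem_insert_of_mem _ ⟨_, rfl⟩),
        χ_mem _ _ _ rfl _⟩
  closed' A _ hA := by
    rw [← isOpen_compl_iff, isOpen_iff]
    intro g κ h
    have := (hA _ ⟨(g, κ), h, rfl⟩).preimage (continuous_χ g κ h)
    rw [preimage_compl, isOpen_compl_iff]
    convert this using 1
    ext z
    simp [χ_mem g κ h rfl z]
  union' := by
    refine eq_univ_of_forall fun x => ?_
    simp only [mem_iUnion]
    exact ⟨_, _, χ_self x ▸ χ_mem x.g _ x.clq rfl x.y⟩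

/-! ### The covering -/

/-- The map induced by an equivariant map of vertex sets. -/
def mapSp (f : Γ → Γ') (x : Sp π) : Sp π' := ⟨f x.g, x.y, x.ne_one, x.clq⟩

lemma mapSp_χ {f : Γ → Γ'} (hf : ∀ g w, f (g * π w) = f g * π' w) (g : Γ) (κ : Finset V)
    (h : Cq L κ) (z : V → I) : mapSp f (χ π g κ h z) = χ π' (f g) κ h z :=
  Sp.ext (hf _ _) rfl

lemma continuous_mapSp {f : Γ → Γ'} (hf : ∀ g w, f (g * π w) = f g * π' w) :
    Continuous (mapSp f : Sp π → Sp π') := by
  rw [continuous_iff]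
  intro g κ h
  simp only [mapSp_χ hf]
  exact continuous_χ _ _ _

variable (L) in
/-- The universal cover. -/
abbrev E : Type := Sp (MonoidHom.id (RA L))

instance : MulAction (BB L) (E L) where
  smul b x := mapSp (fun g => b.1 * g) x
  one_smul x := Sp.ext (one_mul x.g) rfl
  mul_smul b c x := Sp.ext (mul_assoc b.1 c.1 x.g) rfl

open Classical in
/-- The vertex obtained by rounding at the threshold `θ`. -/
def rnd (θ : I) (x : E L) : RA L := x.g * pr L (Finset.univ.filter fun v => θ < x.y v)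

open Classical in
lemma rnd_mk {θ : I} (h1 : θ ≠ 1) (g : RA L) (y : V → I) (h : Cq L (supp y)) :
    rnd θ (mk (MonoidHom.id _) g y h) = g * pr L (Finset.univ.filter fun v => θ < y v) := by
  have hs : ones y ⊆ Finset.univ.filter fun v => θ < y v := fun v hv => by
    rw [Finset.mem_filter, mem_ones.1 hv]
    exact ⟨Finset.mem_univ _, lt_of_le_of_ne unitInterval.le_one' h1⟩
  have hc : Cq L (Finset.univ.filter fun v => θ < y v) := h.mono fun v hv =>
    mem_supp.2 (unitInterval.nonneg'.trans_lt (Finset.mem_filter.1 hv).2).ne'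
  have e : (Finset.univ.filter fun v => θ < (mk (MonoidHom.id _) g y h).y v) =
      (Finset.univ.filter fun v => θ < y v) \ ones y := by
    ext v
    by_cases hv : y v = 1
    · simp [mk_y_one hv, hv]
    · simp [mk_y_ne hv, hv]
  rw [rnd, e, mk_g, mul_assoc, MonoidHom.id_apply,
    ← pr_union Finset.disjoint_sdiff (by rwa [Finset.union_sdiff_of_subset hs]),
    Finset.union_sdiff_of_subset hs]

lemma isOpen_rnd {θ : I} (h0 : θ ≠ 0) (h1 : θ ≠ 1) (u : RA L) :
    IsOpen {x : E L | (∀ v, x.y v ≠ θ) ∧ rnd θ x = u} := by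
  classical
  rw [isOpen_iff]
  intro g κ h
  have key : ∀ z, χ (MonoidHom.id _) g κ h z ∈ {x : E L | (∀ v, x.y v ≠ θ) ∧ rnd θ x = u} ↔
      (∀ v, res κ z v ≠ θ) ∧ g * pr L (Finset.univ.filter fun v => θ < res κ z v) = u := by
    intro z
    rw [mem_ofPred_eq, χ, rnd_mk h1]
    refine and_congr_left' (forall_congr' fun v => ?_)
    by_cases hv : res κ z v = 1
    · rw [mk_y_one hv, hv]; simp [h0.symm, h1.symm]
    · rw [mk_y_ne hv]
  rw [isOpen_iff_mem_nhds]
  intro z hz
  obtain ⟨hz1, hz2⟩ := (key z).1 hz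
  have hev : ∀ᶠ z' in 𝓝 z, ∀ v, res κ z' v ≠ θ ∧ (θ < res κ z' v ↔ θ < res κ z v) := by
    refine Filter.eventually_all.2 fun v => ?_
    have hc : ContinuousAt (fun z => res κ z v) z :=
      ((continuous_apply v).comp (continuous_res κ)).continuousAt
    rcases lt_or_gt_of_ne (hz1 v) with hlt | hlt
    · filter_upwards [hc.eventually_lt_const hlt] with z' hz'
      exact ⟨hz'.ne, iff_of_false hz'.not_gt hlt.not_gt⟩
    · filter_upwards [hc.eventually_const_lt hlt] with z' hz'
      exact ⟨hz'.ne', iff_of_true hz' hlt⟩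
  filter_upwards [hev] with z' hz'
  refine (key z').2 ⟨fun v => (hz' v).1, ?_⟩
  rw [← hz2, Finset.filter_congr fun v _ => (hz' v).2]

lemma htM_surjective [Nonempty V] : Function.Surjective (htM L) := fun n =>
  ⟨gen L (Classical.arbitrary V) ^ Multiplicative.toAdd n, by
    rw [map_zpow, htM, raLift_gen, ← ofAdd_zsmul]; simp⟩

lemma isQuotientCoveringMap [Nonempty V] :
    IsQuotientCoveringMap (mapSp (htM L) : E L → Sp (htM L)) (BB L) where
  __ : IsQuotientMap (mapSp (htM L) : E L → Sp (htM L)) := by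
    have hf : ∀ g w, htM L (g * MonoidHom.id _ w) = htM L g * htM L w := fun g w => map_mul _ _ _
    rw [isQuotientMap_iff]
    refine ⟨.of_isOpen_preimage_iff_isOpen fun U =>
      ⟨fun h => ?_, fun h => h.preimage (continuous_mapSp hf)⟩, fun y => ?_⟩
    · rw [isOpen_iff]
      intro g κ hκ
      obtain ⟨g, rfl⟩ := htM_surjective (L := L) g
      have : χ (htM L) (htM L g) κ hκ = mapSp (htM L) ∘ χ (MonoidHom.id _) g κ hκ :=
        funext fun z => (mapSp_χ hf _ _ _ _).symm
      rw [this]; exact h.preimage (continuous_χ _ _ _)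
    · obtain ⟨g, hg⟩ := htM_surjective (L := L) y.g
      exact ⟨⟨g, y.y, y.ne_one, y.clq⟩, Sp.ext hg rfl⟩
  continuous_const_smul b := continuous_mapSp fun g w => (mul_assoc _ _ _).symm
  apply_eq_iff_mem_orbit {x x'} := by
    constructor
    · intro h
      have h1 : htM L x.g = htM L x'.g := congrArg Sp.g h
      have h2 : x.y = x'.y := congrArg (fun x : Sp (htM L) => x.y) h
      refine ⟨⟨x.g * x'.g⁻¹, by simp [BB, h1]⟩, Sp.ext ?_ h2.symm⟩
      exact inv_mul_cancel_right _ _
    · rintro ⟨b, rfl⟩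
      refine Sp.ext ?_ rfl
      change htM L (b.1 * x'.g) = htM L x'.g
      rw [map_mul, MonoidHom.mem_ker.1 b.2, one_mul]
  disjoint x := by
    obtain ⟨θ, ⟨h0, h1⟩, hθ⟩ := (Ioo_infinite (zero_lt_one (α := ℝ))).exists_notMem_finite
      (finite_range fun v => (x.y v : ℝ))
    let θ' : I := ⟨θ, h0.le, h1.le⟩
    refine ⟨_, (isOpen_rnd (θ := θ') (fun h => h0.ne' (congrArg Subtype.val h))
      (fun h => h1.ne (congrArg Subtype.val h)) (rnd θ' x)).mem_nhds
      ⟨fun v h => hθ ⟨v, congrArg Subtype.val h⟩, rfl⟩, ?_⟩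
    rintro b ⟨_, ⟨z, hz, rfl⟩, hz'⟩
    have h2 : rnd θ' (b • z) = b.1 * rnd θ' z := mul_assoc _ _ _
    rw [hz.2, hz'.2] at h2
    exact Subtype.ext (mul_eq_right.1 h2.symm)

end Crest.Agent.R197.T3
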