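import Crest.Agent.R197.Top3A

/-!
# R197, TOP3 (c): the cube complex of a right-angled Artin group is contractible
-/

set_option autoImplicit false
set_option linter.unusedSectionVars false

noncomputable section

namespace Crest.Agent.R197.T3

open Set _root_.Topology
open scoped unitInterval

variable {V : Type} [Fintype V] [LinearOrder V] {L : SimpleGraph V}

lemma down_not (nf : NF L) (g : RA L) (v : V) :
    Down L (g * gen L v) (v, false) ↔ ¬ Down L g (v, true) := by
  have := nf.step g (v, true)
  simp only [Down, lt_false, lt_true, mul_inv_cancel_right] at this ⊢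
  omega

lemma down_pr (nf : NF L) {τ : Finset V} (h : Cq L τ) {m : V × Bool} (hm : ∀ v ∈ τ, L.Adj v m.1)
    (g : RA L) : Down L (g * pr L τ) m ↔ Down L g m := by
  induction τ using Finset.induction_on with
  | empty => simp
  | insert v τ hv ih =>
    rw [pr_erase h (Finset.mem_insert_self _ _), Finset.erase_insert hv, ← mul_assoc]
    exact (nf.comm _ (v, true) m (hm v (Finset.mem_insert_self _ _))).trans
      (ih (h.mono (Finset.subset_insert _ _)) fun u hu => hm u (Finset.mem_insert_of_mem hu))

lemma down_pr_self (nf : NF L) {τ : Finset V} (h : Cq L τ) {v : V} (hv : v ∈ τ) (g : RA L) :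
    Down L (g * pr L τ) (v, false) ↔ ¬ Down L g (v, true) := by
  rw [pr_erase h hv, ← mul_assoc, down_not nf, down_pr nf (m := (v, true)) (h.mono (Finset.erase_subset _ _))
    fun u hu => h.adj (Finset.mem_of_mem_erase hu) hv (Finset.ne_of_mem_erase hu)]

open Classical in
/-- Descending directions with a given sign. -/
def Dn (t : RA L) (b : Bool) : Finset V := Finset.univ.filter fun v => Down L t (v, b)

@[simp] lemma mem_Dn {t : RA L} {b : Bool} {v : V} : v ∈ Dn t b ↔ Down L t (v, b) := by simp [Dn]

/-- Descending directions. -/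
def DD (t : RA L) : Finset V := Dn t false ∪ Dn t true

lemma mem_DD {t : RA L} {v : V} {b : Bool} (h : v ∈ Dn t b) : v ∈ DD t := by
  cases b
  exacts [Finset.mem_union_left _ h, Finset.mem_union_right _ h]

lemma not_both (nf : NF L) {t : RA L} {v : V} (h : v ∈ Dn t false) : v ∉ Dn t true := fun h' =>
  L.irrefl (nf.clique t (v, false) (v, true) (mem_Dn.1 h) (mem_Dn.1 h') (by simp))

lemma exists_of_mem_DD {t : RA L} {v : V} (h : v ∈ DD t) : ∃ b, Down L t (v, b) := by
  rcases Finset.mem_union.1 h with h | h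
  exacts [⟨_, mem_Dn.1 h⟩, ⟨_, mem_Dn.1 h⟩]

lemma cq_DD (nf : NF L) (t : RA L) : Cq L (DD t) := fun u hu v hv huv => by
  obtain ⟨b, hb⟩ := exists_of_mem_DD (Finset.mem_coe.1 hu)
  obtain ⟨c, hc⟩ := exists_of_mem_DD (Finset.mem_coe.1 hv)
  exact nf.clique t _ _ hb hc (by simp [huv])

/-- Coordinates from distances to a corner. -/
def fl (N P : Finset V) (z : V → I) : V → I :=
  fun v => if v ∈ N then σ (z v) else if v ∈ P then z v else 0

lemma supp_fl (N P : Finset V) (z : V → I) : supp (fl N P z) ⊆ N ∪ P := fun v hv => by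
  by_contra h
  rw [Finset.mem_union, not_or] at h
  exact mem_supp.1 hv (by simp [fl, h.1, h.2])

lemma continuous_fl (N P : Finset V) : Continuous (fl N P) :=
  continuous_pi fun v => by
    unfold fl; split_ifs
    exacts [unitInterval.continuous_symm.comp (continuous_apply v), continuous_apply v,
      continuous_const]

/-- The cube with corner `t`, going down along `N` and up along `P`. -/
def Φ (t : RA L) (N P : Finset V) (h : Cq L (N ∪ P)) (z : V → I) : E L :=
  mk _ (t * (pr L N)⁻¹) (fl N P z) (h.mono (supp_fl N P z))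

/-- The descending cube. -/
def ψ (nf : NF L) (t : RA L) : (V → I) → E L := Φ t (Dn t false) (Dn t true) (cq_DD nf t)

variable (nf : NF L)

lemma continuous_ψ (t : RA L) : Continuous (ψ nf t) := by
  have : ψ nf t = χ _ (t * (pr L (Dn t false))⁻¹) (DD t) (cq_DD nf t) ∘
      fl (Dn t false) (Dn t true) := by
    funext z
    simp only [ψ, Φ, χ, Function.comp_apply]
    refine mk_congr rfl fun v => ?_
    by_cases hv : v ∈ DD t
    · rw [res_mem hv]
    · rw [res_not hv]; exact not_not.1 (mt (fun h => supp_fl _ _ z (mem_supp.2 h)) hv)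
  rw [this]
  exact (continuous_χ _ _ _).comp (continuous_fl _ _)

lemma Φ_eq {t : RA L} {N P : Finset V} (hN : N ⊆ Dn t false) (hP : P ⊆ Dn t true)
    (h : Cq L (N ∪ P)) (z : V → I) : Φ t N P h z = ψ nf t (res (N ∪ P) z) := by
  symm
  have hc : Cq L (Dn t false) := (cq_DD nf t).mono Finset.subset_union_left
  unfold ψ Φ
  refine mk_eq_mk (Dn t false \ N) (fun u hu => ?_) (fun u hu => ?_) (fun u hu => ?_) ?_
  · obtain ⟨h1, h2⟩ := Finset.mem_sdiff.1 hu
    have h3 : u ∉ P := fun h => not_both nf h1 (hP h)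
    simp only [fl, if_pos h1, res_not (show u ∉ N ∪ P by simp [h2, h3]), unitInterval.symm_zero]
  · obtain ⟨h1, h2⟩ := Finset.mem_sdiff.1 hu
    have h3 : u ∉ P := fun h => not_both nf h1 (hP h)
    simp only [fl, if_neg h2, if_neg h3]
  · by_cases h1 : u ∈ N
    · simp only [fl, if_pos h1, if_pos (hN h1), res_mem (Finset.mem_union_left P h1)]
    · have h2 : u ∉ Dn t false := fun h => hu (Finset.mem_sdiff.2 ⟨h, h1⟩)
      by_cases h3 : u ∈ P
      · simp only [fl, if_neg h1, if_neg h2, if_pos h3, if_pos (hP h3),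
          res_mem (Finset.mem_union_right N h3)]
      · simp only [fl, if_neg h1, if_neg h2, if_neg h3,
          res_not (show u ∉ N ∪ P by simp [h1, h3]), ite_self]
  · rw [pr_sdiff hc hN, MonoidHom.id_apply]; group

lemma ψ_res (t : RA L) (z : V → I) : ψ nf t z = ψ nf t (res (DD t) z) :=
  Φ_eq nf subset_rfl subset_rfl _ z

open Classical in
/-- Every cube is a face of a descending cube. -/
lemma χ_eq (g : RA L) (κ : Finset V) (h : Cq L κ) (y : V → I) :
    χ _ g κ h y = ψ nf (g * pr L (κ.filter fun v => ¬ Down L g (v, true)))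
      (res κ fun v => if ¬ Down L g (v, true) then σ (y v) else y v) := by
  set U := κ.filter fun v => ¬ Down L g (v, true) with hU
  have hUκ : U ⊆ κ := Finset.filter_subset _ _
  have e : U ∪ κ \ U = κ := Finset.union_sdiff_of_subset hUκ
  have := Φ_eq nf (t := g * pr L U) (N := U) (P := κ \ U)
    (fun v hv => mem_Dn.2 ((down_pr_self nf (h.mono hUκ) hv g).2 (Finset.mem_filter.1 hv).2))
    (fun v hv => by
      obtain ⟨h1, h2⟩ := Finset.mem_sdiff.1 hv
      refine mem_Dn.2 ((down_pr nf (h.mono hUκ)
        (fun u hu => h.adj (hUκ hu) h1 (by rintro rfl; exact h2 hu)) g).2 ?_)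
      by_contra h3
      exact h2 (Finset.mem_filter.2 ⟨h1, h3⟩))
    (by rwa [e]) fun v => if ¬ Down L g (v, true) then σ (y v) else y v
  refine Eq.trans ?_ (this.trans (by rw [e]))
  unfold χ Φ
  refine mk_congr (by simp) fun v => ?_
  by_cases h1 : v ∈ κ
  · by_cases h2 : Down L g (v, true) <;> simp [fl, res, hU, h1, h2]
  · simp [fl, res, hU, h1]

/-- Lower faces. -/
lemma ψ_face {t : RA L} {v : V} (hv : v ∈ DD t) :
    ∃ t', len L t' < len L t ∧ ∀ z, z v = 1 → ψ nf t z = ψ nf t' (res ((DD t).erase v) z) := by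
  have hc := cq_DD nf t
  have hcN : Cq L (Dn t false) := hc.mono Finset.subset_union_left
  have key : ∀ b c u, u ∈ Dn t c → u ≠ v → u ∈ Dn (t * lt L (v, b)) c := fun b c u hu huv => by
    exact mem_Dn.2 ((nf.comm t (v, b) (u, c) (hc.adj hv (mem_DD hu) huv.symm)).2 (mem_Dn.1 hu))
  rcases Finset.mem_union.1 hv with h | h
  · have hP := not_both nf h
    have e : (Dn t false).erase v ∪ Dn t true = (DD t).erase v := by
      rw [DD, Finset.erase_union_distrib, Finset.erase_eq_of_notMem hP]
    refine ⟨_, mem_Dn.1 h, fun z hz => ?_⟩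
    rw [← e, ← Φ_eq nf (fun u hu => key _ _ u (Finset.mem_of_mem_erase hu)
      (Finset.ne_of_mem_erase hu)) (fun u hu => key _ _ u hu (by rintro rfl; exact hP hu))
      (e ▸ hc.mono (Finset.erase_subset _ _))]
    unfold ψ Φ
    refine mk_congr ?_ fun u => ?_
    · rw [pr_erase hcN h, lt_false]; group
    · by_cases huv : u = v
      · subst huv; simp only [fl, if_pos h, hz, unitInterval.symm_one, Finset.notMem_erase,
          if_false, if_neg hP]
      · simp only [fl, Finset.mem_erase, ne_eq, huv, not_false_eq_true, true_and]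
  · have hN : v ∉ Dn t false := fun h' => not_both nf h' h
    have e : Dn t false ∪ (Dn t true).erase v = (DD t).erase v := by
      rw [DD, Finset.erase_union_distrib, Finset.erase_eq_of_notMem hN]
    refine ⟨_, mem_Dn.1 h, fun z hz => ?_⟩
    rw [← e, ← Φ_eq nf (fun u hu => key _ _ u hu (by rintro rfl; exact hN hu))
      (fun u hu => key _ _ u (Finset.mem_of_mem_erase hu) (Finset.ne_of_mem_erase hu))
      (e ▸ hc.mono (Finset.erase_subset _ _))]
    unfold ψ Φ
    refine mk_eq_mk {v} (fun u hu => ?_) (fun u hu => ?_) (fun u hu => ?_) ?_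
    · rw [Finset.mem_singleton.1 hu]; simp only [fl, if_neg hN, if_pos h, hz]
    · rw [Finset.mem_singleton.1 hu]; simp only [fl, if_neg hN, Finset.notMem_erase, if_false]
    · simp only [fl, Finset.mem_erase, ne_eq, Finset.notMem_singleton.1 hu, not_false_eq_true,
        true_and]
    · have := pr_comm (L := L) (Finset.disjoint_singleton_right.2 hN) (hc.mono
        (Finset.union_subset_union_right (Finset.singleton_subset_iff.2 h)))
      rw [pr_single] at this
      rw [pr_single, lt_true, MonoidHom.id_apply, mul_assoc, mul_assoc, mul_right_inj,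
        mul_inv_eq_iff_eq_mul, mul_assoc, ← this, inv_mul_cancel_left]

open Classical in
/-- Ascending directions of the cube containing a point. -/
def Up (x : E L) : Finset V := (supp x.y).filter fun v => ¬ Down L x.g (v, true)

/-- The top vertex. -/
def top (x : E L) : RA L := x.g * pr L (Up x)

open Classical in
/-- Distances from the top vertex. -/
def dst (x : E L) : V → I :=
  res (supp x.y) fun v => if ¬ Down L x.g (v, true) then σ (x.y v) else x.y v

lemma ψ_top (x : E L) : ψ nf (top x) (dst x) = x := by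
  conv_rhs => rw [← χ_self x, χ_eq nf]
  rfl

lemma top_ψ {t : RA L} {z : V → I} (hz : ∀ v ∈ DD t, z v ≠ 1) :
    top (ψ nf t z) = t ∧ dst (ψ nf t z) = res (DD t) z := by
  classical
  set N := (Dn t false).filter fun v => z v ≠ 0 with hN
  have hNs : N ⊆ Dn t false := Finset.filter_subset _ _
  have hc : Cq L (N ∪ Dn t true) := (cq_DD nf t).mono (Finset.union_subset_union_left hNs)
  have e : ψ nf t z = Φ t N (Dn t true) hc z := by
    rw [Φ_eq nf hNs subset_rfl, ψ_res]
    congr 1
    funext v
    by_cases h1 : v ∈ Dn t true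
    · rw [res_mem (Finset.mem_union_right _ h1), res_mem (mem_DD h1)]
    · by_cases h2 : v ∈ Dn t false <;> by_cases h3 : z v = 0 <;>
        simp [-mem_Dn, res, DD, hN, h1, h2, h3]
  have h1 : ∀ v, fl N (Dn t true) z v ≠ 1 := fun v => by
    unfold fl; split_ifs with a b
    · rw [Ne, unitInterval.symm_eq_one]; exact (Finset.mem_filter.1 a).2
    · exact hz v (Finset.mem_union_right _ b)
    · exact zero_ne_one
  have hy : (ψ nf t z).y = fl N (Dn t true) z := by
    rw [e]; exact funext fun v => mk_y_ne (h1 v)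
  have hg : (ψ nf t z).g = t * (pr L N)⁻¹ := by
    have : ones (fl N (Dn t true) z) = ∅ :=
      Finset.eq_empty_of_forall_notMem fun v hv => h1 v (mem_ones.1 hv)
    rw [e, Φ, mk_g, this]; simp
  have hcN : Cq L N := hc.mono Finset.subset_union_left
  have d1 : ∀ v ∈ N, ¬ Down L (t * (pr L N)⁻¹) (v, true) := fun v hv => by
    rw [← down_pr_self nf hcN hv, inv_mul_cancel_right]; exact mem_Dn.1 (hNs hv)
  have d2 : ∀ v ∈ Dn t true, Down L (t * (pr L N)⁻¹) (v, true) := fun v hv => by
    rw [← down_pr nf hcN (fun u hu => hc.adj (Finset.mem_union_left _ hu)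
      (Finset.mem_union_right _ hv) (by rintro rfl; exact not_both nf (hNs hu) hv)),
      inv_mul_cancel_right]
    exact mem_Dn.1 hv
  have s1 : ∀ v ∈ N, σ (z v) ≠ 0 := fun v hv => by
    rw [Ne, unitInterval.symm_eq_zero]; exact hz v (Finset.mem_union_left _ (hNs hv))
  have hU : Up (ψ nf t z) = N := by
    ext v
    rw [Up, Finset.mem_filter, hy, hg, mem_supp]
    refine ⟨fun ⟨a, b⟩ => ?_, fun hv => ⟨by rw [fl, if_pos hv]; exact s1 v hv, d1 v hv⟩⟩
    rcases Finset.mem_union.1 (supp_fl _ _ z (mem_supp.2 a)) with h | h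
    exacts [h, (b (d2 v h)).elim]
  refine ⟨by rw [top, hU, hg, inv_mul_cancel_right], funext fun v => ?_⟩
  rw [dst, hy, hg]
  by_cases a : v ∈ N
  · rw [res_mem (mem_supp.2 (by rw [fl, if_pos a]; exact s1 v a)),
      res_mem (mem_DD (hNs a)), if_pos (d1 v a), fl, if_pos a,
      unitInterval.symm_symm]
  · by_cases b : v ∈ Dn t true
    · rw [res_mem (mem_DD b)]
      by_cases c : z v = 0
      · rw [res_not (by simp [-mem_Dn, fl, a, b, c]), c]
      · rw [res_mem (by simp [-mem_Dn, fl, a, b, c]), if_neg (not_not.2 (d2 v b)), fl, if_neg a,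
          if_pos b]
    · rw [res_not (by simp [-mem_Dn, fl, a, b])]
      by_cases c : v ∈ Dn t false
      · rw [res_mem (mem_DD c)]
        by_contra d
        exact a (Finset.mem_filter.2 ⟨c, fun h => d h.symm⟩)
      · rw [res_not (by simp [-mem_Dn, DD, b, c])]

/-- The level of a point. -/
def rk (x : E L) : ℕ := len L (top x)

lemma rk_ψ (t : RA L) (z : V → I) : rk (ψ nf t z) ≤ len L t := by
  induction hn : len L t using Nat.strong_induction_on generalizing t z with
  | _ n ih =>
    subst hn
    by_cases hz : ∀ v ∈ DD t, z v ≠ 1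
    · rw [rk, (top_ψ nf hz).1]
    · push Not at hz
      obtain ⟨v, hv, hz⟩ := hz
      obtain ⟨t', h1, h2⟩ := ψ_face nf hv
      rw [h2 z hz]
      exact (ih _ h1 _ _ rfl).trans h1.le

/-- Largest coordinate. -/
def mx (z : V → I) : ℝ := ‖fun v => (z v : ℝ)‖

lemma le_mx (z : V → I) (v : V) : (z v : ℝ) ≤ mx z :=
  (le_abs_self _).trans (norm_le_pi_norm (fun v => (z v : ℝ)) v)

lemma mx_le {z : V → I} {r : ℝ} (hr : 0 ≤ r) (h : ∀ v, (z v : ℝ) ≤ r) : mx z ≤ r :=
  (pi_norm_le_iff_of_nonneg hr).2 fun v => by
    rw [Real.norm_of_nonneg (z v).2.1]; exact h v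

lemma continuous_mx : Continuous (mx : (V → I) → ℝ) := by unfold mx; fun_prop

/-- Diagonal push. -/
def push (z : V → I) (s : I) : V → I :=
  fun v => projIcc 0 1 zero_le_one (z v + s * (1 - mx z))

lemma continuous_push : Continuous fun p : (V → I) × I => push p.1 p.2 := by
  have := continuous_mx (V := V)
  exact continuous_pi fun v => continuous_projIcc.comp (by fun_prop)

lemma push_zero (z : V → I) : push z 0 = z := by funext v; simp [push]

lemma push_of_one {z : V → I} {v : V} (h : z v = 1) (s : I) : push z s = z := by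
  have : mx z = 1 := le_antisymm (mx_le zero_le_one fun v => (z v).2.2) (by
    simpa [h] using le_mx z v)
  funext u; simp [push, this]

lemma push_one {z : V → I} {v : V} (h : (z v : ℝ) = mx z) : push z 1 v = 1 := by
  simp [push, h]

lemma exists_mx {t : RA L} (ht : t ≠ 1) (z : V → I) :
    ∃ v ∈ DD t, (res (DD t) z v : ℝ) = mx (res (DD t) z) := by
  obtain ⟨⟨u, b⟩, hu⟩ := exists_down L ht
  have hne : (DD t).Nonempty := ⟨u, mem_DD (mem_Dn.2 hu)⟩
  obtain ⟨v, hv, h⟩ := Finset.exists_max_image (DD t) (res (DD t) z) hne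
  refine ⟨v, hv, le_antisymm (le_mx _ _) (mx_le (res (DD t) z v).2.1 fun w => ?_)⟩
  by_cases hw : w ∈ DD t
  · exact h w hw
  · rw [res_not hw]; exact (res (DD t) z v).2.1

/-- The retraction of level `n + 1` onto the lower levels. -/
def rt (n : ℕ) (x : E L) (s : I) : E L :=
  if rk x = n + 1 then ψ nf (top x) (push (dst x) s) else x

lemma rt_zero (n : ℕ) (x : E L) : rt nf n x 0 = x := by
  unfold rt; split_ifs
  · rw [push_zero, ψ_top]
  · rfl

lemma rt_of_le {n : ℕ} {x : E L} (h : rk x ≤ n) (s : I) : rt nf n x s = x := if_neg (by omega)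

lemma rt_ψ {n : ℕ} {t : RA L} (ht : len L t = n + 1) (z : V → I) (s : I) :
    rt nf n (ψ nf t z) s = ψ nf t (push (res (DD t) z) s) := by
  by_cases hz : ∀ v ∈ DD t, z v ≠ 1
  · obtain ⟨h1, h2⟩ := top_ψ nf hz
    rw [rt, if_pos (by rw [rk, h1, ht]), h1, h2]
  · push Not at hz
    obtain ⟨v, hv, hz⟩ := hz
    obtain ⟨t', h1, h2⟩ := ψ_face nf hv
    rw [push_of_one ((res_mem hv z).trans hz), ← ψ_res, rt_of_le]
    rw [h2 z hz]
    exact (rk_ψ nf _ _).trans (by omega)

/-- Time change: `0` up to time `1 / (n + 2)`, `1` from time `1 / (n + 1)` on. -/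
def tm (n : ℕ) (s : I) : I := projIcc 0 1 zero_le_one ((n + 1) * ((n + 2) * s - 1))

lemma continuous_tm (n : ℕ) : Continuous (tm n) := continuous_projIcc.comp (by fun_prop)

lemma tm_zero {n : ℕ} {s : I} (h : ((n : ℝ) + 2) * s ≤ 1) : tm n s = 0 :=
  projIcc_of_le_left _ (mul_nonpos_of_nonneg_of_nonpos (by positivity) (by linarith))

lemma tm_one {n : ℕ} {s : I} (h : 1 ≤ ((n : ℝ) + 1) * s) : tm n s = 1 :=
  projIcc_of_right_le _ (by nlinarith [Nat.cast_nonneg (α := ℝ) n])

/-- The contraction of the levels up to `n`. -/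
def Hn : ℕ → E L → I → E L
  | 0, x, _ => x
  | n + 1, x, s => Hn n (rt nf n x (tm n s)) s

lemma Hn_early (n : ℕ) (x : E L) {s : I} (h : ((n : ℝ) + 1) * s ≤ 1) : Hn nf n x s = x := by
  induction n generalizing x with
  | zero => rfl
  | succ n ih =>
    push_cast at h
    rw [Hn, tm_zero (by linarith), rt_zero, ih _ (by nlinarith [s.2.1])]

lemma Hn_stab {n m : ℕ} {x : E L} (h : rk x ≤ n) (hm : n ≤ m) (s : I) :
    Hn nf m x s = Hn nf n x s := by
  induction m, hm using Nat.le_induction with
  | base => rfl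
  | succ m hm ih => rw [Hn, rt_of_le nf (h.trans hm), ih]

lemma Hn_one (n : ℕ) (t : RA L) (ht : len L t ≤ n) (z : V → I) :
    Hn nf n (ψ nf t z) 1 = ψ nf 1 0 := by
  induction n generalizing t z with
  | zero =>
    obtain rfl := len_eq_zero L (Nat.le_zero.1 ht)
    rw [Hn, ψ_res, ψ_res nf 1 0]
    congr 1
    funext v
    have : v ∉ DD (1 : RA L) := fun h => by
      obtain ⟨b, hb⟩ := exists_of_mem_DD h
      simp [Down] at hb
    rw [res_not this, res_not this]
  | succ n ih =>
    rcases ht.eq_or_lt with h | h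
    · obtain ⟨v, hv, hm⟩ := exists_mx (t := t) (by rintro rfl; simp at h) z
      obtain ⟨t', h1, h2⟩ := ψ_face nf hv
      rw [Hn, tm_one (by simp), rt_ψ nf h, h2 _ (push_one hm), ih _ (by omega)]
    · rw [Hn, rt_of_le nf ((rk_ψ nf _ _).trans (by omega)), ih _ (by omega)]

lemma continuous_Hn (n : ℕ) (t : RA L) (ht : len L t ≤ n) :
    Continuous fun p : (V → I) × I => Hn nf n (ψ nf t p.1) p.2 := by
  induction n generalizing t with
  | zero => exact (continuous_ψ nf t).comp continuous_fst
  | succ n ih =>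
    rcases ht.eq_or_lt with h | h
    swap
    · refine (ih t (by omega)).congr fun p => ?_
      rw [Hn, rt_of_le nf ((rk_ψ nf _ _).trans (by omega))]
    have cr := continuous_res (DD t)
    have cm := continuous_mx (V := V)
    let A : Option (DD t) → Set ((V → I) × I) := fun o => match o with
      | none => {p | ((n : ℝ) + 1) * p.2 ≤ 1}
      | some v => {p | 1 ≤ ((n : ℝ) + 1) * p.2} ∩
          {p | (res (DD t) p.1 v : ℝ) = mx (res (DD t) p.1)}
    refine (locallyFinite_of_finite A).continuous (eq_univ_of_forall fun p => ?_) ?_ ?_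
    · rcases le_total (((n : ℝ) + 1) * p.2) 1 with h' | h'
      · exact mem_iUnion.2 ⟨none, h'⟩
      · obtain ⟨v, hv, hm⟩ := exists_mx (t := t) (by rintro rfl; simp at h) p.1
        exact mem_iUnion.2 ⟨some ⟨v, hv⟩, h', hm⟩
    · rintro (_ | v)
      · exact isClosed_le (by fun_prop) continuous_const
      · exact (isClosed_le continuous_const (by fun_prop)).inter
          (isClosed_eq (by fun_prop) (by fun_prop))
    · rintro (_ | v)
      · refine (((continuous_ψ nf t).comp (continuous_push.comp
          ((cr.comp continuous_fst).prodMk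
            ((continuous_tm n).comp continuous_snd)))).continuousOn).congr fun p hp => ?_
        simp only [Function.comp_apply]
        rw [Hn, Hn_early nf n _ hp, rt_ψ nf h]
      · obtain ⟨t', h1, h2⟩ := ψ_face nf v.2
        refine (((ih t' (by omega)).comp (((continuous_res ((DD t).erase v)).comp
          (continuous_push.comp ((cr.comp continuous_fst).prodMk
            (continuous_const (y := 1))))).prodMk continuous_snd)).continuousOn).congr
          fun p hp => ?_
        simp only [Function.comp_apply]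
        rw [Hn, tm_one hp.1, rt_ψ nf h, h2 _ (push_one hp.2)]

/-- The contraction. -/
def HH (x : E L) (s : I) : E L := Hn nf (rk x) x s

lemma continuous_HH_ψ (t : RA L) : Continuous fun p : (V → I) × I => HH nf (ψ nf t p.1) p.2 :=
  (continuous_Hn nf _ t le_rfl).congr fun _ => Hn_stab nf le_rfl (rk_ψ nf _ _) _

/-- The contraction as a family of paths. -/
def FF (x : E L) : C(I, E L) := ⟨HH nf x, by
  have := (continuous_HH_ψ nf (top x)).comp (Continuous.prodMk_right (dst x))
  simpa only [Function.comp_def, ψ_top] using this⟩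

lemma continuous_FF : Continuous (FF nf) := by
  classical
  rw [continuous_iff]
  intro g κ h
  refine ContinuousMap.continuous_of_continuous_uncurry _ ?_
  have hc : Continuous fun y : V → I =>
      res κ fun v => if ¬ Down L g (v, true) then σ (y v) else y v :=
    (continuous_res κ).comp (continuous_pi fun v => by
      split_ifs
      exacts [continuous_apply v, unitInterval.continuous_symm.comp (continuous_apply v)])
  refine ((continuous_HH_ψ nf (g * pr L (κ.filter fun v => ¬ Down L g (v, true)))).comp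
    ((hc.comp continuous_fst).prodMk continuous_snd)).congr fun p => ?_
  simp only [Function.comp_apply]
  rw [← χ_eq nf g κ h]
  rfl

lemma continuous_HH : Continuous fun p : I × E L => HH nf p.2 p.1 := by
  have h : Continuous fun p : I × E L => FF nf p.2 p.1 :=
    ((continuous_FF nf).comp continuous_snd).eval continuous_fst
  exact h

lemma HH_zero (x : E L) : HH nf x 0 = x := Hn_early nf _ x (by simp)

lemma HH_one (x : E L) : HH nf x 1 = ψ nf 1 0 := by
  have := Hn_one nf (rk x) (top x) le_rfl (dst x)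
  rwa [ψ_top] at this

include nf in
lemma contractible : ContractibleSpace (E L) :=
  (contractible_iff_id_nullhomotopic _).2
    ⟨ψ nf 1 0, ⟨⟨⟨_, continuous_HH nf⟩, HH_zero nf, HH_one nf⟩⟩⟩

end Crest.Agent.R197.T3
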