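import Crest.Agent.R197.XDefs

/-!
# R197: locally constant functions, lifts, gluing
-/

set_option autoImplicit false

noncomputable section

namespace Crest.Agent.R197

open Function Set Metric

section
variable {T T' Γ Γ' Γ'' X Y : Type} [TopologicalSpace T] [TopologicalSpace T']

lemma LC.isOpen {W : Set T} {f : T → Γ} (h : LC W f) : IsOpen W := by
  have : W = ⋃ c, {t | t ∈ W ∧ f t = c} := by ext; simp
  rw [this]; exact isOpen_iUnion h

lemma LC.preimage {W : Set T} {f : T → Γ} (h : LC W f) {q : T' → T} (hq : Continuous q) :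
    LC (q ⁻¹' W) (fun t => f (q t)) := fun c => (h c).preimage hq

lemma LC.map₂ {W W' : Set T} {f : T → Γ} {f' : T → Γ'} (h : LC W f) (h' : LC W' f')
    (F : Γ → Γ' → Γ'') : LC (W ∩ W') (fun t => F (f t) (f' t)) := by
  intro c
  have : {t | t ∈ W ∩ W' ∧ F (f t) (f' t) = c} =
      ⋃ (d) (d') (_ : F d d' = c), {t | t ∈ W ∧ f t = d} ∩ {t | t ∈ W' ∧ f' t = d'} := by
    ext t
    simp only [mem_inter_iff, mem_ofPred_eq, mem_iUnion]
    constructor
    · rintro ⟨⟨h1, h2⟩, h3⟩; exact ⟨_, _, h3, ⟨h1, rfl⟩, h2, rfl⟩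
    · rintro ⟨_, _, h3, ⟨h1, rfl⟩, h2, rfl⟩; exact ⟨⟨h1, h2⟩, h3⟩
  rw [this]
  exact isOpen_iUnion fun d => isOpen_iUnion fun d' => isOpen_iUnion fun _ => (h d).inter (h' d')

lemma LC.congr {W W' : Set T} {f f' : T → Γ} (h : LC W f) (hW : W' = W)
    (hf : ∀ t ∈ W, f' t = f t) : LC W' f' := by
  subst hW
  intro c
  have : {t | t ∈ W' ∧ f' t = c} = {t | t ∈ W' ∧ f t = c} := by
    ext t
    exact and_congr_right fun ht => by rw [hf t ht]
  rw [this]; exact h c

lemma LC.map {W : Set T} {f : T → Γ} (h : LC W f) (F : Γ → Γ') : LC W (fun t => F (f t)) :=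
  (h.map₂ h fun a _ => F a).congr (inter_self W).symm fun _ _ => rfl

lemma LC.const {W : Set T} (hW : IsOpen W) (c : Γ) : LC W fun _ => c := by
  intro d
  by_cases h : c = d
  · simpa [h] using hW
  · simp [h]

variable [TopologicalSpace X] [TopologicalSpace Y] [Group Γ] [Group Γ']

/-- An atlas from data checked on a family of maps that determines the topology. -/
def Atlas.ofWeak {κ D ι : Type} [TopologicalSpace D] (m : κ → D → X) (a : κ → D → Γ)
    (weak : ∀ O : Set X, (∀ k, IsOpen (m k ⁻¹' O)) → IsOpen O) (U : ι → Set X) (b : ι → X → Γ)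
    (cover : ∀ x, ∃ i, x ∈ U i)
    (h : ∀ k i, LC (m k ⁻¹' U i) fun d => a k d * (b i (m k d))⁻¹) : Atlas X Γ where
  ι := ι
  U := U
  b := b
  cover := cover
  compat i j c := weak _ fun k =>
    (((h k i).map₂ (h k j) fun u v => u⁻¹ * v).congr (W' := m k ⁻¹' (U i ∩ U j))
      (f' := fun d => b i (m k d) * (b j (m k d))⁻¹) rfl fun d _ => by group) c

namespace Atlas

variable {A : Atlas X Γ} {γ : T → X} {n n' : T → Γ}

lemma IsLift.comp (h : A.IsLift γ n) {q : T' → T} (hq : Continuous q) :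
    A.IsLift (fun t => γ (q t)) fun t => n (q t) := fun i => (h i).preimage hq

lemma IsLift.unique [PreconnectedSpace T] (h : A.IsLift γ n) (h' : A.IsLift γ n') (t₀ t : T) :
    n' t = n' t₀ * (n t₀)⁻¹ * n t := by
  have hl : IsLocallyConstant fun t => n' t * (n t)⁻¹ := by
    refine (IsLocallyConstant.iff_exists_open _).2 fun x => ?_
    obtain ⟨i, hi⟩ := A.cover (γ x)
    have := (((h' i).map₂ (h i) fun u v => u * v⁻¹).congr (W' := γ ⁻¹' A.U i)
      (f' := fun t => n' t * (n t)⁻¹) (inter_self _).symm fun d _ => by group) (n' x * (n x)⁻¹)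
    exact ⟨_, this, ⟨hi, rfl⟩, fun y hy => hy.2⟩
  have := hl.apply_eq_of_preconnectedSpace t t₀
  rw [← this]; group

/-- Gluing along a family of lifted cells. -/
lemma glue {κ D : Type} [TopologicalSpace D] (m : κ → D → X) (a : κ → D → Γ)
    (weak : ∀ O : Set X, (∀ k, IsOpen (m k ⁻¹' O)) → IsOpen O) (ha : ∀ k, A.IsLift (m k) (a k))
    (Z : Γ → X → Y) (hZ : ∀ g k, Continuous fun d => Z (g * a k d) (m k d))
    (hγ : Continuous γ) (hn : A.IsLift γ n) : Continuous fun t => Z (n t) (γ t) := by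
  refine continuous_def.2 fun W hW => ?_
  have h1 : ∀ i c, IsOpen {x | x ∈ A.U i ∧ Z (c * A.b i x) x ∈ W} := by
    intro i c
    refine weak _ fun k => ?_
    have : m k ⁻¹' {x | x ∈ A.U i ∧ Z (c * A.b i x) x ∈ W} =
        ⋃ e, {d | d ∈ m k ⁻¹' A.U i ∧ a k d * (A.b i (m k d))⁻¹ = e} ∩
          (fun d => Z (c * e⁻¹ * a k d) (m k d)) ⁻¹' W := by
      ext d
      simp only [mem_preimage, mem_ofPred_eq, mem_iUnion, mem_inter_iff]
      constructor
      · rintro ⟨h1, h2⟩
        refine ⟨_, ⟨h1, rfl⟩, ?_⟩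
        convert h2 using 2; group
      · rintro ⟨_, ⟨h1, rfl⟩, h2⟩
        refine ⟨h1, ?_⟩
        convert h2 using 2; group
    rw [this]
    exact isOpen_iUnion fun e => (ha k i e).inter (hW.preimage (hZ _ k))
  have : (fun t => Z (n t) (γ t)) ⁻¹' W =
      ⋃ (i) (c), {t | t ∈ γ ⁻¹' A.U i ∧ n t * (A.b i (γ t))⁻¹ = c} ∩
        γ ⁻¹' {x | x ∈ A.U i ∧ Z (c * A.b i x) x ∈ W} := by
    ext t
    simp only [mem_preimage, mem_ofPred_eq, mem_iUnion, mem_inter_iff]
    constructor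
    · intro h
      obtain ⟨i, hi⟩ := A.cover (γ t)
      refine ⟨i, _, ⟨hi, rfl⟩, hi, ?_⟩
      convert h using 2; group
    · rintro ⟨i, _, ⟨h1, rfl⟩, -, h2⟩
      convert h2 using 2; group
  rw [this]
  exact isOpen_iUnion fun i => isOpen_iUnion fun c => (hn i c).inter ((h1 i c).preimage hγ)

end Atlas

end

end Crest.Agent.R197
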