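import Crest.Agent.R197.XDefs

set_option autoImplicit false

noncomputable section

namespace Crest.Agent.R197

open Function Set Metric _root_.Topology

namespace XC

/-- parametrisation of the closed interval -/
def par1 (τ : ℝ) : Fin 1 → ℝ := fun _ => 2 * max 0 (min 1 τ) - 1

lemma par1_cont : Continuous par1 := by unfold par1; fun_prop

lemma norm_fin1 (y : Fin 1 → ℝ) : ‖y‖ = |y 0| := by
  have : y = fun _ => y 0 := funext fun i => by rw [Subsingleton.elim i 0]
  rw [this, pi_norm_const, Real.norm_eq_abs]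

lemma par1_mem (τ : ℝ) : par1 τ ∈ closedBall (0 : Fin 1 → ℝ) 1 := by
  rw [mem_closedBall_zero_iff, norm_fin1, abs_le, par1]
  have h1 : 0 ≤ max 0 (min 1 τ) := le_max_left _ _
  have h2 : max 0 (min 1 τ) ≤ 1 := max_le zero_le_one (min_le_left _ _)
  constructor <;> linarith

lemma par1_eq {τ : ℝ} (h0 : 0 ≤ τ) (h1 : τ ≤ 1) : par1 τ = fun _ => 2 * τ - 1 := by
  funext i; rw [par1, min_eq_right h1, max_eq_right h0]

lemma par1_ball {τ : ℝ} (h0 : 0 < τ) (h1 : τ < 1) : par1 τ ∈ ball (0 : Fin 1 → ℝ) 1 := by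
  rw [mem_ball_zero_iff, norm_fin1, abs_lt, par1_eq h0.le h1.le]
  constructor <;> linarith

lemma par1_le {τ : ℝ} (h : τ ≤ 0) : par1 τ = fun _ => -1 := by
  funext i; rw [par1, max_eq_left ((min_le_right _ _).trans h)]; ring

lemma par1_ge {τ : ℝ} (h : 1 ≤ τ) : par1 τ = fun _ => 1 := by
  funext i; rw [par1, min_eq_left h, max_eq_right zero_le_one]; ring

lemma par1_inv {y : Fin 1 → ℝ} (h : |y 0| ≤ 1) : par1 ((y 0 + 1) / 2) = y := by
  rw [abs_le] at h
  rw [par1_eq (by linarith) (by linarith)]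
  funext i
  rw [Subsingleton.elim i 0]; ring

/-- real coordinates -/
def L : ℂ ≃L[ℝ] (Fin 2 → ℝ) := Complex.basisOneI.equivFunL

/-- parametrisation of the closed square -/
def par2 (ζ : ℂ) : Fin 2 → ℝ := (min 1 ‖ζ‖ / ‖L ζ‖) • L ζ

open Classical in
/-- radial projection on the boundary of the square -/
def sph (ζ : ℂ) : Fin 2 → ℝ := if ζ = 0 then ‖L 1‖⁻¹ • L 1 else ‖L ζ‖⁻¹ • L ζ

lemma L_pos {ζ : ℂ} (h : ζ ≠ 0) : 0 < ‖L ζ‖ := norm_pos_iff.2 (by simpa using h)

lemma norm_par2 (ζ : ℂ) : ‖par2 ζ‖ = min 1 ‖ζ‖ := by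
  rcases eq_or_ne ζ 0 with rfl | h
  · simp [par2]
  · have := L_pos h
    rw [par2, norm_smul, Real.norm_of_nonneg (by positivity), div_mul_cancel₀ _ this.ne']

lemma par2_cont : Continuous par2 := by
  rw [continuous_iff_continuousAt]
  intro ζ
  rcases eq_or_ne ζ 0 with rfl | h
  · rw [ContinuousAt, show par2 0 = 0 by simp [par2]]
    refine squeeze_zero_norm (fun z => (norm_par2 z).le.trans (min_le_right _ _)) ?_
    simpa using (continuous_norm (E := ℂ)).tendsto 0
  · have hL : Continuous L := L.continuous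
    unfold par2
    refine ContinuousAt.smul (f := fun ζ : ℂ => min 1 ‖ζ‖ / ‖L ζ‖) ?_ hL.continuousAt
    exact ContinuousAt.div (f := fun ζ : ℂ => min 1 ‖ζ‖) (by fun_prop) hL.norm.continuousAt
      (L_pos h).ne'

lemma par2_mem (ζ : ℂ) : par2 ζ ∈ closedBall (0 : Fin 2 → ℝ) 1 := by
  rw [mem_closedBall_zero_iff, norm_par2]; exact min_le_left _ _

lemma par2_ball {ζ : ℂ} (h : ‖ζ‖ < 1) : par2 ζ ∈ ball (0 : Fin 2 → ℝ) 1 := by
  rw [mem_ball_zero_iff, norm_par2]; exact (min_le_right _ _).trans_lt h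

lemma par2_inj {ζ ζ' : ℂ} (h : ‖ζ‖ < 1) (h' : ‖ζ'‖ < 1) (e : par2 ζ = par2 ζ') : ζ = ζ' := by
  have h1 : ‖ζ‖ = ‖ζ'‖ := by
    have := congrArg norm e
    rwa [norm_par2, norm_par2, min_eq_right h.le, min_eq_right h'.le] at this
  rcases eq_or_ne ζ 0 with rfl | h0
  · rw [norm_zero] at h1; exact (norm_eq_zero.1 h1.symm).symm
  have hp : 0 < ‖ζ‖ := norm_pos_iff.2 h0
  have h0' : ζ' ≠ 0 := norm_pos_iff.1 (h1 ▸ hp)
  rw [par2, par2, min_eq_right h.le, min_eq_right h'.le, ← map_smul, ← map_smul] at e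
  have e2 := L.injective e
  have ha : 0 < ‖ζ‖ / ‖L ζ‖ := div_pos hp (L_pos h0)
  have ha' : 0 < ‖ζ'‖ / ‖L ζ'‖ := div_pos (h1 ▸ hp) (L_pos h0')
  generalize ‖ζ‖ / ‖L ζ‖ = a at e2 ha
  generalize ‖ζ'‖ / ‖L ζ'‖ = a' at e2 ha'
  have e3 := congrArg norm e2
  rw [norm_smul, norm_smul, Real.norm_of_nonneg ha.le, Real.norm_of_nonneg ha'.le, ← h1] at e3
  rw [← mul_right_cancel₀ hp.ne' e3] at e2
  exact smul_right_injective ℂ ha.ne' e2

lemma par2_surj {y : Fin 2 → ℝ} (h : ‖y‖ < 1) : ∃ ζ : ℂ, ‖ζ‖ < 1 ∧ par2 ζ = y := by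
  rcases eq_or_ne y 0 with rfl | h0
  · exact ⟨0, by simp, by simp [par2]⟩
  have hy : 0 < ‖y‖ := norm_pos_iff.2 h0
  have hu : 0 < ‖L.symm y‖ := norm_pos_iff.2 (by simpa using h0)
  have h1 : ‖(‖y‖ / ‖L.symm y‖) • L.symm y‖ = ‖y‖ := by
    rw [norm_smul, Real.norm_of_nonneg (by positivity), div_mul_cancel₀ _ hu.ne']
  refine ⟨(‖y‖ / ‖L.symm y‖) • L.symm y, h1.trans_lt h, ?_⟩
  rw [par2, h1, min_eq_right h.le, map_smul, L.apply_symm_apply, norm_smul,
    Real.norm_of_nonneg (by positivity), smul_smul]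
  convert one_smul ℝ y
  field_simp

lemma sph_mem (ζ : ℂ) : sph ζ ∈ sphere (0 : Fin 2 → ℝ) 1 := by
  rw [mem_sphere_zero_iff_norm, sph]
  split_ifs with h
  · rw [norm_smul, norm_inv, norm_norm, inv_mul_cancel₀ (L_pos one_ne_zero).ne']
  · rw [norm_smul, norm_inv, norm_norm, inv_mul_cancel₀ (L_pos h).ne']

lemma sph_cont : ContinuousOn sph {0}ᶜ := by
  have hL : Continuous L := L.continuous
  have : ContinuousOn (fun ζ : ℂ => ‖L ζ‖⁻¹ • L ζ) {0}ᶜ :=
    (ContinuousOn.inv₀ (by fun_prop) fun ζ h => (L_pos h).ne').smul hL.continuousOn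
  exact this.congr fun ζ h => if_neg h

lemma sph_smul {a : ℝ} (ha : 0 < a) (ζ : ℂ) : sph (a • ζ) = sph ζ := by
  rcases eq_or_ne ζ 0 with rfl | h
  · rw [smul_zero]
  · rw [sph, sph, if_neg h, if_neg (smul_ne_zero ha.ne' h), map_smul, norm_smul,
      Real.norm_of_nonneg ha.le, smul_smul]
    congr 1
    field_simp

lemma par2_out {ζ : ℂ} (h : 1 ≤ ‖ζ‖) : par2 ζ = sph ζ := by
  have h0 : ζ ≠ 0 := norm_pos_iff.1 (by linarith)
  rw [par2, sph, if_neg h0, min_eq_left h, one_div]

section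
open RelCWComplex
variable {X : Type} [TopologicalSpace X] [CWComplex (univ : Set X)]

variable (X) in
/-- the one-skeleton -/
def K1 : Set X := {x | ∃ n < 2, ∃ j : cell (univ : Set X) n, x ∈ openCell n j}

lemma front_sub {n : ℕ} (j : cell (univ : Set X) n) {x : X} (hx : x ∈ cellFrontier n j) :
    ∃ m < n, ∃ i : cell (univ : Set X) m, x ∈ openCell m i := by
  obtain ⟨I, hI⟩ := CWComplex.cellFrontier_subset_finite_openCell n j
  have := hI hx
  simp only [mem_iUnion] at this
  obtain ⟨m, hm, i, -, h⟩ := this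
  exact ⟨m, hm, i, h⟩

lemma front_K1 {n : ℕ} (hn : n ≤ 2) (j : cell (univ : Set X) n) : cellFrontier n j ⊆ K1 X := by
  intro x hx
  obtain ⟨m, hm, i, h⟩ := front_sub j hx
  exact ⟨m, by omega, i, h⟩

lemma closed_K1 {n : ℕ} (hn : n < 2) (j : cell (univ : Set X) n) : closedCell n j ⊆ K1 X := by
  rw [← cellFrontier_union_openCell_eq_closedCell]
  exact union_subset (front_K1 hn.le j) fun x hx => ⟨n, hn, j, hx⟩

lemma disj_K1 {n : ℕ} (hn : 2 ≤ n) (j : cell (univ : Set X) n) : Disjoint (K1 X) (openCell n j) := by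
  rw [Set.disjoint_left]
  rintro x ⟨m, hm, i, h⟩ hx
  have := eq_of_not_disjoint_openCell (Set.not_disjoint_iff.2 ⟨x, h, hx⟩)
  have := congrArg Sigma.fst this
  simp only at this
  omega

lemma cell_eq {n : ℕ} {i j : cell (univ : Set X) n} {y y' : Fin n → ℝ} (hy : y ∈ ball 0 1)
    (hy' : y' ∈ ball 0 1) (h : map n i y = map n j y') : i = j ∧ y = y' := by
  have h1 := eq_of_not_disjoint_openCell (Set.not_disjoint_iff.2
    ⟨map n i y, mem_image_of_mem _ hy, ⟨y', hy', h.symm⟩⟩)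
  have h2 : i = j := eq_of_heq (Sigma.mk.inj h1).2
  subst h2
  exact ⟨rfl, (map n i).injOn (by rwa [source_eq]) (by rwa [source_eq]) h⟩

lemma end_vtx (s : cell (univ : Set X) 1) (a : ℝ) (ha : |a| = 1) :
    ∃ v : cell (univ : Set X) 0, map 1 s (fun _ => a) = map 0 v ![] := by
  obtain ⟨m, hm, i, h⟩ := front_sub s (x := map 1 s fun _ => a)
    (mem_image_of_mem _ (by rw [mem_sphere_zero_iff_norm, norm_fin1, ha]))
  obtain rfl : m = 0 := by omega
  rw [openCell_zero_eq_singleton] at h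
  exact ⟨i, h⟩

lemma closed_of_sub [T2Space X] {A : Set X} (hA : A ⊆ K1 X)
    (h : ∀ s : cell (univ : Set X) 1, IsClosed (A ∩ closedCell 1 s)) : IsClosed A := by
  refine CWComplex.isClosed_of_disjoint_openCell_or_isClosed_inter_closedCell (subset_univ _)
    fun n hn j => ?_
  rcases lt_or_ge n 2 with h2 | h2
  · obtain rfl : n = 1 := by omega
    exact Or.inr (h j)
  · exact Or.inl ((disj_K1 h2 j).mono_left hA)

lemma isClosed_K1 [T2Space X] : IsClosed (K1 X) :=
  closed_of_sub subset_rfl fun s => by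
    rw [inter_eq_right.2 (closed_K1 (by norm_num) s)]; exact isClosed_closedCell

end

end XC

open XC RelCWComplex in
theorem xcw : CWStmt := by
  intro X _ _ _ hdim
  choose o ho using fun s : cell (univ : Set X) 1 => end_vtx s (-1) (by simp)
  choose t ht using fun s : cell (univ : Set X) 1 => end_vtx s 1 (by simp)
  have c1 : ∀ s : cell (univ : Set X) 1, Continuous fun τ => map 1 s (par1 τ) := fun s =>
    (continuousOn 1 s).comp_continuous par1_cont par1_mem
  have c2 : ∀ c : cell (univ : Set X) 2, Continuous fun ζ => map 2 c (par2 ζ) := fun c =>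
    (continuousOn 2 c).comp_continuous par2_cont par2_mem
  have hv : ∀ v : cell (univ : Set X) 0, map 0 v ![] ∈ openCell 0 v := fun v => by
    rw [openCell_zero_eq_singleton]; rfl
  refine ⟨K1 X, inferInstance, ⟨
    { inc := Subtype.val
      inc_cont := continuous_subtype_val
      inc_inj := Subtype.val_injective
      V := cell (univ : Set X) 0
      S := cell (univ : Set X) 1
      C := cell (univ : Set X) 2
      vtx := fun v => ⟨map 0 v ![], 0, by norm_num, v, hv v⟩
      o := o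
      t := t
      ε := fun s τ => ⟨map 1 s (par1 τ), closed_K1 (by norm_num) s (mem_image_of_mem _ (par1_mem τ))⟩
      ε_cont := fun s => (c1 s).subtype_mk _
      ε_le := fun s τ h => Subtype.ext (by simp only [par1_le h, ho])
      ε_ge := fun s τ h => Subtype.ext (by simp only [par1_ge h, ht])
      vtx_inj := fun v w h => injective_map_zero univ (congrArg Subtype.val h)
      ε_ne := fun s τ v h0 h1 h => ?_
      ε_inj := fun s τ s' τ' h0 h1 h0' h1' h => ?_
      cover1 := ?_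
      weak1 := fun O hO => ?_
      χ := fun c ζ => map 2 c (par2 ζ)
      χ_cont := c2
      bd := fun c ζ => ⟨map 2 c (sph ζ), front_K1 le_rfl c (mem_image_of_mem _ (sph_mem ζ))⟩
      bd_cont := fun c => ?_
      bd_smul := fun c a ζ ha => Subtype.ext (by simp only [sph_smul ha])
      χ_bd := fun c ζ h => by simp only [par2_out h]
      χ_ne := fun c ζ y h e => ?_
      χ_inj := fun c ζ c' ζ' h h' e => ?_
      cover2 := fun x => ?_
      weak2 := fun O hO1 hO2 => ?_ }⟩⟩
  · have := eq_of_not_disjoint_openCell (Set.not_disjoint_iff.2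
      ⟨map 0 v ![], ⟨par1 τ, par1_ball h0 h1, congrArg Subtype.val h⟩, hv v⟩)
    exact absurd (congrArg Sigma.fst this) (by simp)
  · obtain ⟨e1, e2⟩ := cell_eq (par1_ball h0 h1) (par1_ball h0' h1') (congrArg Subtype.val h)
    rw [par1_eq h0.le h1.le, par1_eq h0'.le h1'.le] at e2
    exact ⟨e1, by linarith [congrFun e2 0]⟩
  · rintro ⟨x, n, hn, j, hx⟩
    rcases (by omega : n = 0 ∨ n = 1) with rfl | rfl
    · rw [openCell_zero_eq_singleton] at hx
      exact Or.inl ⟨j, Subtype.ext hx⟩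
    · obtain ⟨y, hy, rfl⟩ := hx
      rw [mem_ball_zero_iff, norm_fin1] at hy
      have := abs_lt.1 hy
      exact Or.inr ⟨j, (y 0 + 1) / 2, by linarith, by linarith,
        Subtype.ext (by simp only [par1_inv hy.le])⟩
  · have hA : IsClosed (Subtype.val '' Oᶜ : Set X) := by
      refine closed_of_sub (Subtype.coe_image_subset _ _) fun s => ?_
      have hc := ((isCompact_Icc (a := (0 : ℝ)) (b := 1)).inter_right
        (hO s).isClosed_compl).image (c1 s)
      convert hc.isClosed using 1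
      ext x
      constructor
      · rintro ⟨⟨x', hx', rfl⟩, y, hy, e⟩
        rw [mem_closedBall_zero_iff, norm_fin1] at hy
        have := abs_le.1 hy
        refine ⟨(y 0 + 1) / 2, ⟨⟨by linarith, by linarith⟩, fun h => hx' ?_⟩, ?_⟩
        · convert mem_preimage.1 h using 1
          exact Subtype.ext (by simp only [par1_inv hy, e])
        · simp only [par1_inv hy, e]
      · rintro ⟨τ, ⟨-, hτ⟩, rfl⟩
        exact ⟨⟨_, hτ, rfl⟩, mem_image_of_mem _ (par1_mem τ)⟩
    have := hA.preimage (continuous_subtype_val (p := (· ∈ K1 X)))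
    rwa [preimage_image_eq _ Subtype.val_injective, isClosed_compl_iff] at this
  · refine IsInducing.subtypeVal.continuousOn_iff.2 ?_
    exact (continuousOn 2 c).comp sph_cont fun ζ _ => sphere_subset_closedBall (sph_mem ζ)
  · exact Set.disjoint_left.1 (disj_K1 le_rfl c) y.2 ⟨_, par2_ball h, e⟩
  · obtain ⟨e1, e2⟩ := cell_eq (par2_ball h) (par2_ball h') e
    exact ⟨e1, par2_inj h h' e2⟩
  · have hx : x ∈ ⋃ (n : ℕ) (j : cell (univ : Set X) n), openCell n j := by
      rw [CWComplex.iUnion_openCell_eq_complex]; trivial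
    simp only [mem_iUnion] at hx
    obtain ⟨n, j, hx⟩ := hx
    rcases lt_trichotomy n 2 with h | rfl | h
    · exact Or.inl ⟨⟨x, n, h, j, hx⟩, rfl⟩
    · obtain ⟨y, hy, rfl⟩ := hx
      obtain ⟨ζ, h1, rfl⟩ := par2_surj (mem_ball_zero_iff.1 hy)
      exact Or.inr ⟨j, ζ, h1, rfl⟩
    · exact (hdim n h).elim j
  · have hA : IsClosed (Oᶜ ∩ K1 X) := by
      have := isClosed_K1.isClosedMap_subtype_val _ hO1.isClosed_compl
      rwa [← preimage_compl, Subtype.image_preimage_coe, inter_comm] at this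
    rw [← isClosed_compl_iff, CWComplex.closed univ _ (subset_univ _)]
    intro n j
    rcases lt_trichotomy n 2 with h | rfl | h
    · convert hA.inter (isClosed_closedCell (i := j)) using 1
      rw [inter_assoc, inter_eq_right.2 (closed_K1 h j)]
    · have hc := ((isCompact_closedBall (0 : ℂ) 1).inter_right (hO2 j).isClosed_compl).image (c2 j)
      convert (hA.inter (isClosed_cellFrontier (i := j))).union hc.isClosed using 1
      ext x
      constructor
      · rintro ⟨hx, hx'⟩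
        rw [← cellFrontier_union_openCell_eq_closedCell] at hx'
        rcases hx' with h | ⟨y, hy, rfl⟩
        · exact Or.inl ⟨⟨hx, front_K1 le_rfl j h⟩, h⟩
        · obtain ⟨ζ, h1, rfl⟩ := par2_surj (mem_ball_zero_iff.1 hy)
          exact Or.inr ⟨ζ, ⟨mem_closedBall_zero_iff.2 h1.le, hx⟩, rfl⟩
      · rintro (⟨⟨hx, -⟩, h⟩ | ⟨ζ, ⟨-, hζ⟩, rfl⟩)
        · exact ⟨hx, cellFrontier_subset_closedCell _ _ h⟩
        · exact ⟨hζ, mem_image_of_mem _ (par2_mem ζ)⟩
    · exact (hdim n h).elim j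

end Crest.Agent.R197
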