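import Crest.Agent.R197.Defs

/-!
# R197: extracting an aspherical presentation from a two-dimensional classifying complex
-/

set_option autoImplicit false

noncomputable section

namespace Crest.Agent.R197

open Function Set Metric

/-- A two-dimensional cell complex `X` with one-skeleton `X1`, in hands-on form. -/
structure Cx2 (X1 X : Type) [TopologicalSpace X1] [TopologicalSpace X] where
  inc : X1 → X
  inc_cont : Continuous inc
  inc_inj : Injective inc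
  V : Type
  S : Type
  C : Type
  vtx : V → X1
  o : S → V
  t : S → V
  ε : S → ℝ → X1
  ε_cont : ∀ s, Continuous (ε s)
  ε_le : ∀ s τ, τ ≤ 0 → ε s τ = vtx (o s)
  ε_ge : ∀ s τ, 1 ≤ τ → ε s τ = vtx (t s)
  vtx_inj : Injective vtx
  ε_ne : ∀ s τ v, 0 < τ → τ < 1 → ε s τ ≠ vtx v
  ε_inj : ∀ s τ s' τ', 0 < τ → τ < 1 → 0 < τ' → τ' < 1 → ε s τ = ε s' τ' → s = s' ∧ τ = τ'
  cover1 : ∀ y, (∃ v, y = vtx v) ∨ ∃ s τ, 0 < τ ∧ τ < 1 ∧ y = ε s τ
  weak1 : ∀ O : Set X1, (∀ s, IsOpen (ε s ⁻¹' O)) → IsOpen O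
  χ : C → ℂ → X
  χ_cont : ∀ c, Continuous (χ c)
  bd : C → ℂ → X1
  bd_cont : ∀ c, ContinuousOn (bd c) {0}ᶜ
  bd_smul : ∀ c (a : ℝ) ζ, 0 < a → bd c (a • ζ) = bd c ζ
  χ_bd : ∀ c ζ, 1 ≤ ‖ζ‖ → χ c ζ = inc (bd c ζ)
  χ_ne : ∀ c ζ y, ‖ζ‖ < 1 → χ c ζ ≠ inc y
  χ_inj : ∀ c ζ c' ζ', ‖ζ‖ < 1 → ‖ζ'‖ < 1 → χ c ζ = χ c' ζ' → c = c' ∧ ζ = ζ'
  cover2 : ∀ x, (∃ y, x = inc y) ∨ ∃ c ζ, ‖ζ‖ < 1 ∧ x = χ c ζ
  weak2 : ∀ O : Set X, IsOpen (inc ⁻¹' O) → (∀ c, IsOpen (χ c ⁻¹' O)) → IsOpen O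

/-- **CW** (`XCW.lean`, `theorem xcw : CWStmt`).  `X1` = the subtype of points in open cells of dimension `≤ 1`
(= union of the closed cells of dimension `≤ 1`).  `ε s τ = map 1 s ![2 * projIcc τ - 1]`; `χ c ζ = map 2 c (m (ζ / max 1 ‖ζ‖))` with
`m ζ = (‖ζ‖ / ‖![ζ.re, ζ.im]‖) • ![ζ.re, ζ.im]` (continuous, injective, `‖m ζ‖ = ‖ζ‖`, onto), `bd c ζ = map 2 c (m (ζ/‖ζ‖))`
(anything at `0`).  Weak topologies: a set whose preimage under a characteristic map is closed meets the closed cell in a compact,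
hence closed, set; for `weak1` a subset of `X1` meets a closed 2-cell inside finitely many closed cells of
dimension `≤ 1` (`mapsTo`); a closed 0-cell is a point. -/
def CWStmt : Prop :=
  ∀ (X : Type) [TopologicalSpace X] [T2Space X] [Topology.CWComplex (univ : Set X)],
    (∀ n : ℕ, 2 < n → IsEmpty (Topology.RelCWComplex.cell (univ : Set X) n)) →
    ∃ (X1 : Type) (_ : TopologicalSpace X1), Nonempty (Cx2 X1 X)

/-- **PT** (`XPt.lean`, `theorem xpt : PtStmt`).  Fix `e₀` over `x₀` and paths `β y` from `x₀` to `y`;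
`pt g y` = monodromy of `e₀` along (loop of `g`) followed by `β y` (mind the order of multiplication in
`FundamentalGroup`: use `g⁻¹` or `MulEquiv.inv'` so that the loop of `g * c` is the loop of `g` followed by the loop of `c`).  As `E` is
simply connected, `γ ↦ monodromy γ e₀` is a bijection from classes of paths `x₀ → y` to the fibre
(`monodromy_map`, `injective_path_homotopic_map`/`monodromy_eq_of_map_eq`).  For a path `δ` from `t₀` to `t₁`, `c` is the class of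
`β · (f ∘ δ) · β⁻¹`. -/
def PtStmt : Prop :=
  ∀ (X E G : Type) [TopologicalSpace X] [TopologicalSpace E] [Group G] [ContractibleSpace E]
    (p : E → X) (x₀ : X), IsCoveringMap p → Surjective p → (FundamentalGroup X x₀ ≃* G) →
    ∃ pt : G → X → E, (∀ g y, p (pt g y) = y) ∧ (∀ e, ∃! g, pt g (p e) = e) ∧
      ∀ (T : Type) [TopologicalSpace T] [PathConnectedSpace T] (f : T → X) (t₀ t₁ : T),
        Continuous f → ∃ c : G, ∀ (g : G) (f' : T → E), Continuous f' → (∀ t, p (f' t) = f t) →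
          f' t₀ = pt g (f t₀) → f' t₁ = pt (g * c) (f t₁)

/-- `W` is open and `f` is locally constant on `W`. -/
def LC {T Γ : Type} [TopologicalSpace T] (W : Set T) (f : T → Γ) : Prop :=
  ∀ c, IsOpen {t | t ∈ W ∧ f t = c}

/-- A principal `Γ`-covering of `X` on the set `Γ × X`: the sections `x ↦ (c * b i x, x)` over `U i`
are continuous. -/
structure Atlas (X Γ : Type) [TopologicalSpace X] [Group Γ] where
  ι : Type
  U : ι → Set X
  b : ι → X → Γ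
  cover : ∀ x, ∃ i, x ∈ U i
  compat : ∀ i j, LC (U i ∩ U j) fun x => b i x * (b j x)⁻¹

/-- `t ↦ (n t, γ t)` is a continuous lift. -/
def Atlas.IsLift {X Γ T : Type} [TopologicalSpace X] [Group Γ] [TopologicalSpace T]
    (A : Atlas X Γ) (γ : T → X) (n : T → Γ) : Prop :=
  ∀ i, LC (γ ⁻¹' A.U i) fun t => n t * (A.b i (γ t))⁻¹

/-- **LIFT** (`XLift.lean`, `theorem xlift : LiftStmt`).  Build the covering (`FiberBundleCore` with discrete fibre `Γ` and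
`coordChange i j x c = c * (b i x * (b j x)⁻¹)`, or the topology on `Γ × X` in which `O` is open iff all
`{x ∈ U i | (c * b i x, x) ∈ O}` are open), lift the contraction with `IsCoveringMap.liftHomotopy` starting from a constant
map, read off `n`, and multiply on the left to normalise at `t₀`. -/
def LiftStmt : Prop :=
  ∀ (X Γ T : Type) [TopologicalSpace X] [Group Γ] [TopologicalSpace T] [ContractibleSpace T]
    (A : Atlas X Γ) (γ : T → X) (t₀ : T) (n₀ : Γ), Continuous γ → ∃ n, A.IsLift γ n ∧ n t₀ = n₀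

/-- The loop `t ↦ exp (2 π i t)`. -/
def cir (t : ℝ) : ℂ := Complex.exp (2 * Real.pi * Complex.I * t)

/-- **WIND** (`XWind.lean`, `theorem xwind : WindStmt`).  (1)-(3): lifting through the covering
`Complex.exp` (`Complex.isCoveringMap_exp` or similar; in (2) precompose with `ζ ↦ ζ / max 1 ‖ζ‖`).
(4): `ν ζ = (max 0 (1 - ‖ζ‖), ζ) ∈ ℂ × ℂ`, `f ζ` = the projection `w ↦ (⟪ν, w⟫ / |ν|²) • ν` in `ℂ × ℂ →L[ℂ] ℂ × ℂ`, which is `y₀ : (a,b) ↦ (0,b)`
for `‖ζ‖ ≥ 1`; `P : E → _` its collapse extension, continuous with idempotent non-zero values.  With a contraction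
`H` of `E` to `e`, and `N` so large that `‖P (H x (k/N)) - P (H x ((k+1)/N))‖ < 1` on `K` (uniform continuity on `K × I`),
`z x = P x ∘ … ∘ P (H x (k/N)) ∘ … ∘ P e` applied to a non-zero `z₀` in the range of `P e` is continuous, fixed by `P x`, and non-zero on `K`
(`P w = w ≠ 0`, `‖P' - P‖ < 1` give `P' w ≠ 0`).  `θ = (z ·).2`; `z (χ ζ) = a ζ • ν ζ` with `a` continuous and non-zero on the closed disc, so
`θ (χ (cir t)) = a (cir t) * cir t`; use (2). -/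
def WindStmt : Prop :=
  (∀ (f : ℝ → ℂ) (z₀ : ℂ), Continuous f → (∀ t, f t ≠ 0) → Complex.exp z₀ = f 0 →
    ∃ Λ : ℝ → ℂ, Continuous Λ ∧ (∀ t, Complex.exp (Λ t) = f t) ∧ Λ 0 = z₀) ∧
  (∀ f : ℂ → ℂ, Continuous f → (∀ ζ, ‖ζ‖ ≤ 1 → f ζ ≠ 0) →
    ∃ Λ : ℝ → ℂ, Continuous Λ ∧ (∀ t, Complex.exp (Λ t) = f (cir t)) ∧ Λ 1 = Λ 0) ∧
  (∀ Λ Λ' : ℝ → ℂ, Continuous Λ → Continuous Λ' →
    (∀ t ∈ Icc (0 : ℝ) 1, Complex.exp (Λ t) = Complex.exp (Λ' t)) → Λ 1 - Λ 0 = Λ' 1 - Λ' 0) ∧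
  ∀ (E : Type) [TopologicalSpace E] [ContractibleSpace E] (χ : ℂ → E) (K : Set E),
    Continuous χ → IsCompact K → χ '' closedBall 0 1 ⊆ K →
    (∀ (Y : Type) [TopologicalSpace Y] (f : ℂ → Y) (y₀ : Y), Continuous f →
      (∀ ζ, 1 ≤ ‖ζ‖ → f ζ = y₀) →
      ∃ F : E → Y, Continuous F ∧ (∀ ζ, F (χ ζ) = f ζ) ∧ ∀ x, x ∉ χ '' ball 0 1 → F x = y₀) →
    ∃ θ : E → ℂ, Continuous θ ∧ (∀ x ∈ K, x ∉ χ '' ball 0 1 → θ x ≠ 0) ∧
      ∃ Λ : ℝ → ℂ, Continuous Λ ∧ (∀ t, Complex.exp (Λ t) = θ (χ (cir t))) ∧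
        Λ 1 = Λ 0 + 2 * Real.pi * Complex.I

end Crest.Agent.R197
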