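import Crest.Agent.R197.XDefs

set_option autoImplicit false

noncomputable section

namespace Crest.Agent.R197

open Function Set

namespace XL

/-- Maps from a contractible space lift through covering maps. -/
lemma lift_contractible {X E T : Type} [TopologicalSpace X] [TopologicalSpace E]
    [TopologicalSpace T] [ContractibleSpace T] {p : E → X} (cov : IsCoveringMap p)
    (hs : Surjective p) (γ : T → X) (hγ : Continuous γ) :
    ∃ F : T → E, Continuous F ∧ ∀ t, p (F t) = γ t := by
  obtain ⟨y, ⟨H⟩⟩ := id_nullhomotopic T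
  obtain ⟨e, he⟩ := hs (γ y)
  let K : C(unitInterval × T, X) := (⟨γ, hγ⟩ : C(T, X)).comp H.symm.toContinuousMap
  have K0 : ∀ a, K (0, a) = p (ContinuousMap.const T e a) := by
    intro a
    change γ (H.symm (0, a)) = p e
    rw [H.symm.apply_zero, he]; rfl
  refine ⟨fun t => cov.liftHomotopy K _ K0 (1, t), by fun_prop, fun t => ?_⟩
  have := congrFun (cov.liftHomotopy_lifts K _ K0) (1, t)
  rw [comp_apply] at this
  rw [this]
  change γ (H.symm (1, t)) = γ t
  rw [H.symm.apply_one]; rfl

end XL

theorem xlift : LiftStmt := by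
  intro X Γ T _ _ _ _ A γ t₀ n₀ hγ
  let _ : TopologicalSpace Γ := ⊥
  have : DiscreteTopology Γ := ⟨rfl⟩
  have hU : ∀ i, IsOpen (A.U i) := by
    intro i
    have := A.compat i i 1
    simpa using this
  choose idx hidx using A.cover
  let Z : FiberBundleCore A.ι X Γ :=
    { baseSet := A.U
      isOpen_baseSet := hU
      indexAt := idx
      mem_baseSet_at := hidx
      coordChange := fun i j x c => c * (A.b i x * (A.b j x)⁻¹)
      coordChange_self := fun i x _ v => by simp
      continuousOn_coordChange := fun i j => by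
        intro q hq
        refine ContinuousAt.continuousWithinAt ?_
        have h1 : {t | t ∈ A.U i ∩ A.U j ∧ A.b i t * (A.b j t)⁻¹ = A.b i q.1 * (A.b j q.1)⁻¹} ×ˢ
            ({q.2} : Set Γ) ∈ nhds q :=
          ((A.compat i j _).prod (isOpen_discrete _)).mem_nhds ⟨⟨hq.1, rfl⟩, rfl⟩
        refine (continuousAt_const (y := q.2 * (A.b i q.1 * (A.b j q.1)⁻¹))).congr ?_
        filter_upwards [h1] with r hr
        rw [hr.1.2, mem_singleton_iff.1 hr.2]
      coordChange_comp := fun i j k x _ v => by group }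
  have cov : IsCoveringMap (Bundle.TotalSpace.proj : Bundle.TotalSpace Γ Z.Fiber → X) :=
    FiberBundle.isCoveringMap
  obtain ⟨F, hF, hp⟩ := XL.lift_contractible cov (fun x => ⟨⟨x, (1 : Γ)⟩, rfl⟩) γ hγ
  let n : T → Γ := fun t => (show Γ from (F t).2) * A.b (idx (γ t)) (γ t)
  have hn : A.IsLift γ n := by
    intro i c
    have h1 : ContinuousOn (fun t => (Z.localTriv i (F t)).2) (γ ⁻¹' A.U i) := by
      refine continuous_snd.comp_continuousOn
        ((Z.localTriv i).continuousOn.comp hF.continuousOn fun t ht => ?_)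
      rw [Z.mem_localTriv_source, hp]; exact ht
    have h2 := h1.isOpen_inter_preimage ((hU i).preimage hγ) (isOpen_discrete {c})
    convert h2 using 1
    ext t
    have h3 : (Z.localTriv i (F t)).2 = n t * (A.b i (γ t))⁻¹ := by
      rw [Z.localTriv_apply]
      change (show Γ from (F t).2) * (A.b (idx (F t).1) (F t).1 * (A.b i (F t).1)⁻¹) = _
      rw [hp, ← mul_assoc]
    simp only [mem_ofPred_eq, mem_inter_iff, mem_preimage, mem_singleton_iff, h3]
  refine ⟨fun t => n₀ * (n t₀)⁻¹ * n t, fun i c => ?_, by simp⟩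
  convert hn i ((n₀ * (n t₀)⁻¹)⁻¹ * c) using 1
  ext t
  simp only [mem_ofPred_eq, eq_inv_mul_iff_mul_eq, mul_assoc]

end Crest.Agent.R197
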