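import Crest.Agent.R197.XDefs

set_option autoImplicit false

noncomputable section

namespace Crest.Agent.R197

open Function Set

namespace XP

variable {X E : Type} [TopologicalSpace X] [TopologicalSpace E] {p : E → X}

lemma mono_path (cov : IsCoveringMap p) {x y : X} (ex : p ⁻¹' {x}) (ey : p ⁻¹' {y})
    (Γ : Path (ex : E) (ey : E)) (γ : Path x y) (h : ∀ t, p (Γ t) = γ t) :
    cov.monodromy (Path.Homotopic.Quotient.mk γ) ex = ey := by
  refine cov.monodromy_eq_of_map_eq (Path.Homotopic.Quotient.mk Γ) ?_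
  refine congr_arg Path.Homotopic.Quotient.mk ?_
  ext t
  exact h t

lemma mono_surj [PathConnectedSpace E] (cov : IsCoveringMap p) {x y : X} (ex : p ⁻¹' {x})
    (ey : p ⁻¹' {y}) : ∃ γ : Path.Homotopic.Quotient x y, cov.monodromy γ ex = ey := by
  let Γ : Path (ex : E) (ey : E) := PathConnectedSpace.somePath _ _
  exact ⟨.mk ((Γ.map cov.continuous).cast ex.2.symm ey.2.symm), mono_path cov ex ey Γ _ fun _ => rfl⟩

lemma mono_inj [SimplyConnectedSpace E] (cov : IsCoveringMap p) {x y : X} (ex : p ⁻¹' {x})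
    (γ γ' : Path.Homotopic.Quotient x y) (h : cov.monodromy γ ex = cov.monodromy γ' ex) :
    γ = γ' := by
  have h1 := cov.map_liftPathQuotient γ ex
  have h2 := cov.map_liftPathQuotient γ' ex
  have h3 : HEq (cov.liftPathQuotient γ ex) (cov.liftPathQuotient γ' ex) := by
    generalize cov.liftPathQuotient γ ex = a
    generalize cov.liftPathQuotient γ' ex = b
    revert a b
    rw [h]
    intro a b
    exact heq_of_eq (Subsingleton.elim a b)
  have h4 : HEq ((cov.liftPathQuotient γ ex).map ⟨p, cov.continuous⟩)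
      ((cov.liftPathQuotient γ' ex).map ⟨p, cov.continuous⟩) := by
    revert h3
    generalize cov.liftPathQuotient γ ex = a
    generalize cov.liftPathQuotient γ' ex = b
    revert a b
    rw [h]
    intro a b hab
    rw [eq_of_heq hab]
  rw [h1, h2] at h4
  exact eq_of_heq (((Path.Homotopic.Quotient.cast_heq _ _).symm.trans h4).trans
    (Path.Homotopic.Quotient.cast_heq _ _))

end XP

open XP in
theorem xpt : PtStmt := by
  intro X E G _ _ _ _ p x₀ cov hs ψ
  have : PathConnectedSpace X := hs.pathConnectedSpace cov.continuous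
  obtain ⟨e₁, he₁⟩ := hs x₀
  let e₀ : p ⁻¹' {x₀} := ⟨e₁, he₁⟩
  let β : ∀ y, Path.Homotopic.Quotient x₀ y := fun y => .mk (PathConnectedSpace.somePath x₀ y)
  let pt : G → ∀ y : X, p ⁻¹' {y} := fun g y =>
    cov.monodromy (β y) (cov.monodromyPerm x₀ (ψ.symm g⁻¹) e₀)
  refine ⟨fun g y => pt g y, fun g y => (pt g y).2, fun e => ?_, ?_⟩
  · obtain ⟨u, hu⟩ := (cov.monodromy_bijective (β (p e))).2 ⟨e, rfl⟩
    obtain ⟨γ, hγ⟩ := mono_surj cov e₀ u
    refine ⟨(ψ γ)⁻¹, ?_, fun g hg => ?_⟩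
    · change (cov.monodromy (β (p e)) (cov.monodromyPerm x₀ (ψ.symm (ψ γ)⁻¹⁻¹) e₀) : E) = e
      rw [inv_inv, MulEquiv.symm_apply_apply, IsCoveringMap.coe_monodromyPerm, hγ, hu]
    · have h1 : pt g (p e) = cov.monodromy (β (p e)) u := by rw [hu]; exact Subtype.ext hg
      have h2 := (cov.monodromy_bijective (β (p e))).1 h1
      rw [IsCoveringMap.coe_monodromyPerm, ← hγ] at h2
      have h3 : ψ.symm g⁻¹ = γ := mono_inj cov e₀ _ _ h2
      rw [← h3, MulEquiv.apply_symm_apply, inv_inv]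
  · intro T _ _ f t₀ t₁ hf
    let δ : Path t₀ t₁ := PathConnectedSpace.somePath t₀ t₁
    let φ : Path.Homotopic.Quotient (f t₀) (f t₁) := .mk (δ.map hf)
    let l : FundamentalGroup X x₀ := ((β (f t₀)).trans φ).trans (β (f t₁)).symm
    refine ⟨(ψ l)⁻¹, fun g f' hf' hp h0 => ?_⟩
    have h1 : cov.monodromy φ ⟨f' t₀, hp t₀⟩ = ⟨f' t₁, hp t₁⟩ :=
      mono_path cov ⟨f' t₀, hp t₀⟩ ⟨f' t₁, hp t₁⟩ (δ.map hf') _ fun t => hp _
    have h2 : (⟨f' t₀, hp t₀⟩ : p ⁻¹' {f t₀}) = pt g (f t₀) := Subtype.ext h0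
    have h3 : pt (g * (ψ l)⁻¹) (f t₁) = cov.monodromy φ (pt g (f t₀)) := by
      change cov.monodromy (β (f t₁)) (cov.monodromyPerm x₀ (ψ.symm (g * (ψ l)⁻¹)⁻¹) e₀) = _
      rw [mul_inv_rev, inv_inv, map_mul, MulEquiv.symm_apply_apply, map_mul, Equiv.Perm.mul_apply,
        IsCoveringMap.coe_monodromyPerm (γ := l)]
      change cov.monodromy (β (f t₁))
        (cov.monodromy (((β (f t₀)).trans φ).trans (β (f t₁)).symm) _) = _
      rw [← cov.monodromy_trans_apply, Path.Homotopic.Quotient.trans_assoc,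
        Path.Homotopic.Quotient.symm_trans, Path.Homotopic.Quotient.trans_refl,
        cov.monodromy_trans_apply]
    change f' t₁ = (pt (g * (ψ l)⁻¹) (f t₁) : E)
    rw [h3, ← h2, h1]

end Crest.Agent.R197
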