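import Crest.Agent.R197.XLift

set_option autoImplicit false

noncomputable section

namespace Crest.Agent.R197

open Function Set Metric
open scoped ComplexConjugate

namespace XW

lemma log_lift {T : Type} [TopologicalSpace T] [ContractibleSpace T] (f : T → ℂ)
    (hf : Continuous f) (h0 : ∀ t, f t ≠ 0) :
    ∃ Λ : T → ℂ, Continuous Λ ∧ ∀ t, Complex.exp (Λ t) = f t := by
  obtain ⟨F, hF, hp⟩ := XL.lift_contractible Complex.isCoveringMap_exp
    (fun z => ⟨_, Subtype.ext (Complex.exp_log z.2)⟩) (fun t => ⟨f t, h0 t⟩) (hf.subtype_mk _)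
  exact ⟨F, hF, fun t => congrArg Subtype.val (hp t)⟩

lemma norm_cir (t : ℝ) : ‖cir t‖ = 1 := by
  unfold cir
  rw [show 2 * (Real.pi : ℂ) * Complex.I * t = ((2 * Real.pi * t : ℝ) : ℂ) * Complex.I by
    push_cast; ring]
  exact Complex.norm_exp_ofReal_mul_I _

lemma cir_cont : Continuous cir := by unfold cir; fun_prop

lemma cir_one : cir 1 = cir 0 := by
  unfold cir; simp [Complex.exp_two_pi_mul_I]

lemma part2 (f : ℂ → ℂ) (hf : Continuous f) (h0 : ∀ ζ, ‖ζ‖ ≤ 1 → f ζ ≠ 0) :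
    ∃ Λ : ℝ → ℂ, Continuous Λ ∧ (∀ t, Complex.exp (Λ t) = f (cir t)) ∧ Λ 1 = Λ 0 := by
  have hm : ∀ ζ : ℂ, 0 < max 1 ‖ζ‖ := fun ζ => lt_of_lt_of_le one_pos (le_max_left _ _)
  have hr : Continuous fun ζ : ℂ => (max 1 ‖ζ‖)⁻¹ • ζ :=
    ((continuous_const.max continuous_norm).inv₀ fun ζ => (hm ζ).ne').smul continuous_id
  obtain ⟨L, hL, hE⟩ := log_lift (fun ζ : ℂ => f ((max 1 ‖ζ‖)⁻¹ • ζ)) (hf.comp hr) fun ζ => by
    refine h0 _ ?_
    rw [norm_smul, norm_inv, Real.norm_of_nonneg (hm ζ).le, inv_mul_le_iff₀ (hm ζ), mul_one]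
    exact le_max_right _ _
  refine ⟨fun t => L (cir t), hL.comp cir_cont, fun t => ?_, congrArg L cir_one⟩
  rw [hE, norm_cir]; simp

/-- first coordinate of the line field -/
def n1 (ζ : ℂ) : ℝ := max 0 (1 - ‖ζ‖)

/-- squared length -/
def q (ζ : ℂ) : ℝ := n1 ζ ^ 2 + ‖ζ‖ ^ 2

lemma q_pos (ζ : ℂ) : 0 < q ζ := by
  unfold q
  rcases eq_or_ne ζ 0 with rfl | h
  · simp [n1]
  · have : 0 < ‖ζ‖ := norm_pos_iff.2 h
    positivity

lemma n1_cont : Continuous n1 := by unfold n1; fun_prop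

lemma qinv_cont : Continuous fun ζ => ((q ζ : ℂ))⁻¹ := by
  have := n1_cont
  refine Continuous.inv₀ (by unfold q; fun_prop) fun ζ => ?_
  exact_mod_cast (q_pos ζ).ne'

/-- the coefficient of the projection -/
def co (ζ : ℂ) (w : ℂ × ℂ) : ℂ := ((q ζ : ℂ))⁻¹ * (n1 ζ * w.1 + conj ζ * w.2)

open ContinuousLinearMap in
/-- the projection on the line through `(n1 ζ, ζ)` -/
def pj (ζ : ℂ) : ℂ × ℂ →L[ℂ] ℂ × ℂ :=
  (((q ζ : ℂ))⁻¹ * n1 ζ * n1 ζ) • (inl ℂ ℂ ℂ).comp (fst ℂ ℂ ℂ) +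
  (((q ζ : ℂ))⁻¹ * conj ζ * n1 ζ) • (inl ℂ ℂ ℂ).comp (snd ℂ ℂ ℂ) +
  (((q ζ : ℂ))⁻¹ * n1 ζ * ζ) • (inr ℂ ℂ ℂ).comp (fst ℂ ℂ ℂ) +
  (((q ζ : ℂ))⁻¹ * conj ζ * ζ) • (inr ℂ ℂ ℂ).comp (snd ℂ ℂ ℂ)

lemma pj_apply (ζ : ℂ) (w : ℂ × ℂ) : pj ζ w = (co ζ w * n1 ζ, co ζ w * ζ) := by
  ext <;> simp [pj, co] <;> ring

lemma pj_cont : Continuous pj := by
  have h1 := n1_cont
  have h2 := qinv_cont
  have h3 : Continuous fun ζ : ℂ => conj ζ := Complex.continuous_conj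
  unfold pj
  fun_prop

lemma co_mul (ζ c : ℂ) : co ζ (c * n1 ζ, c * ζ) = c := by
  have h : (q ζ : ℂ) ≠ 0 := by exact_mod_cast (q_pos ζ).ne'
  have h2 : (q ζ : ℂ) = n1 ζ * n1 ζ + conj ζ * ζ := by
    rw [Complex.conj_mul']; unfold q; push_cast; ring
  unfold co
  field_simp
  rw [h2]; ring

lemma pj_idem (ζ : ℂ) (w : ℂ × ℂ) : pj ζ (pj ζ w) = pj ζ w := by
  rw [pj_apply ζ w, pj_apply, co_mul]

lemma pj_out (ζ : ℂ) (h : 1 ≤ ‖ζ‖) (w : ℂ × ℂ) : pj ζ w = (0, w.2) := by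
  have h1 : n1 ζ = 0 := max_eq_left (by linarith)
  have h0 : (q ζ : ℂ) ≠ 0 := by exact_mod_cast (q_pos ζ).ne'
  have h2 : (q ζ : ℂ) = conj ζ * ζ := by
    rw [Complex.conj_mul']; unfold q; rw [h1]; push_cast; ring
  rw [pj_apply, co, h1]
  ext
  · simp
  · simp only [Complex.ofReal_zero, zero_mul, zero_add]
    field_simp
    rw [h2]; ring

lemma pj_fix (ζ : ℂ) : ∃ w : ℂ × ℂ, w ≠ 0 ∧ pj ζ w = w := by
  refine ⟨(1 * n1 ζ, 1 * ζ), fun h => ?_, by rw [pj_apply, co_mul]⟩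
  have := co_mul ζ 1
  rw [h] at this
  simp [co] at this

lemma section_ex {E W : Type} [TopologicalSpace E] [ContractibleSpace E] [NormedAddCommGroup W]
    [NormedSpace ℂ W] (P : E → W →L[ℂ] W) (hP : Continuous P) (h1 : ∀ x w, P x (P x w) = P x w)
    (h2 : ∀ x, ∃ w, w ≠ 0 ∧ P x w = w) (K : Set E) (hK : IsCompact K) :
    ∃ z : E → W, Continuous z ∧ (∀ x, P x (z x) = z x) ∧ ∀ x ∈ K, z x ≠ 0 := by
  obtain ⟨e, ⟨H⟩⟩ := id_nullhomotopic E
  have hH : Continuous H := H.continuous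
  let S : unitInterval → Prop := fun s =>
    ∃ z : E → W, Continuous z ∧ (∀ x, P (H (s, x)) (z x) = z x) ∧ ∀ x ∈ K, z x ≠ 0
  have step : ∀ s t, (∀ x ∈ K, ‖P (H (t, x)) - P (H (s, x))‖ < 1) → S s → S t := by
    rintro s t hst ⟨z, hz, hz1, hz2⟩
    refine ⟨fun x => P (H (t, x)) (z x), Continuous.clm_apply (by fun_prop) hz, fun x => h1 _ _,
      fun x hx h0 => ?_⟩
    have h3 := (P (H (t, x)) - P (H (s, x))).le_opNorm (z x)
    have h0' : P (H (t, x)) (z x) = 0 := h0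
    rw [sub_apply, h0', hz1, zero_sub, norm_neg] at h3
    have h4 : 0 < ‖z x‖ := norm_pos_iff.2 (hz2 x hx)
    nlinarith [hst x hx]
  have hS : IsLocallyConstant S := by
    refine (IsLocallyConstant.iff_eventually_eq S).2 fun s => ?_
    have h3 : ∀ᶠ t in nhds s, ∀ x ∈ K, ‖P (H (t, x)) - P (H (s, x))‖ < 1 := by
      refine hK.eventually_forall_of_forall_eventually
        (P := fun t x => ‖P (H (t, x)) - P (H (s, x))‖ < 1) fun y _ => ?_
      have hc : Continuous fun z : unitInterval × E => ‖P (H (z.1, z.2)) - P (H (s, z.2))‖ := by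
        fun_prop
      exact hc.continuousAt.eventually_lt continuousAt_const (by simp)
    filter_upwards [h3] with t ht
    exact propext ⟨step t s fun x hx => by rw [norm_sub_rev]; exact ht x hx, step s t ht⟩
  have hS1 : S 1 := by
    obtain ⟨w, hw, hw'⟩ := h2 e
    refine ⟨fun _ => w, continuous_const, fun x => ?_, fun _ _ => hw⟩
    rw [H.apply_one]; exact hw'
  obtain ⟨z, hz, hz1, hz2⟩ : S 0 := by rw [hS.apply_eq_of_preconnectedSpace 0 1]; exact hS1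
  refine ⟨z, hz, fun x => ?_, hz2⟩
  have := hz1 x
  rwa [H.apply_zero] at this

end XW

open XW in
theorem xwind : WindStmt := by
  refine ⟨fun f z₀ hf h0 hz => ?_, part2, fun Λ Λ' h h' he => ?_, ?_⟩
  · obtain ⟨L, hL, hE⟩ := log_lift f hf h0
    refine ⟨fun t => L t - L 0 + z₀, by fun_prop, fun t => ?_, by simp⟩
    rw [Complex.exp_add, Complex.exp_sub, hE, hE, hz, div_mul_cancel₀ _ (h0 0)]
  · have h1 : ∀ t ∈ Icc (0 : ℝ) 1, Complex.exp (Λ t - Λ' t) = 1 := fun t ht => by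
      rw [Complex.exp_sub, he t ht, div_self (Complex.exp_ne_zero _)]
    have := Complex.isCoveringMap_exp.constOn_of_comp (g := fun t => Λ t - Λ' t)
      (isPreconnected_Icc (a := (0 : ℝ)) (b := 1)) (h.sub h').continuousOn
      (fun a ha a' ha' => Subtype.ext ((h1 a ha).trans (h1 a' ha').symm))
      (right_mem_Icc.2 zero_le_one) (left_mem_Icc.2 zero_le_one)
    linear_combination this
  · intro E _ _ χ K hχ hK hsub hcol
    obtain ⟨P, hP, hP1, hP2⟩ := hcol _ pj (pj 1) pj_cont fun ζ hζ => by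
      ext1 <;> ext1 <;> simp [pj_out ζ hζ, pj_out 1 (by simp)]
    have hP3 : ∀ x, ∃ ζ, P x = pj ζ := by
      intro x
      by_cases hx : x ∈ χ '' ball 0 1
      · obtain ⟨ζ, -, rfl⟩ := hx; exact ⟨ζ, hP1 ζ⟩
      · exact ⟨1, hP2 x hx⟩
    obtain ⟨z, hz, hz1, hz2⟩ := section_ex P hP
      (fun x w => by obtain ⟨ζ, h⟩ := hP3 x; rw [h, pj_idem])
      (fun x => by obtain ⟨ζ, h⟩ := hP3 x; rw [h]; exact pj_fix ζ) K hK
    refine ⟨fun x => (z x).2, hz.snd, fun x hx hx' h0 => ?_, ?_⟩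
    · have := hz1 x
      have h0' : (z x).2 = 0 := h0
      rw [hP2 x hx', pj_out 1 (by simp), h0'] at this
      exact hz2 x hx this.symm
    · have h1 : ∀ ζ, z (χ ζ) = (co ζ (z (χ ζ)) * n1 ζ, co ζ (z (χ ζ)) * ζ) := fun ζ => by
        rw [← pj_apply, ← hP1, hz1]
      obtain ⟨L, hL, hE, hL1⟩ := part2 (fun ζ => co ζ (z (χ ζ))) (by
        have h1 := n1_cont
        have h2 := qinv_cont
        have h3 : Continuous fun ζ : ℂ => conj ζ := Complex.continuous_conj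
        unfold co
        fun_prop) fun ζ hζ h0 => by
          refine hz2 (χ ζ) (hsub ⟨ζ, by simpa using hζ, rfl⟩) ?_
          rw [h1, h0]; simp
      refine ⟨fun t => L t + 2 * Real.pi * Complex.I * t, by fun_prop, fun t => ?_, by simp [hL1]⟩
      rw [Complex.exp_add, hE]
      change _ = (z (χ (cir t))).2
      conv_rhs => rw [h1]
      rfl

end Crest.Agent.R197
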